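import Vale.Agent.Lib.P040.Static

/-!
Construction of a sweep from a point configuration in general position.
-/

namespace Vale.Agent.Lib.P040

open Finset

/-- Slopes of the pairs of a configuration, sorted. -/
structure SlopeData (α : Type) where
  X : α → ℝ
  Y : α → ℝ
  T : α → α → ℕ
  M : ℕ
  hY : Function.Injective Y
  hgen : ∀ r s q, r ≠ s → s ≠ q → r ≠ q → Det X Y r s q ≠ 0
  T_lt : ∀ r s, Y s < Y r → T r s < M
  T_inj : ∀ r s r' s', Y s < Y r → Y s' < Y r' → T r s = T r' s' → r = r' ∧ s = s'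
  T_surj : ∀ j, j < M → ∃ r s, Y s < Y r ∧ T r s = j
  T_pos : ∀ u v w, Y w < Y v → Y v < Y u → 0 < Det X Y u v w → T u v < T u w ∧ T u w < T v w
  T_neg : ∀ u v w, Y w < Y v → Y v < Y u → Det X Y u v w < 0 → T v w < T u w ∧ T u w < T u v

namespace SlopeData

variable {α : Type} (D : SlopeData α)

/-- The order at a given time. -/
def bef (i : ℕ) (r q : α) : Prop :=
  (D.Y q < D.Y r ∧ i ≤ D.T r q) ∨ (D.Y r < D.Y q ∧ D.T q r < i)

lemma bef_irrefl (i : ℕ) (r : α) : ¬ D.bef i r r := by
  simp [bef]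

lemma bef_total (i : ℕ) {r q : α} (h : r ≠ q) : D.bef i r q ∨ D.bef i q r := by
  have hne : D.Y r ≠ D.Y q := fun e => h (D.hY e)
  rcases lt_or_gt_of_ne hne with h1 | h1
  · by_cases h2 : D.T q r < i
    · exact Or.inl (Or.inr ⟨h1, h2⟩)
    · exact Or.inr (Or.inl ⟨h1, by omega⟩)
  · by_cases h2 : D.T r q < i
    · exact Or.inr (Or.inr ⟨h1, h2⟩)
    · exact Or.inl (Or.inl ⟨h1, by omega⟩)

lemma bef_asymm (i : ℕ) {r q : α} (h : D.bef i r q) : ¬ D.bef i q r := by
  unfold bef at *
  rcases h with ⟨h1, h2⟩ | ⟨h1, h2⟩ <;> rintro (⟨h3, h4⟩ | ⟨h3, h4⟩)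
  · exact absurd h1 (not_lt.mpr h3.le)
  · omega
  · omega
  · exact absurd h1 (not_lt.mpr h3.le)

lemma no_cycle_top (i : ℕ) {r q u : α} (hq : D.Y q < D.Y r) (hu : D.Y u < D.Y r)
    (h1 : D.bef i r q) (h2 : D.bef i q u) (h3 : D.bef i u r) : False := by
  have h1' : i ≤ D.T r q := by
    rcases h1 with ⟨_, h⟩ | ⟨h, _⟩
    · exact h
    · exact absurd hq (not_lt.mpr h.le)
  have h3' : D.T r u < i := by
    rcases h3 with ⟨h, _⟩ | ⟨_, h⟩
    · exact absurd hu (not_lt.mpr h.le)
    · exact h
  have hqu : q ≠ u := by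
    rintro rfl
    exact D.bef_irrefl i q h2
  have hru : r ≠ u := by
    rintro rfl
    exact lt_irrefl _ hu
  have hrq : r ≠ q := by
    rintro rfl
    exact lt_irrefl _ hq
  rcases lt_or_gt_of_ne (fun e => hqu (D.hY e) : D.Y q ≠ D.Y u) with h | h
  · -- `r`, `u`, `q` in decreasing height
    have h2' : D.T u q < i := by
      rcases h2 with ⟨e, _⟩ | ⟨_, e⟩
      · exact absurd h (not_lt.mpr e.le)
      · exact e
    rcases lt_or_gt_of_ne (D.hgen r u q hru (Ne.symm hqu) hrq) with e | e
    · have := D.T_neg r u q h hu e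
      omega
    · have := D.T_pos r u q h hu e
      omega
  · -- `r`, `q`, `u` in decreasing height
    have h2' : i ≤ D.T q u := by
      rcases h2 with ⟨_, e⟩ | ⟨e, _⟩
      · exact e
      · exact absurd h (not_lt.mpr e.le)
    rcases lt_or_gt_of_ne (D.hgen r q u hrq hqu hru) with e | e
    · have := D.T_neg r q u h hq e
      omega
    · have := D.T_pos r q u h hq e
      omega

lemma no_cycle (i : ℕ) {r q u : α} (h1 : D.bef i r q) (h2 : D.bef i q u) (h3 : D.bef i u r) :
    False := by
  have hrq : r ≠ q := by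
    rintro rfl
    exact D.bef_irrefl i r h1
  have hqu : q ≠ u := by
    rintro rfl
    exact D.bef_irrefl i q h2
  have hur : u ≠ r := by
    rintro rfl
    exact D.bef_irrefl i u h3
  have a1 : D.Y r ≠ D.Y q := fun e => hrq (D.hY e)
  have a2 : D.Y q ≠ D.Y u := fun e => hqu (D.hY e)
  have a3 : D.Y u ≠ D.Y r := fun e => hur (D.hY e)
  rcases lt_or_gt_of_ne a1 with b1 | b1 <;> rcases lt_or_gt_of_ne a2 with b2 | b2 <;>
    rcases lt_or_gt_of_ne a3 with b3 | b3
  · linarith
  · exact D.no_cycle_top i b3 b2 h3 h1 h2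
  · exact D.no_cycle_top i b2 b1 h2 h3 h1
  · exact D.no_cycle_top i b2 b1 h2 h3 h1
  · exact D.no_cycle_top i b1 b3 h1 h2 h3
  · exact D.no_cycle_top i b3 b2 h3 h1 h2
  · exact D.no_cycle_top i b1 b3 h1 h2 h3
  · linarith

lemma bef_trans (i : ℕ) {r q u : α} (h1 : D.bef i r q) (h2 : D.bef i q u) : D.bef i r u := by
  have hru : r ≠ u := by
    rintro rfl
    exact D.bef_asymm i h1 h2
  rcases D.bef_total i hru with h | h
  · exact h
  · exact (D.no_cycle i h1 h2 h).elim

section Pos

variable [Fintype α]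

open scoped Classical in
/-- The position at a given time. -/
noncomputable def pos0 (i : ℕ) (q : α) : ℕ := (univ.filter (fun r => D.bef i r q)).card

lemma pos0_lt_of_bef {i : ℕ} {r q : α} (h : D.bef i r q) : D.pos0 i r < D.pos0 i q := by
  classical
  unfold pos0
  apply Finset.card_lt_card
  rw [Finset.ssubset_iff_of_subset]
  · refine ⟨r, by simp [h], ?_⟩
    simp [D.bef_irrefl]
  · intro u hu
    simp only [Finset.mem_filter, Finset.mem_univ, true_and] at hu ⊢
    exact D.bef_trans i hu h

lemma bef_of_pos0_lt {i : ℕ} {r q : α} (h : D.pos0 i r < D.pos0 i q) : D.bef i r q := by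
  have hne : r ≠ q := by
    rintro rfl
    exact lt_irrefl _ h
  rcases D.bef_total i hne with h1 | h1
  · exact h1
  · have := D.pos0_lt_of_bef h1
    omega

lemma pos0_lt_iff {i : ℕ} {r q : α} : D.pos0 i r < D.pos0 i q ↔ D.bef i r q :=
  ⟨D.bef_of_pos0_lt, D.pos0_lt_of_bef⟩

lemma pos0_inj (i : ℕ) : Function.Injective (D.pos0 i) := by
  intro r q e
  by_contra hne
  rcases D.bef_total i hne with h | h
  · have := D.pos0_lt_of_bef h
    omega
  · have := D.pos0_lt_of_bef h
    omega

lemma pos0_lt_card (i : ℕ) (q : α) : D.pos0 i q < Fintype.card α := by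
  classical
  unfold pos0
  apply Finset.card_lt_univ_of_notMem (x := q)
  simp [D.bef_irrefl]

section Step

variable {i : ℕ} {r0 s0 : α} (hY : D.Y s0 < D.Y r0) (hT : D.T r0 s0 = i)

include hY hT

omit [Fintype α] in
lemma bef_step {r q : α} (h1 : ¬ (r = r0 ∧ q = s0)) (h2 : ¬ (r = s0 ∧ q = r0)) :
    D.bef (i + 1) r q ↔ D.bef i r q := by
  unfold bef
  constructor
  · rintro (⟨a, b⟩ | ⟨a, b⟩)
    · exact Or.inl ⟨a, by omega⟩
    · refine Or.inr ⟨a, ?_⟩
      have hne : D.T q r ≠ i := by
        intro e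
        obtain ⟨e1, e2⟩ := D.T_inj q r r0 s0 a hY (e.trans hT.symm)
        exact h2 ⟨e2, e1⟩
      omega
  · rintro (⟨a, b⟩ | ⟨a, b⟩)
    · refine Or.inl ⟨a, ?_⟩
      have hne : D.T r q ≠ i := by
        intro e
        obtain ⟨e1, e2⟩ := D.T_inj r q r0 s0 a hY (e.trans hT.symm)
        exact h1 ⟨e1, e2⟩
      omega
    · exact Or.inr ⟨a, by omega⟩

omit [Fintype α] in
lemma bef_r0_s0 : D.bef i r0 s0 := Or.inl ⟨hY, hT.ge⟩

omit [Fintype α] in
lemma bef_s0_r0_succ : D.bef (i + 1) s0 r0 := Or.inr ⟨hY, by omega⟩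

omit [Fintype α] in
lemma r0_ne_s0 : r0 ≠ s0 := by
  rintro rfl
  exact lt_irrefl _ hY

omit [Fintype α] in
lemma bef_adj {q : α} (h1 : q ≠ r0) (h2 : q ≠ s0) : D.bef i q s0 ↔ D.bef i q r0 := by
  constructor
  · intro h
    by_contra hn
    have h3 : D.bef i r0 q := (D.bef_total i h1).resolve_left hn
    have h4 : D.bef (i + 1) r0 q := (D.bef_step hY hT (r := r0) (q := q)
      (fun e => h2 e.2) (fun e => (D.r0_ne_s0 hY hT) e.1)).mpr h3
    have h5 : D.bef (i + 1) q s0 := (D.bef_step hY hT (r := q) (q := s0)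
      (fun e => h1 e.1) (fun e => h2 e.1)).mpr h
    exact D.bef_asymm (i + 1) (D.bef_trans (i + 1) h4 h5) (D.bef_s0_r0_succ hY hT)
  · intro h
    exact D.bef_trans i h (D.bef_r0_s0 hY hT)

lemma pos0_hi : D.pos0 i s0 = D.pos0 i r0 + 1 := by
  classical
  unfold pos0
  have hn : r0 ∉ univ.filter (fun r => D.bef i r r0) := by
    simp [D.bef_irrefl]
  rw [← Finset.card_insert_of_notMem hn]
  congr 1
  ext q
  simp only [Finset.mem_filter, Finset.mem_univ, true_and, Finset.mem_insert]
  by_cases h1 : q = r0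
  · subst h1
    simp [D.bef_r0_s0 hY hT]
  · by_cases h2 : q = s0
    · subst h2
      have := D.bef_asymm i (D.bef_r0_s0 hY hT)
      simp [D.bef_irrefl, h1, this]
    · simp [h1, D.bef_adj hY hT h1 h2]

lemma pos0_succ_hi : D.pos0 (i + 1) s0 = D.pos0 i r0 := by
  classical
  unfold pos0
  congr 1
  ext q
  simp only [Finset.mem_filter, Finset.mem_univ, true_and]
  by_cases h1 : q = r0
  · subst h1
    have := D.bef_asymm (i + 1) (D.bef_s0_r0_succ hY hT)
    simp [D.bef_irrefl, this]
  · by_cases h2 : q = s0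
    · subst h2
      have := D.bef_asymm i (D.bef_r0_s0 hY hT)
      simp [D.bef_irrefl, this]
    · rw [D.bef_step hY hT (fun e => h1 e.1) (fun e => h2 e.1), D.bef_adj hY hT h1 h2]

lemma pos0_succ_lo : D.pos0 (i + 1) r0 = D.pos0 i s0 := by
  classical
  rw [D.pos0_hi hY hT, ← D.pos0_succ_hi hY hT]
  unfold pos0
  have hn : s0 ∉ univ.filter (fun r => D.bef (i + 1) r s0) := by
    simp [D.bef_irrefl]
  rw [← Finset.card_insert_of_notMem hn]
  congr 1
  ext q
  simp only [Finset.mem_filter, Finset.mem_univ, true_and, Finset.mem_insert]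
  by_cases h2 : q = s0
  · subst h2
    simp [D.bef_s0_r0_succ hY hT]
  · by_cases h1 : q = r0
    · subst h1
      have := D.bef_asymm (i + 1) (D.bef_s0_r0_succ hY hT)
      simp [D.bef_irrefl, h2, this]
    · rw [D.bef_step hY hT (r := q) (q := r0) (fun e => h1 e.1) (fun e => h2 e.1),
        D.bef_step hY hT (r := q) (q := s0) (fun e => h1 e.1) (fun e => h2 e.1),
        D.bef_adj hY hT h1 h2]
      simp [h2]

lemma pos0_succ_other {q : α} (h1 : q ≠ r0) (h2 : q ≠ s0) : D.pos0 (i + 1) q = D.pos0 i q := by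
  classical
  unfold pos0
  congr 1
  ext r
  simp only [Finset.mem_filter, Finset.mem_univ, true_and]
  exact D.bef_step hY hT (fun e => h2 e.2) (fun e => h1 e.2)

end Step

omit [Fintype α] in
lemma bef_M_iff {r q : α} (h : r ≠ q) : D.bef D.M r q ↔ D.bef 0 q r := by
  have hne : D.Y r ≠ D.Y q := fun e => h (D.hY e)
  unfold bef
  rcases lt_or_gt_of_ne hne with h1 | h1
  · have := D.T_lt q r h1
    constructor
    · rintro (⟨a, _⟩ | ⟨_, _⟩)
      · exact absurd h1 (not_lt.mpr a.le)
      · exact Or.inl ⟨h1, Nat.zero_le _⟩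
    · intro _
      exact Or.inr ⟨h1, this⟩
  · have := D.T_lt r q h1
    constructor
    · rintro (⟨_, a⟩ | ⟨a, _⟩)
      · omega
      · exact absurd h1 (not_lt.mpr a.le)
    · rintro (⟨a, _⟩ | ⟨_, a⟩)
      · exact absurd h1 (not_lt.mpr a.le)
      · omega

lemma pos0_end (q : α) : D.pos0 D.M q + D.pos0 0 q + 1 = Fintype.card α := by
  classical
  unfold pos0
  have e1 : univ.filter (fun r => D.bef D.M r q) = univ.filter (fun r => D.bef 0 q r) := by
    ext r
    simp only [Finset.mem_filter, Finset.mem_univ, true_and]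
    by_cases h : r = q
    · subst h
      simp [D.bef_irrefl]
    · exact D.bef_M_iff h
  rw [e1]
  have hdisj : Disjoint (univ.filter (fun r => D.bef 0 q r)) (univ.filter (fun r => D.bef 0 r q)) := by
    rw [Finset.disjoint_left]
    intro r h1 h2
    simp only [Finset.mem_filter, Finset.mem_univ, true_and] at h1 h2
    exact D.bef_asymm 0 h1 h2
  rw [← Finset.card_union_of_disjoint hdisj]
  have hn : q ∉ (univ.filter (fun r => D.bef 0 q r)) ∪ (univ.filter (fun r => D.bef 0 r q)) := by
    simp [D.bef_irrefl]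
  rw [← Finset.card_insert_of_notMem hn, Fintype.card, ]
  congr 1
  ext r
  simp only [Finset.mem_insert, Finset.mem_union, Finset.mem_filter, Finset.mem_univ, true_and,
    iff_true]
  by_cases h : r = q
  · exact Or.inl h
  · exact Or.inr ((D.bef_total 0 h).symm)

section Full

variable (r0 s0 : ℕ → α)

/-- The position at any time. -/
noncomputable def posT (t : ℕ) (q : α) : ℕ :=
  if Even (t / D.M) then D.pos0 (t % D.M) q else Fintype.card α - 1 - D.pos0 (t % D.M) q

/-- The element moving up at any time. -/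
noncomputable def loT (t : ℕ) : α := if Even (t / D.M) then r0 (t % D.M) else s0 (t % D.M)

/-- The element moving down at any time. -/
noncomputable def hiT (t : ℕ) : α := if Even (t / D.M) then s0 (t % D.M) else r0 (t % D.M)

/-- The position at the next time. -/
lemma posT_succ (hM : 0 < D.M) (t : ℕ) (q : α) :
    D.posT (t + 1) q = if Even (t / D.M) then D.pos0 (t % D.M + 1) q
      else Fintype.card α - 1 - D.pos0 (t % D.M + 1) q := by
  unfold posT
  have hj : t % D.M < D.M := Nat.mod_lt _ hM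
  have ht : t = D.M * (t / D.M) + t % D.M := (Nat.div_add_mod t D.M).symm
  set k := t / D.M with hk
  set j := t % D.M with hjd
  by_cases h : j + 1 < D.M
  · have e1 : (t + 1) / D.M = k := by
      rw [ht, Nat.add_assoc, Nat.mul_add_div hM, Nat.div_eq_of_lt h, Nat.add_zero]
    have e2 : (t + 1) % D.M = j + 1 := by
      rw [ht, Nat.add_assoc, Nat.mul_add_mod, Nat.mod_eq_of_lt h]
    rw [e1, e2]
  · have hjM : j + 1 = D.M := by omega
    have e1 : (t + 1) / D.M = k + 1 := by
      rw [ht, Nat.add_assoc, hjM, Nat.mul_add_div hM, Nat.div_self hM]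
    have e2 : (t + 1) % D.M = 0 := by
      rw [ht, Nat.add_assoc, hjM, Nat.mul_add_mod, Nat.mod_self]
    rw [e1, e2, hjM]
    have hend := D.pos0_end q
    have hb1 := D.pos0_lt_card 0 q
    have hb2 := D.pos0_lt_card D.M q
    by_cases hev : Even k
    · rw [if_neg (by simpa [Nat.even_add_one] using hev), if_pos hev]
      omega
    · rw [if_pos (by simpa [Nat.even_add_one] using hev), if_neg hev]
      omega

/-- The sequence of orders as a pre-sweep. -/
noncomputable def toPre (hM : 0 < D.M) (h1 : ∀ j, j < D.M → D.Y (s0 j) < D.Y (r0 j))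
    (h2 : ∀ j, j < D.M → D.T (r0 j) (s0 j) = j) : PreSweep α where
  pos := D.posT
  lo := D.loT r0 s0
  hi := D.hiT r0 s0
  pos_inj := by
    intro i r q e
    unfold posT at e
    split_ifs at e
    · exact D.pos0_inj _ e
    · have a1 := D.pos0_lt_card (i % D.M) r
      have a2 := D.pos0_lt_card (i % D.M) q
      exact D.pos0_inj (i % D.M) (by omega)
  adj := by
    intro i
    have hj := Nat.mod_lt i hM
    have hadj := D.pos0_hi (h1 _ hj) (h2 _ hj)
    unfold posT loT hiT
    by_cases hev : Even (i / D.M)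
    · simp only [if_pos hev]
      exact hadj
    · simp only [if_neg hev]
      have a1 := D.pos0_lt_card (i % D.M) (s0 (i % D.M))
      omega
  next_lo := by
    intro i
    have hj := Nat.mod_lt i hM
    have h3 := D.pos0_succ_lo (h1 _ hj) (h2 _ hj)
    have h4 := D.pos0_succ_hi (h1 _ hj) (h2 _ hj)
    rw [D.posT_succ hM]
    unfold posT loT hiT
    by_cases hev : Even (i / D.M)
    · simp only [if_pos hev]
      exact h3
    · simp only [if_neg hev]
      rw [h4]
  next_hi := by
    intro i
    have hj := Nat.mod_lt i hM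
    have h3 := D.pos0_succ_lo (h1 _ hj) (h2 _ hj)
    have h4 := D.pos0_succ_hi (h1 _ hj) (h2 _ hj)
    rw [D.posT_succ hM]
    unfold posT loT hiT
    by_cases hev : Even (i / D.M)
    · simp only [if_pos hev]
      exact h4
    · simp only [if_neg hev]
      rw [h3]
  next_other := by
    intro i q a1 a2
    have hj := Nat.mod_lt i hM
    rw [D.posT_succ hM]
    unfold posT
    unfold loT at a1
    unfold hiT at a2
    by_cases hev : Even (i / D.M)
    · simp only [if_pos hev] at a1 a2 ⊢
      exact D.pos0_succ_other (h1 _ hj) (h2 _ hj) a1 a2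
    · simp only [if_neg hev] at a1 a2 ⊢
      rw [D.pos0_succ_other (h1 _ hj) (h2 _ hj) a2 a1]

/-- The rank of the slope of an unordered pair. -/
noncomputable def Tsym (u v : α) : ℕ := by
  classical
  exact if D.Y v < D.Y u then D.T u v else D.T v u

omit [Fintype α] in
lemma Tsym_comm {u v : α} (h : u ≠ v) : D.Tsym u v = D.Tsym v u := by
  have hne : D.Y u ≠ D.Y v := fun e => h (D.hY e)
  unfold Tsym
  rcases lt_or_gt_of_ne hne with h1 | h1
  · simp [h1, not_lt.mpr h1.le]
  · simp [h1, not_lt.mpr h1.le]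

omit [Fintype α] in
lemma Tsym_at (hM : 0 < D.M) (h1 : ∀ j, j < D.M → D.Y (s0 j) < D.Y (r0 j))
    (h2 : ∀ j, j < D.M → D.T (r0 j) (s0 j) = j) (t : ℕ) :
    D.Tsym (D.loT r0 s0 t) (D.hiT r0 s0 t) = t % D.M := by
  have hj := Nat.mod_lt t hM
  unfold Tsym loT hiT
  by_cases hev : Even (t / D.M)
  · simp only [if_pos hev, if_pos (h1 _ hj)]
    exact h2 _ hj
  · simp only [if_neg hev, if_neg (not_lt.mpr (h1 _ hj).le)]
    exact h2 _ hj

/-- The full sweep of the configuration. -/
noncomputable def toSweep (hM : 0 < D.M) (h1 : ∀ j, j < D.M → D.Y (s0 j) < D.Y (r0 j))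
    (h2 : ∀ j, j < D.M → D.T (r0 j) (s0 j) = j) : Sweep α D.M where
  toPreSweep := D.toPre r0 s0 hM h1 h2
  anti := by
    intro i q
    show D.posT (i + D.M) q + D.posT i q + 1 = Fintype.card α
    unfold posT
    rw [Nat.add_div_right _ hM, Nat.add_mod_right]
    have a1 := D.pos0_lt_card (i % D.M) q
    by_cases hev : Even (i / D.M)
    · rw [if_neg (by simpa [Nat.even_add_one] using hev), if_pos hev]
      omega
    · rw [if_pos (by simpa [Nat.even_add_one] using hev), if_neg hev]
      omega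
  lo_add := by
    intro i
    show D.loT r0 s0 (i + D.M) = D.hiT r0 s0 i
    unfold loT hiT
    rw [Nat.add_div_right _ hM, Nat.add_mod_right]
    by_cases hev : Even (i / D.M)
    · rw [if_neg (by simpa [Nat.even_add_one] using hev), if_pos hev]
    · rw [if_pos (by simpa [Nat.even_add_one] using hev), if_neg hev]
  hi_add := by
    intro i
    show D.hiT r0 s0 (i + D.M) = D.loT r0 s0 i
    unfold loT hiT
    rw [Nat.add_div_right _ hM, Nat.add_mod_right]
    by_cases hev : Even (i / D.M)
    · rw [if_neg (by simpa [Nat.even_add_one] using hev), if_pos hev]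
    · rw [if_pos (by simpa [Nat.even_add_one] using hev), if_neg hev]
  conv := by
    intro r s i j k hij hjk hk h3 h4
    set P := D.toPre r0 s0 hM h1 h2 with hP
    show P.pos j r < P.pos j s
    by_contra hn
    have hrs : r ≠ s := by
      rintro rfl
      exact lt_irrefl _ h3
    have hne : P.pos j r ≠ P.pos j s := fun e => hrs (P.pos_inj j e)
    have h5 : P.pos j s < P.pos j r := by omega
    obtain ⟨t1, a1, a2, a3, a4⟩ := P.exists_flip hij h3 h5
    obtain ⟨t2, b1, b2, b3, b4⟩ := P.exists_flip hjk h5 h4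
    have c1 := D.Tsym_at r0 s0 hM h1 h2 t1
    have c2 := D.Tsym_at r0 s0 hM h1 h2 t2
    have a3' : D.loT r0 s0 t1 = r := a3
    have a4' : D.hiT r0 s0 t1 = s := a4
    have b3' : D.loT r0 s0 t2 = s := b3
    have b4' : D.hiT r0 s0 t2 = r := b4
    rw [a3', a4'] at c1
    rw [b3', b4', D.Tsym_comm hrs.symm, c1] at c2
    have c3 := Nat.sub_mod_eq_zero_of_mod_eq c2.symm
    rw [Nat.mod_eq_of_lt (by omega)] at c3
    omega

omit [Fintype α] in
lemma bef_iff_det {i : ℕ} {r0 s0 q : α} (hY : D.Y s0 < D.Y r0) (hT : D.T r0 s0 = i)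
    (h1 : q ≠ r0) (h2 : q ≠ s0) : D.bef i q r0 ↔ Det D.X D.Y r0 s0 q < 0 := by
  have hrs : r0 ≠ s0 := D.r0_ne_s0 hY hT
  have hdet := D.hgen r0 s0 q hrs (Ne.symm h2) (Ne.symm h1)
  have a1 : D.Y q ≠ D.Y r0 := fun e => h1 (D.hY e)
  have a2 : D.Y q ≠ D.Y s0 := fun e => h2 (D.hY e)
  rcases lt_or_gt_of_ne a1 with b1 | b1
  · -- `q` below `r0`
    have e0 : D.bef i q r0 ↔ D.T r0 q < i := by
      unfold bef
      constructor
      · rintro (⟨e, _⟩ | ⟨_, e⟩)
        · exact absurd b1 (not_lt.mpr e.le)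
        · exact e
      · intro e
        exact Or.inr ⟨b1, e⟩
    rw [e0]
    rcases lt_or_gt_of_ne a2 with b2 | b2
    · -- below `s0`: the triple `r0, s0, q`
      rcases lt_or_gt_of_ne hdet with e | e
      · have := D.T_neg r0 s0 q b2 hY e
        constructor
        · intro _; exact e
        · intro _; omega
      · have := D.T_pos r0 s0 q b2 hY e
        constructor
        · intro _; omega
        · intro h3; exact absurd h3 (not_lt.mpr e.le)
    · -- above `s0`: the triple `r0, q, s0`
      have e1 : Det D.X D.Y r0 q s0 = - Det D.X D.Y r0 s0 q := by unfold Det; ring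
      rcases lt_or_gt_of_ne hdet with e | e
      · have := D.T_pos r0 q s0 b2 b1 (by rw [e1]; linarith)
        constructor
        · intro _; exact e
        · intro _; omega
      · have := D.T_neg r0 q s0 b2 b1 (by rw [e1]; linarith)
        constructor
        · intro _; omega
        · intro h3; exact absurd h3 (not_lt.mpr e.le)
  · -- `q` above `r0`: the triple `q, r0, s0`
    have e0 : D.bef i q r0 ↔ i ≤ D.T q r0 := by
      unfold bef
      constructor
      · rintro (⟨_, e⟩ | ⟨e, _⟩)
        · exact e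
        · exact absurd b1 (not_lt.mpr e.le)
      · intro e
        exact Or.inl ⟨b1, e⟩
    rw [e0]
    have e1 : Det D.X D.Y q r0 s0 = Det D.X D.Y r0 s0 q := (Det_cycle D.X D.Y q r0 s0).symm
    rcases lt_or_gt_of_ne hdet with e | e
    · have := D.T_neg q r0 s0 hY b1 (by rw [e1]; exact e)
      constructor
      · intro _; exact e
      · intro _; omega
    · have := D.T_pos q r0 s0 hY b1 (by rw [e1]; exact e)
      constructor
      · intro _; omega
      · intro h3; exact absurd h3 (not_lt.mpr e.le)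

omit [Fintype α] in
lemma bef_iff_det' {i : ℕ} {r0 s0 q : α} (hY : D.Y s0 < D.Y r0) (hT : D.T r0 s0 = i)
    (h1 : q ≠ r0) (h2 : q ≠ s0) : D.bef i s0 q ↔ Det D.X D.Y s0 r0 q < 0 := by
  have hrs : r0 ≠ s0 := D.r0_ne_s0 hY hT
  have hdet := D.hgen r0 s0 q hrs (Ne.symm h2) (Ne.symm h1)
  have e1 : D.bef i s0 q ↔ ¬ D.bef i q s0 := by
    constructor
    · exact D.bef_asymm i
    · intro h
      exact (D.bef_total i h2).resolve_left h
  rw [e1, D.bef_adj hY hT h1 h2, D.bef_iff_det hY hT h1 h2, Det_swap D.X D.Y r0 s0 q]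
  constructor
  · intro h
    have : 0 < Det D.X D.Y r0 s0 q := lt_of_le_of_ne (not_lt.mp h) (Ne.symm hdet)
    linarith
  · intro h
    have : 0 < Det D.X D.Y r0 s0 q := by linarith
    exact not_lt.mpr this.le

/-- The sweep is compatible with the determinant. -/
lemma toSweep_bridge (hM : 0 < D.M) (h1 : ∀ j, j < D.M → D.Y (s0 j) < D.Y (r0 j))
    (h2 : ∀ j, j < D.M → D.T (r0 j) (s0 j) = j) :
    (D.toSweep r0 s0 hM h1 h2).Bridge D.X D.Y := by
  intro t q a1 a2
  have hj := Nat.mod_lt t hM
  change q ≠ D.loT r0 s0 t at a1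
  change q ≠ D.hiT r0 s0 t at a2
  change D.posT t q < D.posT t (D.loT r0 s0 t) ↔ Det D.X D.Y (D.loT r0 s0 t) (D.hiT r0 s0 t) q < 0
  unfold loT hiT at *
  unfold posT
  by_cases hev : Even (t / D.M)
  · simp only [if_pos hev] at a1 a2 ⊢
    rw [D.pos0_lt_iff]
    exact D.bef_iff_det (h1 _ hj) (h2 _ hj) a1 a2
  · simp only [if_neg hev] at a1 a2 ⊢
    have b1 := D.pos0_lt_card (t % D.M) q
    have b2 := D.pos0_lt_card (t % D.M) (s0 (t % D.M))
    have e : Fintype.card α - 1 - D.pos0 (t % D.M) q <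
        Fintype.card α - 1 - D.pos0 (t % D.M) (s0 (t % D.M)) ↔
        D.pos0 (t % D.M) (s0 (t % D.M)) < D.pos0 (t % D.M) q := by omega
    rw [e, D.pos0_lt_iff]
    exact D.bef_iff_det' (h1 _ hj) (h2 _ hj) a2 a1

end Full

/-- Every slope data with at least one pair gives a sweep. -/
theorem exists_sweep (hM : 0 < D.M) : ∃ S : Sweep α D.M, S.Bridge D.X D.Y := by
  have hne : Nonempty α := by
    obtain ⟨r, _⟩ := D.T_surj 0 hM
    exact ⟨r⟩
  have hs : ∀ j, j < D.M → ∃ r s, D.Y s < D.Y r ∧ D.T r s = j := D.T_surj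
  choose! r0 s0 h1 h2 using hs
  exact ⟨D.toSweep r0 s0 hM h1 h2, D.toSweep_bridge r0 s0 hM h1 h2⟩

end Pos

end SlopeData

/-- Ranks compatible with a real function. -/
lemma exists_rank {γ : Type} [DecidableEq γ] (P : Finset γ) (κ : γ → ℝ) :
    ∃ T : γ → ℕ, (∀ p ∈ P, T p < P.card) ∧ (∀ p ∈ P, ∀ p' ∈ P, T p = T p' → p = p') ∧
      (∀ p ∈ P, ∀ p' ∈ P, κ p < κ p' → T p < T p') := by
  induction P using Finset.induction_on_max_value κ with
  | empty => exact ⟨fun _ => 0, by simp, by simp, by simp⟩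
  | insert a s ha hmax ih =>
    obtain ⟨T, h1, h2, h3⟩ := ih
    have hupd : ∀ p ∈ s, Function.update T a s.card p = T p := by
      intro p hp
      apply Function.update_of_ne
      rintro rfl
      exact ha hp
    refine ⟨Function.update T a s.card, ?_, ?_, ?_⟩
    · intro p hp
      rw [Finset.card_insert_of_notMem ha]
      rcases Finset.mem_insert.mp hp with rfl | hp
      · simp
      · rw [hupd p hp]
        have := h1 p hp
        omega
    · intro p hp p' hp' e
      rcases Finset.mem_insert.mp hp with h | hp1 <;> rcases Finset.mem_insert.mp hp' with h' | hp1'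
      · rw [h, h']
      · rw [h, hupd p' hp1', Function.update_self] at e
        have := h1 p' hp1'
        omega
      · rw [h', hupd p hp1, Function.update_self] at e
        have := h1 p hp1
        omega
      · rw [hupd p hp1, hupd p' hp1'] at e
        exact h2 p hp1 p' hp1' e
    · intro p hp p' hp' e
      rcases Finset.mem_insert.mp hp with h | hp1 <;> rcases Finset.mem_insert.mp hp' with h' | hp1'
      · rw [h, h'] at e
        exact absurd e (lt_irrefl _)
      · have := hmax p' hp1'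
        rw [h] at e
        linarith
      · rw [h', hupd p hp1, Function.update_self]
        exact h1 p hp1
      · rw [hupd p hp1, hupd p' hp1']
        exact h3 p hp1 p' hp1' e

lemma rank_surj {γ : Type} [DecidableEq γ] (P : Finset γ) (T : γ → ℕ)
    (h1 : ∀ p ∈ P, T p < P.card) (h2 : ∀ p ∈ P, ∀ p' ∈ P, T p = T p' → p = p') :
    ∀ j, j < P.card → ∃ p ∈ P, T p = j := by
  intro j hj
  have hsub : P.image T ⊆ range P.card := by
    intro x hx
    obtain ⟨p, hp, rfl⟩ := Finset.mem_image.mp hx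
    exact Finset.mem_range.mpr (h1 p hp)
  have hcard : (range P.card).card ≤ (P.image T).card := by
    rw [Finset.card_range, Finset.card_image_of_injOn]
    intro u hu v hv e
    exact h2 u hu v hv e
  have heq := Finset.eq_of_subset_of_card_le hsub hcard
  have : j ∈ P.image T := by
    rw [heq]
    exact Finset.mem_range.mpr hj
  obtain ⟨p, hp, e⟩ := Finset.mem_image.mp this
  exact ⟨p, hp, e⟩

/-- Sorted slopes exist. -/
theorem exists_slopeData {α : Type} [Fintype α] [DecidableEq α] (X Y : α → ℝ)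
    (hY : Function.Injective Y) (hgen : GenPos X Y) :
    ∃ D : SlopeData α, D.X = X ∧ D.Y = Y ∧ ∀ r s : α, r ≠ s → 0 < D.M := by
  classical
  set P : Finset (α × α) := univ.filter (fun p => Y p.2 < Y p.1) with hP
  set κ : α × α → ℝ := fun p => (X p.2 - X p.1) / (Y p.1 - Y p.2) with hκ
  obtain ⟨T, h1, h2, h3⟩ := exists_rank P κ
  have hmem : ∀ r s, Y s < Y r → (r, s) ∈ P := by
    intro r s h
    simp [hP, h]
  have hsurj := rank_surj P T h1 h2
  refine ⟨{ X := X, Y := Y, T := fun r s => T (r, s), M := P.card, hY := hY, hgen := hgen,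
            T_lt := ?_, T_inj := ?_, T_surj := ?_, T_pos := ?_, T_neg := ?_ }, rfl, rfl, ?_⟩
  · intro r s h
    exact h1 _ (hmem r s h)
  · intro r s r' s' h h' e
    have := h2 _ (hmem r s h) _ (hmem r' s' h') e
    simpa using this
  · intro j hj
    obtain ⟨p, hp, e⟩ := hsurj j hj
    refine ⟨p.1, p.2, ?_, e⟩
    simpa [hP] using hp
  · intro u v w h1' h2' hD
    have huv : 0 < Y u - Y v := by linarith
    have hvw : 0 < Y v - Y w := by linarith
    have huw : 0 < Y u - Y w := by linarith
    constructor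
    · apply h3 _ (hmem u v h2') _ (hmem u w (by linarith))
      simp only [hκ]
      rw [div_lt_div_iff₀ huv huw]
      have : (X w - X u) * (Y u - Y v) - (X v - X u) * (Y u - Y w) = Det X Y u v w := by
        unfold Det; ring
      linarith
    · apply h3 _ (hmem u w (by linarith)) _ (hmem v w h1')
      simp only [hκ]
      rw [div_lt_div_iff₀ huw hvw]
      have : (X w - X v) * (Y u - Y w) - (X w - X u) * (Y v - Y w) = Det X Y u v w := by
        unfold Det; ring
      linarith
  · intro u v w h1' h2' hD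
    have huv : 0 < Y u - Y v := by linarith
    have hvw : 0 < Y v - Y w := by linarith
    have huw : 0 < Y u - Y w := by linarith
    constructor
    · apply h3 _ (hmem v w h1') _ (hmem u w (by linarith))
      simp only [hκ]
      rw [div_lt_div_iff₀ hvw huw]
      have : (X w - X v) * (Y u - Y w) - (X w - X u) * (Y v - Y w) = Det X Y u v w := by
        unfold Det; ring
      linarith
    · apply h3 _ (hmem u w (by linarith)) _ (hmem u v h2')
      simp only [hκ]
      rw [div_lt_div_iff₀ huw huv]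
      have : (X w - X u) * (Y u - Y v) - (X v - X u) * (Y u - Y w) = Det X Y u v w := by
        unfold Det; ring
      linarith
  · intro r s hrs
    apply Finset.card_pos.mpr
    have hne : Y r ≠ Y s := fun e => hrs (hY e)
    rcases lt_or_gt_of_ne hne with h | h
    · exact ⟨_, hmem s r h⟩
    · exact ⟨_, hmem r s h⟩

/-- A shear making the second coordinate injective. -/
lemma exists_shear {α : Type} [Fintype α] [DecidableEq α] (X Y : α → ℝ)
    (hinj : ∀ r s, r ≠ s → X r ≠ X s ∨ Y r ≠ Y s) :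
    ∃ ε : ℝ, Function.Injective (fun q => Y q + ε * X q) := by
  classical
  set E : Finset ℝ := (univ : Finset (α × α)).image (fun p => (Y p.2 - Y p.1) / (X p.1 - X p.2))
    with hE
  obtain ⟨ε, hε⟩ := Infinite.exists_notMem_finset E
  refine ⟨ε, ?_⟩
  intro r s e
  by_contra hrs
  simp only at e
  by_cases hX : X r = X s
  · rcases hinj r s hrs with h | h
    · exact h hX
    · apply h
      rw [hX] at e
      linarith
  · apply hε
    rw [hE]
    apply Finset.mem_image.mpr
    refine ⟨(r, s), Finset.mem_univ _, ?_⟩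
    simp only
    have hne : X r - X s ≠ 0 := sub_ne_zero.mpr hX
    rw [div_eq_iff hne]
    linarith

lemma Det_shear {α : Type} (X Y : α → ℝ) (ε : ℝ) (r s q : α) :
    Det X (fun q => Y q + ε * X q) r s q = Det X Y r s q := by
  unfold Det
  ring

/-- Every point configuration in general position has a sweep. -/
theorem exists_sweep_of_points {α : Type} [Fintype α] [DecidableEq α] (X Y : α → ℝ)
    (hinj : ∀ r s, r ≠ s → X r ≠ X s ∨ Y r ≠ Y s) (hgen : GenPos X Y) {r0 s0 : α}
    (hne : r0 ≠ s0) : ∃ M, ∃ S : Sweep α M, S.Bridge X Y := by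
  obtain ⟨ε, hε⟩ := exists_shear X Y hinj
  have hgen' : GenPos X (fun q => Y q + ε * X q) := by
    intro r s q h1 h2 h3
    rw [Det_shear]
    exact hgen r s q h1 h2 h3
  obtain ⟨D, hX, hY, hM⟩ := exists_slopeData X _ hε hgen'
  obtain ⟨S, hS⟩ := D.exists_sweep (hM r0 s0 hne)
  refine ⟨D.M, S, ?_⟩
  intro t q a1 a2
  have := hS t q a1 a2
  rw [hX, hY, Det_shear] at this
  exact this

end Vale.Agent.Lib.P040
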