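import Vale.Agent.Lib.P040.FourPoint
import Vale.Agent.Lib.P040.RealSweep

/-!
From non-separated quadruples to crossings of segments; removal of the general position
hypothesis by a perturbation.
-/

namespace Vale.Agent.Lib.P040

open Finset

/-- The number of crossing pairs of edges of a straight-line drawing of a complete bipartite
graph: pairs of edges without common endpoint whose segments meet. -/
noncomputable def crossCount {m n : ℕ} (a : Fin m → ℝ × ℝ) (b : Fin n → ℝ × ℝ) : ℕ :=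
  Set.ncard {q : Fin m × Fin m × Fin n × Fin n |
    q.1 < q.2.1 ∧ q.2.2.1 ≠ q.2.2.2 ∧
      (segment ℝ (a q.1) (b q.2.2.1) ∩ segment ℝ (a q.2.1) (b q.2.2.2)).Nonempty}

lemma weights_segment (u v w z : ℝ × ℝ) (a1 a2 b1 b2 : ℝ) (h1 : 0 < a1) (h2 : 0 < a2) (h3 : 0 < b1)
    (h4 : 0 < b2) (hs : a1 + a2 = b1 + b2) (hx : a1 * u.1 + a2 * v.1 = b1 * w.1 + b2 * z.1)
    (hy : a1 * u.2 + a2 * v.2 = b1 * w.2 + b2 * z.2) : (segment ℝ u v ∩ segment ℝ w z).Nonempty := by
  have hS : 0 < a1 + a2 := by linarith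
  have hS' : a1 + a2 ≠ 0 := hS.ne'
  refine ⟨(a1 / (a1 + a2)) • u + (a2 / (a1 + a2)) • v, ?_, ?_⟩
  · exact ⟨a1 / (a1 + a2), a2 / (a1 + a2), by positivity, by positivity, by field_simp, rfl⟩
  · refine ⟨b1 / (a1 + a2), b2 / (a1 + a2), by positivity, by positivity, ?_, ?_⟩
    · rw [hs]
      have : b1 + b2 ≠ 0 := by rw [← hs]; exact hS'
      field_simp
    · ext
      · simp only [Prod.fst_add, Prod.smul_fst, smul_eq_mul]
        field_simp
        linarith
      · simp only [Prod.snd_add, Prod.smul_snd, smul_eq_mul]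
        field_simp
        linarith

section Link

variable {α : Type} (P : α → ℝ × ℝ)

/-- The first coordinate of a point map. -/
def cX (q : α) : ℝ := (P q).1

/-- The second coordinate of a point map. -/
def cY (q : α) : ℝ := (P q).2

/-- Quadruples separated by neither line give a crossing. -/
lemma crossing_of_not_sep {a a' b b' : α}
    (h1 : Det (cX P) (cY P) a a' b ≠ 0) (h2 : Det (cX P) (cY P) a a' b' ≠ 0)
    (h3 : Det (cX P) (cY P) a b b' ≠ 0) (h4 : Det (cX P) (cY P) a' b b' ≠ 0)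
    (h5 : ¬ (Det (cX P) (cY P) a a' b * Det (cX P) (cY P) a a' b' < 0))
    (h6 : ¬ (Det (cX P) (cY P) a b b' * Det (cX P) (cY P) a' b b' < 0)) :
    (segment ℝ (P a) (P b) ∩ segment ℝ (P a') (P b')).Nonempty ∨
      (segment ℝ (P a) (P b') ∩ segment ℝ (P a') (P b)).Nonempty := by
  set p := Det (cX P) (cY P) a a' b with hp
  set q := Det (cX P) (cY P) a a' b' with hq
  set r := Det (cX P) (cY P) a b b' with hr
  set t := Det (cX P) (cY P) a' b b' with ht
  have hsum : t - r + q - p = 0 := by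
    simp only [hp, hq, hr, ht]
    unfold Det
    ring
  have hx : t * (P a).1 - r * (P a').1 + q * (P b).1 - p * (P b').1 = 0 := by
    simp only [hp, hq, hr, ht]
    unfold Det cX cY
    ring
  have hy : t * (P a).2 - r * (P a').2 + q * (P b).2 - p * (P b').2 = 0 := by
    simp only [hp, hq, hr, ht]
    unfold Det cX cY
    ring
  have key : ∀ x y : ℝ, x * y < 0 ↔ (0 < x ∧ y < 0) ∨ (x < 0 ∧ 0 < y) := fun x y => mul_neg_iff
  rw [key] at h5 h6
  rcases lt_or_gt_of_ne h1 with s1 | s1 <;> rcases lt_or_gt_of_ne h2 with s2 | s2 <;>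
    rcases lt_or_gt_of_ne h3 with s3 | s3 <;> rcases lt_or_gt_of_ne h4 with s4 | s4
  · left
    exact weights_segment _ _ _ _ (-t) (-q) (-r) (-p) (by linarith) (by linarith) (by linarith)
      (by linarith) (by linarith) (by linarith) (by linarith)
  · exact absurd (Or.inr ⟨s3, s4⟩) h6
  · exact absurd (Or.inl ⟨s3, s4⟩) h6
  · right
    exact weights_segment _ _ _ _ t (-p) r (-q) (by linarith) (by linarith) (by linarith)
      (by linarith) (by linarith) (by linarith) (by linarith)
  · exact absurd (Or.inr ⟨s1, s2⟩) h5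
  · exact absurd (Or.inr ⟨s1, s2⟩) h5
  · exact absurd (Or.inr ⟨s1, s2⟩) h5
  · exact absurd (Or.inr ⟨s1, s2⟩) h5
  · exact absurd (Or.inl ⟨s1, s2⟩) h5
  · exact absurd (Or.inl ⟨s1, s2⟩) h5
  · exact absurd (Or.inl ⟨s1, s2⟩) h5
  · exact absurd (Or.inl ⟨s1, s2⟩) h5
  · right
    exact weights_segment _ _ _ _ (-t) p (-r) q (by linarith) (by linarith) (by linarith)
      (by linarith) (by linarith) (by linarith) (by linarith)
  · exact absurd (Or.inr ⟨s3, s4⟩) h6
  · exact absurd (Or.inl ⟨s3, s4⟩) h6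
  · left
    exact weights_segment _ _ _ _ t q r p (by linarith) (by linarith) (by linarith)
      (by linarith) (by linarith) (by linarith) (by linarith)

end Link

section Count

variable {m n : ℕ} (a : Fin m → ℝ × ℝ) (b : Fin n → ℝ × ℝ)

open scoped Classical in
/-- Indicator of a crossing of two edges (ordered). -/
noncomputable def iC (i k : Fin m) (j l : Fin n) : ℕ :=
  if i ≠ k ∧ j ≠ l ∧ (segment ℝ (a i) (b j) ∩ segment ℝ (a k) (b l)).Nonempty then 1 else 0

open scoped Classical in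
/-- Indicator of a crossing of two edges, with the first index smaller. -/
noncomputable def iC' (i k : Fin m) (j l : Fin n) : ℕ :=
  if i < k ∧ j ≠ l ∧ (segment ℝ (a i) (b j) ∩ segment ℝ (a k) (b l)).Nonempty then 1 else 0

lemma crossCount_eq_sum :
    crossCount a b = ∑ i : Fin m, ∑ k : Fin m, ∑ j : Fin n, ∑ l : Fin n, iC' a b i k j l := by
  classical
  unfold crossCount
  rw [Set.ncard_eq_toFinset_card']
  rw [Set.toFinset_ofPred, Finset.card_filter]
  simp only [Fintype.sum_prod_type]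
  unfold iC'
  rfl

lemma iC_split (i k : Fin m) (j l : Fin n) :
    iC a b i k j l = iC' a b i k j l + iC' a b k i l j := by
  classical
  unfold iC iC'
  have e : (segment ℝ (a k) (b l) ∩ segment ℝ (a i) (b j)).Nonempty ↔
      (segment ℝ (a i) (b j) ∩ segment ℝ (a k) (b l)).Nonempty := by
    rw [Set.inter_comm]
  simp only [e]
  by_cases h : (segment ℝ (a i) (b j) ∩ segment ℝ (a k) (b l)).Nonempty
  · by_cases h2 : j = l
    · simp [h2]
    · have h2' : l ≠ j := fun e => h2 e.symm
      rcases lt_trichotomy i k with h3 | h3 | h3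
      · simp [h, h2, h2', h3, h3.ne, not_lt.mpr h3.le]
      · simp [h3]
      · simp [h, h2, h2', h3, h3.ne', not_lt.mpr h3.le]
  · simp [h]

lemma sum_iC :
    ∑ i : Fin m, ∑ k : Fin m, ∑ j : Fin n, ∑ l : Fin n, iC a b i k j l = 2 * crossCount a b := by
  rw [crossCount_eq_sum]
  simp only [iC_split, Finset.sum_add_distrib]
  have : ∑ i : Fin m, ∑ k : Fin m, ∑ j : Fin n, ∑ l : Fin n, iC' a b k i l j =
      ∑ i : Fin m, ∑ k : Fin m, ∑ j : Fin n, ∑ l : Fin n, iC' a b i k j l := by
    rw [Finset.sum_comm]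
    apply Finset.sum_congr rfl
    intro i _
    apply Finset.sum_congr rfl
    intro k _
    exact Finset.sum_comm
  rw [this]
  ring

/-- The point map of the two classes. -/
def ptMap : Fin m ⊕ Fin n → ℝ × ℝ := Sum.elim a b

open scoped Classical in
/-- Non-separated quadruples are at most twice the number of ordered crossings. -/
lemma iX_le (hgen : GenPos (cX (ptMap a b)) (cY (ptMap a b))) (i k : Fin m) (j l : Fin n) :
    iX (cX (ptMap a b)) (cY (ptMap a b)) (Sum.inl i) (Sum.inl k) (Sum.inr j) (Sum.inr l) ≤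
      iC a b i k j l + iC a b i k l j := by
  unfold iX
  by_cases hc : (Sum.inl i : Fin m ⊕ Fin n) ≠ Sum.inl k ∧ (Sum.inr j : Fin m ⊕ Fin n) ≠ Sum.inr l ∧
      ¬ (Det (cX (ptMap a b)) (cY (ptMap a b)) (Sum.inl i) (Sum.inl k) (Sum.inr j) *
          Det (cX (ptMap a b)) (cY (ptMap a b)) (Sum.inl i) (Sum.inl k) (Sum.inr l) < 0) ∧
      ¬ (Det (cX (ptMap a b)) (cY (ptMap a b)) (Sum.inr j) (Sum.inr l) (Sum.inl i) *
          Det (cX (ptMap a b)) (cY (ptMap a b)) (Sum.inr j) (Sum.inr l) (Sum.inl k) < 0)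
  · rw [if_pos hc]
    obtain ⟨h1, h2, h3, h4⟩ := hc
    have hik : i ≠ k := fun e => h1 (by rw [e])
    have hjl : j ≠ l := fun e => h2 (by rw [e])
    have n1 : ∀ (u : Fin m) (v : Fin n), (Sum.inl u : Fin m ⊕ Fin n) ≠ Sum.inr v := by simp
    have e1 := Det_cycle (cX (ptMap a b)) (cY (ptMap a b)) (Sum.inl i) (Sum.inr j) (Sum.inr l)
    have e2 := Det_cycle (cX (ptMap a b)) (cY (ptMap a b)) (Sum.inl k) (Sum.inr j) (Sum.inr l)
    rw [e1, e2] at h4
    have := crossing_of_not_sep (ptMap a b)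
      (hgen _ _ _ h1 (n1 k j) (n1 i j)) (hgen _ _ _ h1 (n1 k l) (n1 i l))
      (hgen _ _ _ (n1 i j) h2 (n1 i l)) (hgen _ _ _ (n1 k j) h2 (n1 k l)) h3 h4
    rcases this with h | h
    · have : iC a b i k j l = 1 := by
        unfold iC
        rw [if_pos ⟨hik, hjl, h⟩]
      omega
    · have : iC a b i k l j = 1 := by
        unfold iC
        rw [if_pos ⟨hik, Ne.symm hjl, h⟩]
      omega
  · rw [if_neg hc]
    exact Nat.zero_le _

/-- The lower bound for configurations in general position, for large classes. -/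
theorem cross_genpos (hgen : GenPos (cX (ptMap a b)) (cY (ptMap a b))) (hm : 2 ≤ m) (hn : 1 ≤ n) :
    dd m * dd n ≤ crossCount a b := by
  classical
  set X := cX (ptMap a b) with hX
  set Y := cY (ptMap a b) with hY
  have hinj : ∀ r s : Fin m ⊕ Fin n, r ≠ s → X r ≠ X s ∨ Y r ≠ Y s := by
    intro r s hrs
    by_contra hcon
    have hcon : X r = X s ∧ Y r = Y s := by
      constructor
      · by_contra h; exact hcon (Or.inl h)
      · by_contra h; exact hcon (Or.inr h)
    -- a third point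
    have hcard : 2 < Fintype.card (Fin m ⊕ Fin n) := by
      simp only [Fintype.card_sum, Fintype.card_fin]
      omega
    obtain ⟨q, hq1, hq2⟩ : ∃ q, q ≠ r ∧ q ≠ s := by
      have : ((univ : Finset (Fin m ⊕ Fin n)).erase r |>.erase s).Nonempty := by
        rw [← Finset.card_pos]
        have e1 := Finset.card_erase_of_mem (Finset.mem_erase.mpr ⟨hrs.symm, Finset.mem_univ s⟩)
        have e2 := Finset.card_erase_of_mem (Finset.mem_univ r)
        rw [Finset.card_univ] at e2
        omega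
      obtain ⟨q, hq⟩ := this
      simp only [Finset.mem_erase, Finset.mem_univ, and_true] at hq
      exact ⟨q, hq.2, hq.1⟩
    apply hgen r s q hrs (Ne.symm hq2) (Ne.symm hq1)
    unfold Det
    rw [hcon.1, hcon.2]
    ring
  have hr0 : (Sum.inl ⟨0, by omega⟩ : Fin m ⊕ Fin n) ≠ Sum.inr ⟨0, by omega⟩ := by simp
  obtain ⟨M, S, hS⟩ := exists_sweep_of_points X Y hinj hgen hr0
  set A : Finset (Fin m ⊕ Fin n) := univ.image Sum.inl with hA
  set B : Finset (Fin m ⊕ Fin n) := univ.image Sum.inr with hB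
  have hd : Disjoint A B := by
    rw [Finset.disjoint_left]
    intro x hx hx'
    obtain ⟨i, _, rfl⟩ := Finset.mem_image.mp hx
    obtain ⟨j, _, hj⟩ := Finset.mem_image.mp hx'
    simp at hj
  have hcA : A.card = m := by
    rw [hA, Finset.card_image_of_injective _ Sum.inl_injective]
    simp
  have hcB : B.card = n := by
    rw [hB, Finset.card_image_of_injective _ Sum.inr_injective]
    simp
  have hlow := Xt_lower S hS hgen hd
  rw [hcA, hcB] at hlow
  have hXt : Xt X Y A B = ∑ i : Fin m, ∑ k : Fin m, ∑ j : Fin n, ∑ l : Fin n,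
      iX X Y (Sum.inl i) (Sum.inl k) (Sum.inr j) (Sum.inr l) := by
    unfold Xt
    rw [hA, hB]
    rw [Finset.sum_image (fun _ _ _ _ e => Sum.inl_injective e)]
    apply Finset.sum_congr rfl
    intro i _
    rw [Finset.sum_image (fun _ _ _ _ e => Sum.inl_injective e)]
    apply Finset.sum_congr rfl
    intro k _
    rw [Finset.sum_image (fun _ _ _ _ e => Sum.inr_injective e)]
    apply Finset.sum_congr rfl
    intro j _
    rw [Finset.sum_image (fun _ _ _ _ e => Sum.inr_injective e)]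
  have hup : ∑ i : Fin m, ∑ k : Fin m, ∑ j : Fin n, ∑ l : Fin n,
      iX X Y (Sum.inl i) (Sum.inl k) (Sum.inr j) (Sum.inr l) ≤
      ∑ i : Fin m, ∑ k : Fin m, ∑ j : Fin n, ∑ l : Fin n, (iC a b i k j l + iC a b i k l j) := by
    apply Finset.sum_le_sum
    intro i _
    apply Finset.sum_le_sum
    intro k _
    apply Finset.sum_le_sum
    intro j _
    apply Finset.sum_le_sum
    intro l _
    exact iX_le a b hgen i k j l
  have hswap : ∑ i : Fin m, ∑ k : Fin m, ∑ j : Fin n, ∑ l : Fin n, iC a b i k l j =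
      ∑ i : Fin m, ∑ k : Fin m, ∑ j : Fin n, ∑ l : Fin n, iC a b i k j l := by
    apply Finset.sum_congr rfl
    intro i _
    apply Finset.sum_congr rfl
    intro k _
    exact Finset.sum_comm
  simp only [Finset.sum_add_distrib] at hup
  rw [hswap, sum_iC] at hup
  rw [hXt] at hlow
  omega

end Count

section Perturb

open Topology

lemma stable_disjoint (u v u' v' du dv du' dv' : ℝ × ℝ)
    (h : ¬ (segment ℝ u v ∩ segment ℝ u' v').Nonempty) :
    ∀ᶠ τ : ℝ in 𝓝 0, ¬ (segment ℝ (u + τ • du) (v + τ • dv) ∩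
      segment ℝ (u' + τ • du') (v' + τ • dv')).Nonempty := by
  have hdisj : Disjoint (segment ℝ u v) (segment ℝ u' v') :=
    Set.disjoint_iff_inter_eq_empty.mpr (Set.not_nonempty_iff_eq_empty.mp h)
  have hcomp : ∀ x y : ℝ × ℝ, IsCompact (segment ℝ x y) := by
    intro x y
    rw [segment_eq_image]
    exact isCompact_Icc.image (by fun_prop)
  obtain ⟨f, x, y, h1, h2, h3⟩ := geometric_hahn_banach_compact_closed (convex_segment u v)
    (hcomp u v) (convex_segment u' v') (hcomp u' v').isClosed hdisj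
  have cont : ∀ w dw : ℝ × ℝ, ContinuousAt (fun τ : ℝ => f (w + τ • dw)) 0 := by
    intro w dw
    fun_prop
  have e1 : ∀ᶠ τ : ℝ in 𝓝 0, f (u + τ • du) < x :=
    (cont u du).eventually_lt continuousAt_const (by simpa using h1 u (left_mem_segment ℝ u v))
  have e2 : ∀ᶠ τ : ℝ in 𝓝 0, f (v + τ • dv) < x :=
    (cont v dv).eventually_lt continuousAt_const (by simpa using h1 v (right_mem_segment ℝ u v))
  have e3 : ∀ᶠ τ : ℝ in 𝓝 0, y < f (u' + τ • du') :=
    continuousAt_const.eventually_lt (cont u' du')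
      (by simpa using h3 u' (left_mem_segment ℝ u' v'))
  have e4 : ∀ᶠ τ : ℝ in 𝓝 0, y < f (v' + τ • dv') :=
    continuousAt_const.eventually_lt (cont v' dv')
      (by simpa using h3 v' (right_mem_segment ℝ u' v'))
  filter_upwards [e1, e2, e3, e4] with τ a1 a2 a3 a4
  rintro ⟨z, hz1, hz2⟩
  have hl : IsLinearMap ℝ f := ⟨map_add f, map_smul f⟩
  have c1 : f z < x := (convex_halfSpace_lt hl x).segment_subset a1 a2 hz1
  have c2 : y < f z := (convex_halfSpace_gt hl y).segment_subset a3 a4 hz2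
  linarith

lemma bad_finite (A B C : ℝ) (hC : C ≠ 0) : {τ : ℝ | A + τ * B + τ ^ 2 * C = 0}.Finite := by
  classical
  set p : Polynomial ℝ := Polynomial.C A + Polynomial.C B * Polynomial.X +
    Polynomial.C C * Polynomial.X ^ 2 with hp
  have hp0 : p ≠ 0 := by
    intro e
    have : p.coeff 2 = C := by
      simp [hp, Polynomial.coeff_X, Polynomial.coeff_C]
    rw [e] at this
    simp at this
    exact hC this.symm
  apply Set.Finite.subset (p.roots.toFinset.finite_toSet)
  intro τ hτ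
  simp only [Finset.mem_coe, Multiset.mem_toFinset]
  rw [Polynomial.mem_roots hp0]
  simp only [Set.mem_ofPred_eq] at hτ
  simp only [hp, Polynomial.IsRoot, Polynomial.eval_add, Polynomial.eval_mul, Polynomial.eval_C,
    Polynomial.eval_X, Polynomial.eval_pow]
  linarith

variable {α : Type} [Fintype α] [DecidableEq α]

/-- A generic direction of perturbation, on the parabola. -/
noncomputable def vDir (q : α) : ℝ × ℝ :=
  (((Fintype.equivFin α q : ℕ) : ℝ), ((Fintype.equivFin α q : ℕ) : ℝ) ^ 2)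

/-- The perturbed point map. -/
noncomputable def pert (P : α → ℝ × ℝ) (τ : ℝ) (q : α) : ℝ × ℝ := P q + τ • vDir q

lemma exists_good_tau (P : α → ℝ × ℝ) {ε : ℝ} (hε : 0 < ε) :
    ∃ τ, 0 < τ ∧ τ < ε ∧ GenPos (cX (pert P τ)) (cY (pert P τ)) := by
  set c : α → ℝ := fun q => ((Fintype.equivFin α q : ℕ) : ℝ) with hc
  have hcinj : Function.Injective c := by
    intro u v e
    have e' : ((Fintype.equivFin α u : ℕ) : ℝ) = ((Fintype.equivFin α v : ℕ) : ℝ) := e
    have : (Fintype.equivFin α u : ℕ) = (Fintype.equivFin α v : ℕ) := by exact_mod_cast e'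
    exact (Fintype.equivFin α).injective (Fin.ext this)
  have hexp : ∀ (τ : ℝ) (r s q : α), Det (cX (pert P τ)) (cY (pert P τ)) r s q =
      Det (cX P) (cY P) r s q +
        τ * ((cX P s - cX P r) * (c q ^ 2 - c r ^ 2) + (c s - c r) * (cY P q - cY P r) -
          (cY P s - cY P r) * (c q - c r) - (c s ^ 2 - c r ^ 2) * (cX P q - cX P r)) +
        τ ^ 2 * ((c s - c r) * (c q - c r) * (c q - c s)) := by
    intro τ r s q
    simp only [Det, cX, cY, pert, vDir, Prod.fst_add, Prod.snd_add, Prod.smul_fst, Prod.smul_snd,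
      smul_eq_mul, hc]
    ring
  set S : α × α × α → Set ℝ := fun x =>
    {τ | (x.1 ≠ x.2.1 ∧ x.2.1 ≠ x.2.2 ∧ x.1 ≠ x.2.2) ∧
      Det (cX (pert P τ)) (cY (pert P τ)) x.1 x.2.1 x.2.2 = 0} with hS
  have hfin : (⋃ x, S x).Finite := by
    apply Set.finite_iUnion
    intro x
    by_cases hx : x.1 ≠ x.2.1 ∧ x.2.1 ≠ x.2.2 ∧ x.1 ≠ x.2.2
    · have hC : (c x.2.1 - c x.1) * (c x.2.2 - c x.1) * (c x.2.2 - c x.2.1) ≠ 0 := by
        apply mul_ne_zero
        · apply mul_ne_zero
          · exact sub_ne_zero.mpr (fun e => hx.1 (hcinj e).symm)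
          · exact sub_ne_zero.mpr (fun e => hx.2.2 (hcinj e).symm)
        · exact sub_ne_zero.mpr (fun e => hx.2.1 (hcinj e).symm)
      apply Set.Finite.subset (bad_finite _ _ _ hC)
      intro τ hτ
      have := hτ.2
      rw [hexp] at this
      exact this
    · apply Set.Finite.subset Set.finite_empty
      intro τ hτ
      exact absurd hτ.1 hx
  obtain ⟨τ, hτ1, hτ2⟩ := ((Set.Ioo_infinite hε).sdiff hfin).nonempty
  refine ⟨τ, hτ1.1, hτ1.2, ?_⟩
  intro r s q h1 h2 h3 e
  exact hτ2 (Set.mem_iUnion.mpr ⟨(r, s, q), ⟨h1, h2, h3⟩, e⟩)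

end Perturb

/-- The main bound: any straight-line drawing of a complete bipartite graph has at least the
Zarankiewicz number of crossing pairs of edges. -/
theorem main_bound {m n : ℕ} (a : Fin m → ℝ × ℝ) (b : Fin n → ℝ × ℝ) :
    dd m * dd n ≤ crossCount a b := by
  classical
  by_cases hm : m ≤ 2
  · have : dd m = 0 := by
      unfold dd
      have : (m - 1) / 2 = 0 := by omega
      rw [this, Nat.mul_zero]
    rw [this, Nat.zero_mul]
    exact Nat.zero_le _
  by_cases hn : n ≤ 2
  · have : dd n = 0 := by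
      unfold dd
      have : (n - 1) / 2 = 0 := by omega
      rw [this, Nat.mul_zero]
    rw [this, Nat.mul_zero]
    exact Nat.zero_le _
  set V : Fin m ⊕ Fin n → ℝ × ℝ := vDir with hV
  set a' : ℝ → Fin m → ℝ × ℝ := fun τ i => a i + τ • V (Sum.inl i) with ha'
  set b' : ℝ → Fin n → ℝ × ℝ := fun τ j => b j + τ • V (Sum.inr j) with hb'
  have hev : ∀ᶠ τ : ℝ in nhds 0, ∀ q : Fin m × Fin m × Fin n × Fin n,
      ¬ (segment ℝ (a q.1) (b q.2.2.1) ∩ segment ℝ (a q.2.1) (b q.2.2.2)).Nonempty →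
      ¬ (segment ℝ (a' τ q.1) (b' τ q.2.2.1) ∩ segment ℝ (a' τ q.2.1) (b' τ q.2.2.2)).Nonempty := by
    rw [Filter.eventually_all]
    intro q
    by_cases h : (segment ℝ (a q.1) (b q.2.2.1) ∩ segment ℝ (a q.2.1) (b q.2.2.2)).Nonempty
    · exact Filter.Eventually.of_forall (fun τ e => absurd h e)
    · filter_upwards [stable_disjoint _ _ _ _ (V (Sum.inl q.1)) (V (Sum.inr q.2.2.1))
        (V (Sum.inl q.2.1)) (V (Sum.inr q.2.2.2)) h] with τ hτ _
      exact hτ
  obtain ⟨ε, hε, hball⟩ := Metric.eventually_nhds_iff.mp hev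
  obtain ⟨τ, h1, h2, h3⟩ := exists_good_tau (ptMap a b) hε
  have hpm : ptMap (a' τ) (b' τ) = pert (ptMap a b) τ := by
    funext x
    cases x <;> rfl
  have hlow := cross_genpos (a' τ) (b' τ) (by rw [hpm]; exact h3) (by omega) (by omega)
  have hdist : dist τ 0 < ε := by
    rw [Real.dist_eq, sub_zero, abs_of_pos h1]
    exact h2
  have hsub := hball hdist
  refine hlow.trans ?_
  unfold crossCount
  apply Set.ncard_le_ncard _ (Set.toFinite _)
  rintro q ⟨q1, q2, q3⟩
  refine ⟨q1, q2, ?_⟩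
  by_contra hcon
  exact hsub q hcon q3

end Vale.Agent.Lib.P040
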