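import Vale.Agent.Lib.P040.Static

/-!
The four point identity, and the lower bound for the number of non-separated quadruples.
-/

namespace Vale.Agent.Lib.P040

open Finset

lemma four_point_signs (p q r t : ℝ) (hp : p ≠ 0) (hq : q ≠ 0) (hr : r ≠ 0) (ht : t ≠ 0)
    (h : p - q + r - t = 0) :
    2 * (if ¬ (p * q < 0) ∧ ¬ (r * t < 0) then 1 else 0) + 2 * (if p * q < 0 then 1 else 0) +
      2 * (if r * t < 0 then 1 else 0) + (if (-p) * r < 0 then 1 else 0) +
      (if (-q) * (-r) < 0 then 1 else 0) + (if p * t < 0 then 1 else 0) +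
      (if q * (-t) < 0 then 1 else 0) = (4 : ℕ) := by
  have key : ∀ x y : ℝ, x * y < 0 ↔ (0 < x ∧ y < 0) ∨ (x < 0 ∧ 0 < y) := fun x y => mul_neg_iff
  simp only [key, neg_pos, neg_lt_zero]
  rcases lt_or_gt_of_ne hp with hp | hp <;> rcases lt_or_gt_of_ne hq with hq | hq <;>
    rcases lt_or_gt_of_ne hr with hr | hr <;> rcases lt_or_gt_of_ne ht with ht | ht <;>
    first
    | (exfalso; linarith)
    | simp [hp, hq, hr, ht, not_lt.mpr hp.le, not_lt.mpr hq.le, not_lt.mpr hr.le,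
        not_lt.mpr ht.le]

section Quad

variable {β : Type} [DecidableEq β] (X Y : β → ℝ)

/-- Indicator: the line through `u` and `v` separates `u'` and `v'`. -/
noncomputable def iS (u u' v v' : β) : ℕ := if Det X Y u v u' * Det X Y u v v' < 0 then 1 else 0

/-- Indicator: the line through `a` and `a'` separates `b` and `b'`. -/
noncomputable def iM (a a' b b' : β) : ℕ := if Det X Y a a' b * Det X Y a a' b' < 0 then 1 else 0

/-- Indicator of quadruples separated by neither of the two lines. -/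
noncomputable def iX (a a' b b' : β) : ℕ :=
  if a ≠ a' ∧ b ≠ b' ∧ ¬ (Det X Y a a' b * Det X Y a a' b' < 0) ∧
    ¬ (Det X Y b b' a * Det X Y b b' a' < 0) then 1 else 0

/-- The number of ordered quadruples separated by neither of the two lines. -/
noncomputable def Xt (A B : Finset β) : ℕ := ∑ a ∈ A, ∑ a' ∈ A, ∑ b ∈ B, ∑ b' ∈ B, iX X Y a a' b b'

variable {X Y}

lemma quad_point (hgen : GenPos X Y) {a a' b b' : β} (h1 : a ≠ b) (h2 : a ≠ b') (h3 : a' ≠ b)
    (h4 : a' ≠ b') :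
    2 * iX X Y a a' b b' + 2 * iM X Y a a' b b' + 2 * iM X Y b b' a a' + iS X Y a a' b b' +
      iS X Y a a' b' b + iS X Y a' a b b' + iS X Y a' a b' b =
    4 * (if a ≠ a' ∧ b ≠ b' then 1 else 0) := by
  unfold iX iM iS
  by_cases ha : a = a'
  · subst ha
    have h5 := mul_self_nonneg (Det X Y b b' a)
    simp [Det_self, Det_left, not_lt.mpr h5]
  by_cases hb : b = b'
  · subst hb
    have h5 := mul_self_nonneg (Det X Y a a' b)
    simp [Det_self, Det_right, not_lt.mpr h5]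
  have e1 : Det X Y b b' a = Det X Y a b b' := Det_cycle X Y a b b'
  have e2 : Det X Y b b' a' = Det X Y a' b b' := Det_cycle X Y a' b b'
  have e3 : Det X Y a b a' = - Det X Y a a' b := by unfold Det; ring
  have e4 : Det X Y a b' a' = - Det X Y a a' b' := by unfold Det; ring
  have e5 : Det X Y a b' b = - Det X Y a b b' := by unfold Det; ring
  have e6 : Det X Y a' b a = Det X Y a a' b := Det_cycle X Y a a' b
  have e7 : Det X Y a' b' a = Det X Y a a' b' := Det_cycle X Y a a' b'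
  have e8 : Det X Y a' b' b = - Det X Y a' b b' := by unfold Det; ring
  rw [e1, e2, e3, e4, e5, e6, e7, e8]
  have hrel : Det X Y a a' b - Det X Y a a' b' + Det X Y a b b' - Det X Y a' b b' = 0 := by
    unfold Det; ring
  have := four_point_signs _ _ _ _ (hgen a a' b ha (Ne.symm h3 |>.symm) h1)
    (hgen a a' b' ha h4 h2) (hgen a b b' h1 hb h2) (hgen a' b b' h3 hb h4) hrel
  simp only [ne_eq, ha, hb, not_false_eq_true, true_and, and_self, if_true, Nat.mul_one]
  exact this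

omit [DecidableEq β] in
lemma opp_count (F G : Finset β) (f : β → ℝ) :
    ∑ u ∈ F, ∑ v ∈ G, (if f u * f v < 0 then 1 else 0) =
      (F.filter (fun u => f u < 0)).card * (G.filter (fun v => 0 < f v)).card +
      (F.filter (fun u => 0 < f u)).card * (G.filter (fun v => f v < 0)).card := by
  rw [Finset.card_filter, Finset.card_filter, Finset.card_filter, Finset.card_filter,
    Finset.sum_mul_sum, Finset.sum_mul_sum, ← Finset.sum_add_distrib]
  apply Finset.sum_congr rfl
  intro u _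
  rw [← Finset.sum_add_distrib]
  apply Finset.sum_congr rfl
  intro v _
  have key : f u * f v < 0 ↔ (0 < f u ∧ f v < 0) ∨ (f u < 0 ∧ 0 < f v) := mul_neg_iff
  by_cases h1 : f u < 0
  · have h1' : ¬ 0 < f u := not_lt.mpr h1.le
    by_cases h2 : 0 < f v
    · have h2' : ¬ f v < 0 := not_lt.mpr h2.le
      simp [key, h1, h1', h2, h2']
    · simp [key, h1, h1', h2]
  · by_cases h1' : 0 < f u
    · by_cases h2 : f v < 0
      · have h2' : ¬ 0 < f v := not_lt.mpr h2.le
        simp [key, h1, h1', h2, h2']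
      · simp [key, h1, h1', h2]
    · simp [key, h1, h1']

omit [DecidableEq β] in
lemma sum_iM (A B : Finset β) :
    ∑ a ∈ A, ∑ a' ∈ A, ∑ b ∈ B, ∑ b' ∈ B, iM X Y a a' b b' = 2 * PSa X Y A B := by
  unfold PSa
  rw [Finset.mul_sum]
  apply Finset.sum_congr rfl
  intro a _
  rw [Finset.mul_sum]
  apply Finset.sum_congr rfl
  intro a' _
  unfold iM
  rw [opp_count B B (Det X Y a a')]
  unfold NN PP
  ring

omit [DecidableEq β] in
lemma sum4_pairs (A B : Finset β) (f : β → β → β → β → ℕ) :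
    ∑ a ∈ A, ∑ a' ∈ A, ∑ b ∈ B, ∑ b' ∈ B, f a a' b b' =
      ∑ b ∈ B, ∑ b' ∈ B, ∑ a ∈ A, ∑ a' ∈ A, f a a' b b' := by
  calc ∑ a ∈ A, ∑ a' ∈ A, ∑ b ∈ B, ∑ b' ∈ B, f a a' b b'
      = ∑ a ∈ A, ∑ b ∈ B, ∑ a' ∈ A, ∑ b' ∈ B, f a a' b b' :=
        Finset.sum_congr rfl (fun a _ => Finset.sum_comm)
    _ = ∑ b ∈ B, ∑ a ∈ A, ∑ a' ∈ A, ∑ b' ∈ B, f a a' b b' := Finset.sum_comm
    _ = ∑ b ∈ B, ∑ a ∈ A, ∑ b' ∈ B, ∑ a' ∈ A, f a a' b b' :=
        Finset.sum_congr rfl (fun b _ => Finset.sum_congr rfl (fun a _ => Finset.sum_comm))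
    _ = ∑ b ∈ B, ∑ b' ∈ B, ∑ a ∈ A, ∑ a' ∈ A, f a a' b b' :=
        Finset.sum_congr rfl (fun b _ => Finset.sum_comm)

omit [DecidableEq β] in
lemma sum_iS (A B : Finset β) :
    ∑ a ∈ A, ∑ a' ∈ A, ∑ b ∈ B, ∑ b' ∈ B, iS X Y a a' b b' = SSm X Y A B := by
  unfold SSm
  calc ∑ a ∈ A, ∑ a' ∈ A, ∑ b ∈ B, ∑ b' ∈ B, iS X Y a a' b b'
      = ∑ a ∈ A, ∑ b ∈ B, ∑ a' ∈ A, ∑ b' ∈ B, iS X Y a a' b b' :=
        Finset.sum_congr rfl (fun a _ => Finset.sum_comm)
    _ = _ := by
      apply Finset.sum_congr rfl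
      intro a _
      apply Finset.sum_congr rfl
      intro b _
      unfold iS cC
      rw [opp_count A B (Det X Y a b)]
      unfold NN PP
      rfl

omit [DecidableEq β] in
lemma sum_iS2 (A B : Finset β) :
    ∑ a ∈ A, ∑ a' ∈ A, ∑ b ∈ B, ∑ b' ∈ B, iS X Y a a' b' b = SSm X Y A B := by
  rw [← sum_iS]
  apply Finset.sum_congr rfl
  intro a _
  apply Finset.sum_congr rfl
  intro a' _
  exact Finset.sum_comm

omit [DecidableEq β] in
lemma sum_iS3 (A B : Finset β) :
    ∑ a ∈ A, ∑ a' ∈ A, ∑ b ∈ B, ∑ b' ∈ B, iS X Y a' a b b' = SSm X Y A B := by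
  rw [← sum_iS]
  exact Finset.sum_comm

omit [DecidableEq β] in
lemma sum_iS4 (A B : Finset β) :
    ∑ a ∈ A, ∑ a' ∈ A, ∑ b ∈ B, ∑ b' ∈ B, iS X Y a' a b' b = SSm X Y A B := by
  rw [← sum_iS2]
  exact Finset.sum_comm

lemma sum_ne_offDiag (F : Finset β) :
    ∑ a ∈ F, ∑ a' ∈ F, (if a ≠ a' then 1 else 0) = F.offDiag.card := by
  rw [← sum_offDiag_double F (fun a a' => if a ≠ a' then 1 else 0) (fun a => by simp),
    Finset.card_eq_sum_ones]
  apply Finset.sum_congr rfl
  intro p hp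
  rw [if_pos (Finset.mem_offDiag.mp hp).2.2]

lemma sum_Q (A B : Finset β) :
    ∑ a ∈ A, ∑ a' ∈ A, ∑ b ∈ B, ∑ b' ∈ B, (if a ≠ a' ∧ b ≠ b' then 1 else 0) =
      A.offDiag.card * B.offDiag.card := by
  rw [← sum_ne_offDiag, ← sum_ne_offDiag, Finset.sum_mul]
  apply Finset.sum_congr rfl
  intro a _
  rw [Finset.sum_mul]
  apply Finset.sum_congr rfl
  intro a' _
  rw [Finset.mul_sum]
  apply Finset.sum_congr rfl
  intro b _
  rw [Finset.mul_sum]
  apply Finset.sum_congr rfl
  intro b' _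
  by_cases h1 : a ≠ a' <;> by_cases h2 : b ≠ b' <;> simp [h1, h2]

/-- The quadruple identity. -/
theorem Xt_identity (hgen : GenPos X Y) {A B : Finset β} (hd : Disjoint A B) :
    Xt X Y A B + 2 * PSa X Y A B + 2 * PSa X Y B A + 2 * SSm X Y A B =
      2 * (A.offDiag.card * B.offDiag.card) := by
  have hpt : ∑ a ∈ A, ∑ a' ∈ A, ∑ b ∈ B, ∑ b' ∈ B,
      (2 * iX X Y a a' b b' + 2 * iM X Y a a' b b' + 2 * iM X Y b b' a a' + iS X Y a a' b b' +
      iS X Y a a' b' b + iS X Y a' a b b' + iS X Y a' a b' b) =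
      ∑ a ∈ A, ∑ a' ∈ A, ∑ b ∈ B, ∑ b' ∈ B, 4 * (if a ≠ a' ∧ b ≠ b' then 1 else 0) := by
    apply Finset.sum_congr rfl
    intro a ha
    apply Finset.sum_congr rfl
    intro a' ha'
    apply Finset.sum_congr rfl
    intro b hb
    apply Finset.sum_congr rfl
    intro b' hb'
    have hne : ∀ u v, u ∈ A → v ∈ B → u ≠ v := fun u v hu hv e =>
      Finset.disjoint_left.mp hd hu (e ▸ hv)
    exact quad_point hgen (hne _ _ ha hb) (hne _ _ ha hb') (hne _ _ ha' hb) (hne _ _ ha' hb')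
  simp only [Finset.sum_add_distrib, ← Finset.mul_sum] at hpt
  rw [sum_iM, sum_iS, sum_iS2, sum_iS3, sum_iS4, sum_Q] at hpt
  have hM' : ∑ a ∈ A, ∑ a' ∈ A, ∑ b ∈ B, ∑ b' ∈ B, iM X Y b b' a a' = 2 * PSa X Y B A := by
    rw [sum4_pairs, sum_iM]
  rw [hM'] at hpt
  unfold Xt
  omega

/-- The lower bound in the odd case. -/
theorem core_odd {M : ℕ} [Fintype β] (S : Sweep β M) (hb : S.Bridge X Y) (hgen : GenPos X Y)
    {A B : Finset β} (hd : Disjoint A B) {L1 L2 : ℕ} (hA : A.card = 2 * L1 + 1)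
    (hB : B.card = 2 * L2 + 1) : 4 * (L1 * L1 * (L2 * L2)) ≤ Xt X Y A B := by
  have h1 := static1 S hb hgen hd hA hB
  have h2 := Xt_identity hgen hd
  rw [offDiag_card_odd A hA, offDiag_card_odd B hB] at h2
  have h3 : 2 * ((2 * L1 + 1) * (2 * L1) * ((2 * L2 + 1) * (2 * L2))) +
      4 * (L1 * (L1 + 1) * (L2 * (L2 + 1))) =
      (2 * L1 + 1) * (2 * L1) * (2 * (L2 * (L2 + 1))) +
      (2 * L2 + 1) * (2 * L2) * (2 * (L1 * (L1 + 1))) +
      (2 * L1 + 1) * (2 * L2 + 1) * (2 * (L1 * L2)) +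
      (2 * L2 + 1) * (2 * L1 + 1) * (2 * (L1 * L2)) + 4 * (L1 * L1 * (L2 * L2)) := by
    ring
  omega

omit [DecidableEq β] in
lemma Xt_symm [DecidableEq β] (A B : Finset β) : Xt X Y A B = Xt X Y B A := by
  unfold Xt
  rw [sum4_pairs]
  apply Finset.sum_congr rfl
  intro b _
  apply Finset.sum_congr rfl
  intro b' _
  apply Finset.sum_congr rfl
  intro a _
  apply Finset.sum_congr rfl
  intro a' _
  unfold iX
  have : (a ≠ a' ∧ b ≠ b' ∧ ¬ (Det X Y a a' b * Det X Y a a' b' < 0) ∧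
      ¬ (Det X Y b b' a * Det X Y b b' a' < 0)) ↔
      (b ≠ b' ∧ a ≠ a' ∧ ¬ (Det X Y b b' a * Det X Y b b' a' < 0) ∧
      ¬ (Det X Y a a' b * Det X Y a a' b' < 0)) := by tauto
  simp only [this]

/-- Deleting one element of the first class and double counting. -/
lemma Xt_delete (A B : Finset β) :
    ∑ c ∈ A, Xt X Y (A.erase c) B = (A.card - 2) * Xt X Y A B := by
  set T : β → β → ℕ := fun a a' => ∑ b ∈ B, ∑ b' ∈ B, iX X Y a a' b b' with hT
  have hT0 : ∀ a, T a a = 0 := by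
    intro a
    simp [hT, iX]
  have h1 : ∀ c ∈ A, Xt X Y (A.erase c) B =
      ∑ a ∈ A, ∑ a' ∈ A, (if a ≠ c ∧ a' ≠ c then T a a' else 0) := by
    intro c _
    unfold Xt
    rw [← Finset.filter_ne' A c, Finset.sum_filter]
    apply Finset.sum_congr rfl
    intro a _
    by_cases ha : a ≠ c
    · rw [if_pos ha, Finset.sum_filter]
      apply Finset.sum_congr rfl
      intro a' _
      by_cases ha' : a' ≠ c
      · rw [if_pos ha', if_pos ⟨ha, ha'⟩]
      · rw [if_neg ha', if_neg (fun e => ha' e.2)]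
    · rw [if_neg ha]
      symm
      apply Finset.sum_eq_zero
      intro a' _
      rw [if_neg (fun e => ha e.1)]
  rw [Finset.sum_congr rfl h1, Finset.sum_comm]
  unfold Xt
  rw [Finset.mul_sum]
  apply Finset.sum_congr rfl
  intro a ha
  rw [Finset.sum_comm, Finset.mul_sum]
  apply Finset.sum_congr rfl
  intro a' ha'
  by_cases haa : a = a'
  · subst haa
    have : ∑ b ∈ B, ∑ b' ∈ B, iX X Y a a b b' = 0 := hT0 a
    rw [this, Nat.mul_zero]
    apply Finset.sum_eq_zero
    intro c _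
    by_cases h : a ≠ c ∧ a ≠ c
    · rw [if_pos h]; exact hT0 a
    · rw [if_neg h]
  · have e : ∑ c ∈ A, (if a ≠ c ∧ a' ≠ c then T a a' else 0) = (A.card - 2) * T a a' := by
      rw [← Finset.sum_filter, Finset.sum_const, smul_eq_mul]
      congr 1
      have e2 : A.filter (fun c => a ≠ c ∧ a' ≠ c) = (A.erase a).erase a' := by
        ext c
        simp only [Finset.mem_filter, Finset.mem_erase]
        constructor
        · rintro ⟨h1, h2, h3⟩
          exact ⟨Ne.symm h3, Ne.symm h2, h1⟩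
        · rintro ⟨h1, h2, h3⟩
          exact ⟨h3, Ne.symm h2, Ne.symm h1⟩
      rw [e2, Finset.card_erase_of_mem (Finset.mem_erase.mpr ⟨Ne.symm haa, ha'⟩),
        Finset.card_erase_of_mem ha]
      omega
    rw [e]

/-- The expected crossing count of a class size. -/
def dd (k : ℕ) : ℕ := (k / 2) * ((k - 1) / 2)

/-- Reducing an even class to odd ones. -/
lemma even_reduction {A B : Finset β} {D : ℕ}
    (h : ∀ c ∈ A, 4 * (dd (A.card - 1) * D) ≤ Xt X Y (A.erase c) B) (heven : Even A.card) :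
    4 * (dd A.card * D) ≤ Xt X Y A B := by
  obtain ⟨L, hL⟩ := heven
  have hL' : A.card = 2 * L := by omega
  rcases Nat.lt_or_ge L 2 with h2 | h2
  · have : dd A.card = 0 := by
      unfold dd
      rw [hL']
      have : (2 * L - 1) / 2 = 0 := by omega
      rw [this, Nat.mul_zero]
    rw [this]
    simp
  · obtain ⟨u, rfl⟩ : ∃ u, L = u + 1 := ⟨L - 1, by omega⟩
    have hu : 0 < u := by omega
    have e1 : dd A.card = (u + 1) * u := by
      unfold dd
      rw [hL']
      have e3 : 2 * (u + 1) / 2 = u + 1 := by omega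
      have e4 : (2 * (u + 1) - 1) / 2 = u := by omega
      rw [e3, e4]
    have e2 : dd (A.card - 1) = u * u := by
      unfold dd
      rw [hL']
      have e3 : (2 * (u + 1) - 1) / 2 = u := by omega
      have e4 : (2 * (u + 1) - 1 - 1) / 2 = u := by omega
      rw [e3, e4]
    rw [e2] at h
    rw [e1]
    have hs := Finset.card_nsmul_le_sum A (fun c => Xt X Y (A.erase c) B)
      (4 * (u * u * D)) h
    rw [Xt_delete, hL', smul_eq_mul] at hs
    have e5 : 2 * (u + 1) - 2 = 2 * u := by omega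
    rw [e5] at hs
    have e6 : 2 * (u + 1) * (4 * (u * u * D)) = 2 * u * (4 * ((u + 1) * u * D)) := by ring
    rw [e6] at hs
    exact Nat.le_of_mul_le_mul_left hs (by omega)

/-- The lower bound for arbitrary class sizes. -/
theorem Xt_lower {M : ℕ} [Fintype β] (S : Sweep β M) (hb : S.Bridge X Y) (hgen : GenPos X Y)
    {A B : Finset β} (hd : Disjoint A B) : 4 * (dd A.card * dd B.card) ≤ Xt X Y A B := by
  have odd_odd : ∀ {A B : Finset β}, Disjoint A B → Odd A.card → Odd B.card →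
      4 * (dd A.card * dd B.card) ≤ Xt X Y A B := by
    intro A B hd hA hB
    obtain ⟨L1, hL1⟩ := hA
    obtain ⟨L2, hL2⟩ := hB
    have := core_odd S hb hgen hd hL1 hL2
    have e1 : dd A.card = L1 * L1 := by
      unfold dd
      rw [hL1]
      have e3 : (2 * L1 + 1) / 2 = L1 := by omega
      have e4 : (2 * L1 + 1 - 1) / 2 = L1 := by omega
      rw [e3, e4]
    have e2 : dd B.card = L2 * L2 := by
      unfold dd
      rw [hL2]
      have e3 : (2 * L2 + 1) / 2 = L2 := by omega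
      have e4 : (2 * L2 + 1 - 1) / 2 = L2 := by omega
      rw [e3, e4]
    rw [e1, e2]
    exact this
  have any_odd : ∀ {A B : Finset β}, Disjoint A B → Odd B.card →
      4 * (dd A.card * dd B.card) ≤ Xt X Y A B := by
    intro A B hd hB
    rcases Nat.even_or_odd A.card with hA | hA
    · apply even_reduction _ hA
      intro c hc
      rw [← Finset.card_erase_of_mem hc]
      apply odd_odd (Finset.disjoint_of_subset_left (Finset.erase_subset _ _) hd) _ hB
      rw [Finset.card_erase_of_mem hc]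
      obtain ⟨L, hL⟩ := hA
      have hpos : 0 < A.card := Finset.card_pos.mpr ⟨c, hc⟩
      exact ⟨L - 1, by omega⟩
    · exact odd_odd hd hA hB
  rcases Nat.even_or_odd B.card with hB | hB
  · rw [Xt_symm, Nat.mul_comm (dd A.card)]
    apply even_reduction _ hB
    intro c hc
    rw [← Finset.card_erase_of_mem hc, Nat.mul_comm (dd (B.erase c).card), Xt_symm]
    apply any_odd (Finset.disjoint_of_subset_right (Finset.erase_subset _ _) hd)
    rw [Finset.card_erase_of_mem hc]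
    obtain ⟨L, hL⟩ := hB
    have hpos : 0 < B.card := Finset.card_pos.mpr ⟨c, hc⟩
    exact ⟨L - 1, by omega⟩
  · exact any_odd hd hB

end Quad

end Vale.Agent.Lib.P040
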