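import Vale.Agent.Lib.P040.LPlus

/-!
The negative inequality: the mixed swaps, measured from the far side, are paid for by the
swaps within one class.
-/

namespace Vale.Agent.Lib.P040

open Finset

/-- The sum of the first integers. -/
lemma two_sum_Ico (k L : ℕ) : 2 * ∑ j ∈ Ico k L, (L - j) = rho (L - k) := by
  obtain ⟨z, hz⟩ : ∃ z, z = L - k := ⟨_, rfl⟩
  induction z generalizing k with
  | zero =>
    have hk : L ≤ k := by omega
    rw [Finset.Ico_eq_empty (by omega), ← hz]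
    simp [rho]
  | succ z ih =>
    have hk : k < L := by omega
    rw [Finset.sum_eq_sum_Ico_succ_bot hk, Nat.mul_add, ih (k + 1) (by omega)]
    have e1 : L - (k + 1) = z := by omega
    have e2 : L - k = z + 1 := by omega
    rw [e1, e2]
    unfold rho
    ring

namespace Sweep

variable {α : Type} [Fintype α] [DecidableEq α] {M : ℕ} (S : Sweep α M)

/-- Ranks after `q` are distinct and bounded below. -/
lemma rank_sum (F : Finset α) (q : α) (L t : ℕ) :
    2 * ∑ b ∈ F, (if S.pos t q < S.pos t b then L - S.cnt F t b else 0) ≤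
      rho (L - S.cnt F t q) := by
  rw [← Finset.sum_filter, ← two_sum_Ico]
  apply Nat.mul_le_mul_left
  have hinj : Set.InjOn (S.cnt F t)
      (F.filter (fun b => S.pos t q < S.pos t b) : Finset α) := by
    intro u hu v hv e
    have hu' := (Finset.mem_filter.mp (Finset.mem_coe.mp hu)).1
    have hv' := (Finset.mem_filter.mp (Finset.mem_coe.mp hv)).1
    by_contra hne
    have hp : S.pos t u ≠ S.pos t v := fun e' => hne (S.pos_inj t e')
    rcases Nat.lt_or_gt_of_ne hp with h | h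
    · have := S.cnt_lt_of_pos_lt F t hu' h
      omega
    · have := S.cnt_lt_of_pos_lt F t hv' h
      omega
  have e : ∑ b ∈ F.filter (fun b => S.pos t q < S.pos t b), (L - S.cnt F t b) =
      ∑ j ∈ (F.filter (fun b => S.pos t q < S.pos t b)).image (S.cnt F t), (L - j) :=
    (Finset.sum_image hinj).symm
  rw [e]
  apply Finset.sum_le_sum_of_ne_zero
  intro j hj hne
  obtain ⟨b, hb, rfl⟩ := Finset.mem_image.mp hj
  have h1 := (Finset.mem_filter.mp hb).2
  have h2 := S.cnt_le_of_pos_lt F t h1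
  exact Finset.mem_Ico.mpr ⟨h2, by omega⟩

/-- The mirror statement of `rank_sum`. -/
lemma rank_sum' (F : Finset α) (q : α) (L t : ℕ) :
    2 * ∑ a ∈ F, (if S.pos t a < S.pos t q then L - S.cntA F t a else 0) ≤
      rho (L - S.cntA F t q) := by
  have h := S.rank_sum F q L (t + M)
  rw [S.cnt_add_M] at h
  refine le_trans (le_of_eq ?_) h
  congr 1
  apply Finset.sum_congr rfl
  intro a _
  rw [S.cnt_add_M]
  have e : S.pos (t + M) q < S.pos (t + M) a ↔ S.pos t a < S.pos t q := S.add_M_lt_iff t q a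
  simp only [e]

lemma cntA_stable (A : Finset α) {a : α} (t : ℕ) (h : ¬ (S.lo t ∈ A ∧ S.hi t ∈ A)) (ha : a ∈ A) :
    S.cntA A (t + 1) a = S.cntA A t a := by
  by_cases h1 : a = S.lo t
  · subst h1
    have e := S.cntA_lo A t
    rw [if_neg (fun e' => h ⟨ha, e'⟩), Nat.add_zero] at e
    rw [S.cntA_next_lo, e]
  · by_cases h2 : a = S.hi t
    · subst h2
      rw [S.cntA_next_hi, if_neg (fun e' => h ⟨e', ha⟩), Nat.add_zero]
    · exact S.cntA_next_of_ne A t h1 h2

lemma cnt_stable (B : Finset α) {b : α} (t : ℕ) (h : ¬ (S.lo t ∈ B ∧ S.hi t ∈ B)) (hb : b ∈ B) :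
    S.cnt B (t + 1) b = S.cnt B t b := by
  by_cases h1 : b = S.lo t
  · subst h1
    rw [S.cnt_next_lo, if_neg (fun e' => h ⟨hb, e'⟩), Nat.add_zero]
  · by_cases h2 : b = S.hi t
    · subst h2
      have e := S.cnt_hi B t
      rw [if_neg (fun e' => h ⟨e', hb⟩), Nat.add_zero] at e
      rw [S.cnt_next_hi, e]
    · exact S.cnt_next_of_ne B t h1 h2

section LM

variable (A B : Finset α) (L1 L2 : ℕ)

/-- Mixed swaps, measured from the far side. -/
def tN (t : ℕ) : ℕ :=
  if (S.lo t ∈ A ∧ S.hi t ∈ B) ∨ (S.lo t ∈ B ∧ S.hi t ∈ A) then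
    Phi L1 L2 (S.cntA A t (S.hi t)) (S.cnt B t (S.lo t)) else 0

/-- Swaps in the first class, measured from the far side. -/
def tPa (t : ℕ) : ℕ :=
  if S.lo t ∈ A ∧ S.hi t ∈ A ∧ S.cntA A t (S.hi t) < L1 then rho (L2 - S.cnt B t (S.lo t)) else 0

/-- Swaps in the second class, measured from the far side. -/
def tPb (t : ℕ) : ℕ :=
  if S.lo t ∈ B ∧ S.hi t ∈ B ∧ S.cnt B t (S.lo t) < L2 then rho (L1 - S.cntA A t (S.hi t)) else 0

/-- Potential of a pair. -/
def WW (a b : α) (t : ℕ) : ℕ := Phi L1 L2 (S.cntA A t a) (S.cnt B t b)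

/-- Variation of the potential of a pair while the first element is before the second. -/
def hh (a b : α) (t : ℕ) : ℕ :=
  if S.pos t a < S.pos t b ∧ S.pos (t + 1) a < S.pos (t + 1) b then
    adiff (S.WW A B L1 L2 a b t) (S.WW A B L1 L2 a b (t + 1)) else 0

variable {A B L1 L2}

lemma tN_add_two_M (t : ℕ) : S.tN A B L1 L2 (t + 2 * M) = S.tN A B L1 L2 t := by
  unfold tN
  rw [S.lo_add_two_M, S.hi_add_two_M, S.cnt_add_two_M, S.cntA_add_two_M]

/-- The two swaps of `a` and `b` are paid for by the variation of the potential. -/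
lemma flip_two (hd : Disjoint A B) {a b : α} (ha : a ∈ A) (hb : b ∈ B)
    (hcard : 2 * L1 ≤ A.card) :
    ∑ t ∈ range (2 * M), (if (S.lo t = b ∧ S.hi t = a) ∨ (S.lo t = a ∧ S.hi t = b) then
        S.tN A B L1 L2 t else 0) ≤ ∑ t ∈ range (2 * M), S.hh A B L1 L2 a b t := by
  have haB : a ∉ B := Finset.disjoint_left.mp hd ha
  have hbA : b ∉ A := fun e => Finset.disjoint_left.mp hd e hb
  have hne : b ≠ a := by
    rintro rfl
    exact haB hb
  obtain ⟨τ, -, h1, h2⟩ := S.exists_time hne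
  have hps := S.pair_sum (S.tN A B L1 L2) (fun t => S.tN_add_two_M t) τ
  rw [h1, h2] at hps
  rw [hps]
  have e1 : S.tN A B L1 L2 τ = S.WW A B L1 L2 a b (τ + 1) := by
    unfold tN WW
    rw [h1, h2, if_pos (Or.inr ⟨hb, ha⟩)]
    have c1 := S.cntA_next_hi A τ
    have c2 := S.cnt_next_lo B τ
    rw [h1, h2, if_neg hbA] at c1
    rw [h1, h2, if_neg haB] at c2
    simp only [Nat.add_zero] at c1 c2
    rw [c1, c2]
  have e2 : S.tN A B L1 L2 (τ + M) = S.WW A B L1 L2 a b (τ + M) := by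
    unfold tN WW
    rw [S.lo_add, S.hi_add, h1, h2, if_pos (Or.inl ⟨ha, hb⟩)]
    have c1 := S.cntA_lo A (τ + M)
    have c2 := S.cnt_hi B (τ + M)
    rw [S.lo_add, S.hi_add, h1, h2, if_neg hbA, Nat.add_zero] at c1
    rw [S.lo_add, S.hi_add, h1, h2, if_neg haB, Nat.add_zero] at c2
    rw [c1, c2]
  rw [e1, e2]
  have hperF : ∀ t, S.WW A B L1 L2 a b (t + 2 * M) = S.WW A B L1 L2 a b t := by
    intro t
    unfold WW
    rw [S.cntA_add_two_M, S.cnt_add_two_M]
  have hfl := S.flip_bound (S.WW A B L1 L2 a b) hperF h1 h2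
  have hex : S.cntA A (τ + 1) a + S.cntA A (τ + M) a + 1 = A.card := by
    have c1 := S.cntA_next_hi A τ
    rw [h1, h2, if_neg hbA] at c1
    simp only [Nat.add_zero] at c1
    have c2 := S.cntA_add_M A τ a
    have c3 := S.cnt_add_cntA A τ a
    rw [if_pos ha] at c3
    omega
  have hsum : S.WW A B L1 L2 a b (τ + 1) + S.WW A B L1 L2 a b (τ + M) ≤
      adiff (S.WW A B L1 L2 a b (τ + 1)) (S.WW A B L1 L2 a b (τ + M)) := by
    have hor : S.WW A B L1 L2 a b (τ + 1) = 0 ∨ S.WW A B L1 L2 a b (τ + M) = 0 := by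
      unfold WW Phi
      have : L1 ≤ S.cntA A (τ + 1) a ∨ L1 ≤ S.cntA A (τ + M) a := by
        omega
      rcases this with h | h
      · left; rw [Nat.sub_eq_zero_of_le h, Nat.zero_mul]
      · right; rw [Nat.sub_eq_zero_of_le h, Nat.zero_mul]
    unfold adiff
    omega
  exact hsum.trans hfl

lemma tN_le_sum (t : ℕ) :
    S.tN A B L1 L2 t ≤ ∑ a ∈ A, ∑ b ∈ B,
      (if (S.lo t = b ∧ S.hi t = a) ∨ (S.lo t = a ∧ S.hi t = b) then S.tN A B L1 L2 t else 0) := by
  by_cases hm : (S.lo t ∈ A ∧ S.hi t ∈ B) ∨ (S.lo t ∈ B ∧ S.hi t ∈ A)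
  · rcases hm with ⟨h1, h2⟩ | ⟨h1, h2⟩
    · have i1 := Finset.single_le_sum (f := fun b => (if (S.lo t = b ∧ S.hi t = S.lo t) ∨
        (S.lo t = S.lo t ∧ S.hi t = b) then S.tN A B L1 L2 t else 0))
        (fun _ _ => Nat.zero_le _) h2
      have i2 := Finset.single_le_sum (f := fun a => ∑ b ∈ B, (if (S.lo t = b ∧ S.hi t = a) ∨
        (S.lo t = a ∧ S.hi t = b) then S.tN A B L1 L2 t else 0))
        (fun _ _ => Finset.sum_nonneg (fun _ _ => Nat.zero_le _)) h1
      beta_reduce at i1 i2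
      rw [if_pos (Or.inr ⟨rfl, rfl⟩)] at i1
      exact i1.trans i2
    · have i1 := Finset.single_le_sum (f := fun b => (if (S.lo t = b ∧ S.hi t = S.hi t) ∨
        (S.lo t = S.hi t ∧ S.hi t = b) then S.tN A B L1 L2 t else 0))
        (fun _ _ => Nat.zero_le _) h1
      have i2 := Finset.single_le_sum (f := fun a => ∑ b ∈ B, (if (S.lo t = b ∧ S.hi t = a) ∨
        (S.lo t = a ∧ S.hi t = b) then S.tN A B L1 L2 t else 0))
        (fun _ _ => Finset.sum_nonneg (fun _ _ => Nat.zero_le _)) h2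
      beta_reduce at i1 i2
      rw [if_pos (Or.inl ⟨rfl, rfl⟩)] at i1
      exact i1.trans i2
  · have : S.tN A B L1 L2 t = 0 := by
      unfold tN
      rw [if_neg hm]
    rw [this]
    exact Nat.zero_le _

omit [DecidableEq α] in
/-- No variation if neither class contains both swapped elements. -/
lemma hh_eq_zero_of_stable (t : ℕ) {a b : α} (h1 : S.cntA A (t + 1) a = S.cntA A t a)
    (h2 : S.cnt B (t + 1) b = S.cnt B t b) : S.hh A B L1 L2 a b t = 0 := by
  unfold hh WW
  rw [h1, h2, adiff_self]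
  simp

/-- The pointwise bound for swaps within the first class. -/
lemma sum_hh_case_A (hd : Disjoint A B) (t : ℕ) (h1 : S.lo t ∈ A) (h2 : S.hi t ∈ A) :
    ∑ a ∈ A, ∑ b ∈ B, S.hh A B L1 L2 a b t ≤ S.tPa A B L1 L2 t := by
  have hB : ¬ (S.lo t ∈ B ∧ S.hi t ∈ B) := fun e => Finset.disjoint_left.mp hd h1 e.1
  have hadj := S.adj t
  rw [Finset.sum_comm]
  set xb := S.cntA A t (S.hi t) with hxb
  have cl : S.cntA A t (S.lo t) = xb + 1 := by
    have := S.cntA_lo A t
    rwa [if_pos h2] at this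
  have clt : S.cntA A (t + 1) (S.lo t) = xb := S.cntA_next_lo A t
  have cht : S.cntA A (t + 1) (S.hi t) = xb + 1 := by
    have := S.cntA_next_hi A t
    rwa [if_pos h1] at this
  have inner : ∀ b ∈ B, ∑ a ∈ A, S.hh A B L1 L2 a b t ≤
      2 * (if S.pos t (S.hi t) < S.pos t b then
        (if xb < L1 then L2 - S.cnt B t b else 0) else 0) := by
    intro b hb
    have hbst := S.cnt_stable B t hB hb
    have hblo : b ≠ S.lo t := fun e => Finset.disjoint_left.mp hd h1 (e ▸ hb)
    have hbhi : b ≠ S.hi t := fun e => Finset.disjoint_left.mp hd h2 (e ▸ hb)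
    have hposne : S.pos t b ≠ S.pos t (S.hi t) := fun e => hbhi (S.pos_inj t e)
    rw [sum_two_supp (S.lo_ne_hi t) A _ (fun a h3 h4 =>
      S.hh_eq_zero_of_stable t (S.cntA_next_of_ne A t h3 h4) hbst), if_pos h1, if_pos h2]
    have v : adiff (Phi L1 L2 (xb + 1) (S.cnt B t b)) (Phi L1 L2 xb (S.cnt B t b)) =
        if xb < L1 then L2 - S.cnt B t b else 0 := by
      rw [adiff_comm, adiff_Phi_x]
    have v' : adiff (Phi L1 L2 xb (S.cnt B t b)) (Phi L1 L2 (xb + 1) (S.cnt B t b)) =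
        if xb < L1 then L2 - S.cnt B t b else 0 := by
      rw [adiff_Phi_x]
    have e1 : S.hh A B L1 L2 (S.lo t) b t ≤ (if S.pos t (S.hi t) < S.pos t b then
        (if xb < L1 then L2 - S.cnt B t b else 0) else 0) := by
      unfold hh WW
      rw [cl, clt, hbst, v]
      by_cases h5 : S.pos t (S.lo t) < S.pos t b ∧ S.pos (t + 1) (S.lo t) < S.pos (t + 1) b
      · have h6 : S.pos t (S.hi t) < S.pos t b := by omega
        rw [if_pos h5, if_pos h6]
      · rw [if_neg h5]
        exact Nat.zero_le _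
    have e2 : S.hh A B L1 L2 (S.hi t) b t ≤ (if S.pos t (S.hi t) < S.pos t b then
        (if xb < L1 then L2 - S.cnt B t b else 0) else 0) := by
      unfold hh WW
      rw [cht, hbst, v']
      by_cases h5 : S.pos t (S.hi t) < S.pos t b ∧ S.pos (t + 1) (S.hi t) < S.pos (t + 1) b
      · rw [if_pos h5, if_pos h5.1]
      · rw [if_neg h5]
        exact Nat.zero_le _
    omega
  refine (Finset.sum_le_sum inner).trans ?_
  rw [← Finset.mul_sum]
  unfold tPa
  rw [← hxb]
  by_cases hx : xb < L1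
  · have e3 : S.cnt B t (S.hi t) = S.cnt B t (S.lo t) := by
      have := S.cnt_hi B t
      rwa [if_neg (fun e => Finset.disjoint_left.mp hd h1 e), Nat.add_zero] at this
    rw [if_pos ⟨h1, h2, hx⟩, ← e3]
    refine le_trans (le_of_eq ?_) (S.rank_sum B (S.hi t) L2 t)
    congr 1
    apply Finset.sum_congr rfl
    intro b _
    simp only [if_pos hx]
  · rw [if_neg (fun e => hx e.2.2)]
    simp only [if_neg hx]
    simp

/-- The pointwise bound for swaps within the second class. -/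
lemma sum_hh_case_B (hd : Disjoint A B) (t : ℕ) (h1 : S.lo t ∈ B) (h2 : S.hi t ∈ B) :
    ∑ a ∈ A, ∑ b ∈ B, S.hh A B L1 L2 a b t ≤ S.tPb A B L1 L2 t := by
  have hA : ¬ (S.lo t ∈ A ∧ S.hi t ∈ A) := fun e => Finset.disjoint_left.mp hd e.1 h1
  have hadj := S.adj t
  set y := S.cnt B t (S.lo t) with hy
  have ch : S.cnt B t (S.hi t) = y + 1 := by
    have := S.cnt_hi B t
    rwa [if_pos h1] at this
  have clt : S.cnt B (t + 1) (S.lo t) = y + 1 := by
    have := S.cnt_next_lo B t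
    rwa [if_pos h2] at this
  have cht : S.cnt B (t + 1) (S.hi t) = y := S.cnt_next_hi B t
  have inner : ∀ a ∈ A, ∑ b ∈ B, S.hh A B L1 L2 a b t ≤
      2 * (if S.pos t a < S.pos t (S.lo t) then
        (if y < L2 then L1 - S.cntA A t a else 0) else 0) := by
    intro a ha
    have hast := S.cntA_stable A t hA ha
    have halo : a ≠ S.lo t := fun e => Finset.disjoint_left.mp hd ha (e ▸ h1)
    have hahi : a ≠ S.hi t := fun e => Finset.disjoint_left.mp hd ha (e ▸ h2)
    have hposne : S.pos t a ≠ S.pos t (S.lo t) := fun e => halo (S.pos_inj t e)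
    rw [sum_two_supp (S.lo_ne_hi t) B _ (fun b h3 h4 =>
      S.hh_eq_zero_of_stable t hast (S.cnt_next_of_ne B t h3 h4)), if_pos h1, if_pos h2]
    have v : adiff (Phi L1 L2 (S.cntA A t a) (y + 1)) (Phi L1 L2 (S.cntA A t a) y) =
        if y < L2 then L1 - S.cntA A t a else 0 := by
      rw [adiff_comm, adiff_Phi_y]
    have v' : adiff (Phi L1 L2 (S.cntA A t a) y) (Phi L1 L2 (S.cntA A t a) (y + 1)) =
        if y < L2 then L1 - S.cntA A t a else 0 := by
      rw [adiff_Phi_y]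
    have e1 : S.hh A B L1 L2 a (S.lo t) t ≤ (if S.pos t a < S.pos t (S.lo t) then
        (if y < L2 then L1 - S.cntA A t a else 0) else 0) := by
      unfold hh WW
      rw [hast, clt, v']
      by_cases h5 : S.pos t a < S.pos t (S.lo t) ∧ S.pos (t + 1) a < S.pos (t + 1) (S.lo t)
      · rw [if_pos h5, if_pos h5.1]
      · rw [if_neg h5]
        exact Nat.zero_le _
    have e2 : S.hh A B L1 L2 a (S.hi t) t ≤ (if S.pos t a < S.pos t (S.lo t) then
        (if y < L2 then L1 - S.cntA A t a else 0) else 0) := by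
      unfold hh WW
      rw [hast, ch, cht, v]
      by_cases h5 : S.pos t a < S.pos t (S.hi t) ∧ S.pos (t + 1) a < S.pos (t + 1) (S.hi t)
      · have h6 : S.pos t a < S.pos t (S.lo t) := by omega
        rw [if_pos h5, if_pos h6]
      · rw [if_neg h5]
        exact Nat.zero_le _
    omega
  refine (Finset.sum_le_sum inner).trans ?_
  rw [← Finset.mul_sum]
  unfold tPb
  rw [← hy]
  by_cases hx : y < L2
  · have e3 : S.cntA A t (S.lo t) = S.cntA A t (S.hi t) := by
      have := S.cntA_lo A t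
      rwa [if_neg (fun e => Finset.disjoint_left.mp hd e h2), Nat.add_zero] at this
    rw [if_pos ⟨h1, h2, hx⟩, ← e3]
    refine le_trans (le_of_eq ?_) (S.rank_sum' A (S.lo t) L1 t)
    congr 1
    apply Finset.sum_congr rfl
    intro a _
    simp only [if_pos hx]
  · rw [if_neg (fun e => hx e.2.2)]
    simp only [if_neg hx]
    simp

/-- The pointwise bound in all cases. -/
lemma sum_hh_le (hd : Disjoint A B) (t : ℕ) :
    ∑ a ∈ A, ∑ b ∈ B, S.hh A B L1 L2 a b t ≤ S.tPa A B L1 L2 t + S.tPb A B L1 L2 t := by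
  by_cases hA : S.lo t ∈ A ∧ S.hi t ∈ A
  · exact (S.sum_hh_case_A hd t hA.1 hA.2).trans (Nat.le_add_right _ _)
  · by_cases hB : S.lo t ∈ B ∧ S.hi t ∈ B
    · exact (S.sum_hh_case_B hd t hB.1 hB.2).trans (Nat.le_add_left _ _)
    · have : ∑ a ∈ A, ∑ b ∈ B, S.hh A B L1 L2 a b t = 0 := by
        apply Finset.sum_eq_zero
        intro a ha
        apply Finset.sum_eq_zero
        intro b hb
        exact S.hh_eq_zero_of_stable t (S.cntA_stable A t hA ha) (S.cnt_stable B t hB hb)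
      rw [this]
      exact Nat.zero_le _

/-- The inequality for far-side measures. -/
theorem N_le (hd : Disjoint A B) (hcard : 2 * L1 ≤ A.card) :
    ∑ t ∈ range (2 * M), S.tN A B L1 L2 t ≤
      ∑ t ∈ range (2 * M), (S.tPa A B L1 L2 t + S.tPb A B L1 L2 t) := by
  calc ∑ t ∈ range (2 * M), S.tN A B L1 L2 t
      ≤ ∑ t ∈ range (2 * M), ∑ a ∈ A, ∑ b ∈ B,
        (if (S.lo t = b ∧ S.hi t = a) ∨ (S.lo t = a ∧ S.hi t = b) then
          S.tN A B L1 L2 t else 0) :=
        Finset.sum_le_sum (fun t _ => S.tN_le_sum t)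
    _ = ∑ a ∈ A, ∑ b ∈ B, ∑ t ∈ range (2 * M),
        (if (S.lo t = b ∧ S.hi t = a) ∨ (S.lo t = a ∧ S.hi t = b) then
          S.tN A B L1 L2 t else 0) := by
        rw [Finset.sum_comm]
        apply Finset.sum_congr rfl
        intro a _
        rw [Finset.sum_comm]
    _ ≤ ∑ a ∈ A, ∑ b ∈ B, ∑ t ∈ range (2 * M), S.hh A B L1 L2 a b t :=
        Finset.sum_le_sum (fun a ha => Finset.sum_le_sum (fun b hb =>
          S.flip_two hd ha hb hcard))
    _ = ∑ a ∈ A, ∑ t ∈ range (2 * M), ∑ b ∈ B, S.hh A B L1 L2 a b t :=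
        Finset.sum_congr rfl (fun a _ => Finset.sum_comm)
    _ = ∑ t ∈ range (2 * M), ∑ a ∈ A, ∑ b ∈ B, S.hh A B L1 L2 a b t := Finset.sum_comm
    _ ≤ _ := Finset.sum_le_sum (fun t _ => S.sum_hh_le hd t)

end LM

end Sweep

end Vale.Agent.Lib.P040
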