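import Vale.Agent.Lib.P040.Sweep

/-!
The positive inequality: the weighted count `Xi` of swaps is at least
`L1 (L1 + 1) L2 (L2 + 1)`.
-/

namespace Vale.Agent.Lib.P040

open Finset

lemma Phi_comm (L1 L2 x y : ℕ) : Phi L1 L2 x y = Phi L2 L1 y x := by
  unfold Phi; ring

lemma rho_step (l x : ℕ) : rho (l - x) + 2 * (l + 1 - x) ≤ rho (l + 1 - x) := by
  by_cases h : x ≤ l
  · obtain ⟨z, hz⟩ : ∃ z, l - x = z := ⟨_, rfl⟩
    have h2 : l + 1 - x = z + 1 := by omega
    rw [hz, h2]
    unfold rho
    have : (z + 1) * (z + 1 + 1) = z * (z + 1) + 2 * (z + 1) := by ring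
    omega
  · have h1 : l - x = 0 := by omega
    have h2 : l + 1 - x = 0 := by omega
    rw [h1, h2]
    simp [rho]

lemma Phi_step (l L2 x y : ℕ) :
    Phi l L2 x y + (if x < l + 1 then L2 - y else 0) ≤ Phi (l + 1) L2 x y := by
  unfold Phi
  split_ifs with h
  · have h2 : l + 1 - x = (l - x) + 1 := by omega
    rw [h2, Nat.add_mul, Nat.one_mul]
  · have h1 : l - x = 0 := by omega
    have h2 : l + 1 - x = 0 := by omega
    rw [h1, h2]
    simp

namespace Sweep

variable {α : Type} [Fintype α] [DecidableEq α] {M : ℕ} (S : Sweep α M)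

/-- The weight of a swap of two elements of the first class. -/
def tAA (A B : Finset α) (L1 L2 t : ℕ) : ℕ :=
  if S.lo t ∈ A ∧ S.hi t ∈ A ∧ S.cnt A t (S.lo t) < L1 then rho (L2 - S.cnt B t (S.lo t)) else 0

/-- The weight of a swap of elements of different classes. -/
def tAB (A B : Finset α) (L1 L2 t : ℕ) : ℕ :=
  if (S.lo t ∈ A ∧ S.hi t ∈ B) ∨ (S.lo t ∈ B ∧ S.hi t ∈ A) then
    Phi L1 L2 (S.cnt A t (S.lo t)) (S.cnt B t (S.lo t)) else 0

/-- The total weight of a swap. -/
def term (A B : Finset α) (L1 L2 t : ℕ) : ℕ :=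
  S.tAA A B L1 L2 t + S.tAA B A L2 L1 t + S.tAB A B L1 L2 t

/-- The total weight of all swaps in a period. -/
def Xi (A B : Finset α) (L1 L2 : ℕ) : ℕ := ∑ t ∈ range (2 * M), S.term A B L1 L2 t

lemma tAB_symm (A B : Finset α) (L1 L2 t : ℕ) : S.tAB A B L1 L2 t = S.tAB B A L2 L1 t := by
  unfold tAB
  rw [Phi_comm]
  by_cases h : (S.lo t ∈ A ∧ S.hi t ∈ B) ∨ (S.lo t ∈ B ∧ S.hi t ∈ A)
  · rw [if_pos h, if_pos h.symm]
  · rw [if_neg h, if_neg (fun e => h e.symm)]

lemma term_symm (A B : Finset α) (L1 L2 t : ℕ) : S.term A B L1 L2 t = S.term B A L2 L1 t := by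
  unfold term
  rw [S.tAB_symm A B L1 L2 t]
  ring

lemma Xi_symm (A B : Finset α) (L1 L2 : ℕ) : S.Xi A B L1 L2 = S.Xi B A L2 L1 := by
  unfold Xi
  exact Finset.sum_congr rfl (fun t _ => S.term_symm A B L1 L2 t)

section Peel

variable (A B : Finset α) (p : α) (l L2 : ℕ)

/-- The weight of swaps of `p` with its own class. -/
def J1 (t : ℕ) : ℕ := if S.lo t = p ∨ S.hi t = p then S.tAA A B (l + 1) L2 t else 0

/-- The weight of swaps of `p` with the other class. -/
def J2 (t : ℕ) : ℕ := if S.lo t = p ∨ S.hi t = p then S.tAB A B (l + 1) L2 t else 0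

/-- The gain for swaps before `p`. -/
def gg (t : ℕ) : ℕ :=
  if S.lo t ≠ p ∧ S.hi t ≠ p ∧ S.pos t (S.lo t) < S.pos t p then
    (if (S.lo t ∈ A ∧ S.hi t ∈ B) ∨ (S.lo t ∈ B ∧ S.hi t ∈ A) then
       (if S.cnt A t (S.lo t) < l + 1 then L2 - S.cnt B t (S.lo t) else 0) else 0) +
    (if S.lo t ∈ B ∧ S.hi t ∈ B ∧ S.cnt B t (S.lo t) < L2 then
      2 * (l + 1 - S.cnt A t (S.lo t)) else 0)
  else 0

variable {A B p l L2}

lemma term_erase_on (hd : Disjoint A B) (hp : p ∈ A) (t : ℕ) (h : S.lo t = p ∨ S.hi t = p) :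
    S.term (A.erase p) B l L2 t = 0 := by
  have hpB : p ∉ B := Finset.disjoint_left.mp hd hp
  have h1 : S.tAA (A.erase p) B l L2 t = 0 := by
    unfold tAA
    rw [if_neg]
    rintro ⟨h1, h2, _⟩
    rcases h with h | h
    · rw [h] at h1; simp at h1
    · rw [h] at h2; simp at h2
  have h2 : S.tAA B (A.erase p) L2 l t = 0 := by
    unfold tAA
    rw [if_neg]
    rintro ⟨h1, h2, _⟩
    rcases h with h | h
    · rw [h] at h1; exact hpB h1
    · rw [h] at h2; exact hpB h2
  have h3 : S.tAB (A.erase p) B l L2 t = 0 := by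
    unfold tAB
    rw [if_neg]
    rintro (⟨h1, h2⟩ | ⟨h1, h2⟩)
    · rcases h with h | h
      · rw [h] at h1; simp at h1
      · rw [h] at h2; exact hpB h2
    · rcases h with h | h
      · rw [h] at h1; exact hpB h1
      · rw [h] at h2; simp at h2
  unfold term
  omega

/-- The per-time inequality of the peeling step. -/
lemma term_peel (hd : Disjoint A B) (hp : p ∈ A) (t : ℕ) :
    S.term (A.erase p) B l L2 t + S.J1 A B p l L2 t + S.J2 A B p l L2 t + S.gg A B p l L2 t
      ≤ S.term A B (l + 1) L2 t := by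
  by_cases hin : S.lo t = p ∨ S.hi t = p
  · rw [S.term_erase_on hd hp t hin]
    have hg : S.gg A B p l L2 t = 0 := by
      unfold gg
      rw [if_neg]
      rintro ⟨h1, h2, _⟩
      rcases hin with h | h
      · exact h1 h
      · exact h2 h
    rw [hg]
    unfold J1 J2 term
    rw [if_pos hin, if_pos hin]
    omega
  · have hlo : S.lo t ≠ p := fun e => hin (Or.inl e)
    have hhi : S.hi t ≠ p := fun e => hin (Or.inr e)
    have hJ1 : S.J1 A B p l L2 t = 0 := by unfold J1; rw [if_neg hin]
    have hJ2 : S.J2 A B p l L2 t = 0 := by unfold J2; rw [if_neg hin]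
    rw [hJ1, hJ2]
    have mlo : S.lo t ∈ A.erase p ↔ S.lo t ∈ A := by simp [hlo]
    have mhi : S.hi t ∈ A.erase p ↔ S.hi t ∈ A := by simp [hhi]
    have hcnt := S.cnt_erase A hp t (S.lo t)
    by_cases hbef : S.pos t p < S.pos t (S.lo t)
    · rw [if_pos hbef] at hcnt
      have hg : S.gg A B p l L2 t = 0 := by
        unfold gg
        rw [if_neg]
        rintro ⟨_, _, h⟩
        omega
      rw [hg]
      unfold term tAA tAB
      simp only [mlo, mhi]
      rw [hcnt]
      have e1 : S.cnt (A.erase p) t (S.lo t) + 1 < l + 1 ↔ S.cnt (A.erase p) t (S.lo t) < l := by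
        omega
      have e2 : l + 1 - (S.cnt (A.erase p) t (S.lo t) + 1) = l - S.cnt (A.erase p) t (S.lo t) := by
        omega
      have e3 : Phi (l + 1) L2 (S.cnt (A.erase p) t (S.lo t) + 1) (S.cnt B t (S.lo t)) =
          Phi l L2 (S.cnt (A.erase p) t (S.lo t)) (S.cnt B t (S.lo t)) := by
        unfold Phi; rw [e2]
      simp only [e1, e2, e3]
      omega
    · rw [if_neg hbef, Nat.add_zero] at hcnt
      have hne : S.pos t (S.lo t) ≠ S.pos t p := fun e => hlo (S.pos_inj t e)
      have hlt : S.pos t (S.lo t) < S.pos t p := by omega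
      unfold gg
      rw [if_pos ⟨hlo, hhi, hlt⟩]
      unfold term tAA tAB
      simp only [mlo, mhi]
      rw [hcnt]
      set x := S.cnt (A.erase p) t (S.lo t) with hx
      set y := S.cnt B t (S.lo t) with hy
      have s1 : (if S.lo t ∈ A ∧ S.hi t ∈ A ∧ x < l then rho (L2 - y) else 0) ≤
          (if S.lo t ∈ A ∧ S.hi t ∈ A ∧ x < l + 1 then rho (L2 - y) else 0) := by
        split_ifs with h1 h2 h2
        · exact le_refl _
        · exact absurd ⟨h1.1, h1.2.1, by omega⟩ h2
        · exact Nat.zero_le _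
        · exact le_refl _
      have s2 : (if S.lo t ∈ B ∧ S.hi t ∈ B ∧ y < L2 then rho (l - x) else 0) +
          (if S.lo t ∈ B ∧ S.hi t ∈ B ∧ y < L2 then 2 * (l + 1 - x) else 0) ≤
          (if S.lo t ∈ B ∧ S.hi t ∈ B ∧ y < L2 then rho (l + 1 - x) else 0) := by
        split_ifs with h1
        · exact rho_step l x
        · omega
      have s3 : (if (S.lo t ∈ A ∧ S.hi t ∈ B) ∨ (S.lo t ∈ B ∧ S.hi t ∈ A) then Phi l L2 x y else 0) +
          (if (S.lo t ∈ A ∧ S.hi t ∈ B) ∨ (S.lo t ∈ B ∧ S.hi t ∈ A) then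
            (if x < l + 1 then L2 - y else 0) else 0) ≤
          (if (S.lo t ∈ A ∧ S.hi t ∈ B) ∨ (S.lo t ∈ B ∧ S.hi t ∈ A) then
            Phi (l + 1) L2 x y else 0) := by
        by_cases h1 : (S.lo t ∈ A ∧ S.hi t ∈ B) ∨ (S.lo t ∈ B ∧ S.hi t ∈ A)
        · rw [if_pos h1, if_pos h1, if_pos h1]
          exact Phi_step l L2 x y
        · rw [if_neg h1, if_neg h1, if_neg h1]
      omega

/-- The potential of the element `p` changes only at its swaps. -/
lemma theta_step (hd : Disjoint A B) (hp : p ∈ A) (t : ℕ) :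
    adiff (Theta (l + 1) L2 (S.cnt (A.erase p) t p) (S.cnt B t p))
        (Theta (l + 1) L2 (S.cnt (A.erase p) (t + 1) p) (S.cnt B (t + 1) p))
      ≤ S.J1 A B p l L2 t + 2 * S.J2 A B p l L2 t := by
  have hpB : p ∉ B := Finset.disjoint_left.mp hd hp
  by_cases h1 : S.lo t = p
  · have hin : S.lo t = p ∨ S.hi t = p := Or.inl h1
    have hs : S.hi t ≠ p := fun e => S.lo_ne_hi t (h1.trans e.symm)
    have ea := S.cnt_next_lo (A.erase p) t
    have eb := S.cnt_next_lo B t
    have ec := S.cnt_erase A hp t p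
    rw [if_neg (lt_irrefl _), Nat.add_zero] at ec
    unfold J1 J2
    rw [if_pos hin, if_pos hin]
    unfold tAA tAB
    rw [h1] at ea eb ⊢
    rw [ea, eb, ec]
    by_cases hsA : S.hi t ∈ A
    · have hsB : S.hi t ∉ B := Finset.disjoint_left.mp hd hsA
      have hsA' : S.hi t ∈ A.erase p := Finset.mem_erase.mpr ⟨hs, hsA⟩
      rw [if_pos hsA', if_neg hsB]
      simp only [Nat.add_zero]
      rw [adiff_Theta_x]
      have : (if S.cnt (A.erase p) t p < l + 1 then rho (L2 - S.cnt B t p) else 0) ≤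
          (if p ∈ A ∧ S.hi t ∈ A ∧ S.cnt (A.erase p) t p < l + 1 then
            rho (L2 - S.cnt B t p) else 0) := by
        by_cases h : S.cnt (A.erase p) t p < l + 1
        · rw [if_pos h, if_pos ⟨hp, hsA, h⟩]
        · rw [if_neg h]; exact Nat.zero_le _
      omega
    · have hsA' : S.hi t ∉ A.erase p := fun e => hsA (Finset.mem_of_mem_erase e)
      rw [if_neg hsA']
      by_cases hsB : S.hi t ∈ B
      · rw [if_pos hsB]
        simp only [Nat.add_zero]
        rw [adiff_Theta_y, if_pos (Or.inl ⟨hp, hsB⟩)]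
        omega
      · rw [if_neg hsB]
        simp only [Nat.add_zero]
        rw [adiff_self]
        exact Nat.zero_le _
  · by_cases h2 : S.hi t = p
    · have hin : S.lo t = p ∨ S.hi t = p := Or.inr h2
      have ea := S.cnt_next_hi (A.erase p) t
      have eb := S.cnt_next_hi B t
      have ea' := S.cnt_hi (A.erase p) t
      have eb' := S.cnt_hi B t
      have ec := S.cnt_erase A hp t (S.lo t)
      have hlt := S.pos_lt t
      rw [h2] at ea eb ea' eb' hlt
      rw [if_neg (by omega), Nat.add_zero] at ec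
      unfold J1 J2
      rw [if_pos hin, if_pos hin]
      unfold tAA tAB
      rw [ea, eb, ea', eb', ec, h2]
      by_cases hsA : S.lo t ∈ A
      · have hsB : S.lo t ∉ B := Finset.disjoint_left.mp hd hsA
        have hsA' : S.lo t ∈ A.erase p := Finset.mem_erase.mpr ⟨h1, hsA⟩
        rw [if_pos hsA', if_neg hsB]
        simp only [Nat.add_zero]
        rw [adiff_comm, adiff_Theta_x]
        have : (if S.cnt (A.erase p) t (S.lo t) < l + 1 then rho (L2 - S.cnt B t (S.lo t)) else 0) ≤
            (if S.lo t ∈ A ∧ p ∈ A ∧ S.cnt (A.erase p) t (S.lo t) < l + 1 then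
              rho (L2 - S.cnt B t (S.lo t)) else 0) := by
          by_cases h : S.cnt (A.erase p) t (S.lo t) < l + 1
          · rw [if_pos h, if_pos ⟨hsA, hp, h⟩]
          · rw [if_neg h]; exact Nat.zero_le _
        omega
      · have hsA' : S.lo t ∉ A.erase p := fun e => hsA (Finset.mem_of_mem_erase e)
        rw [if_neg hsA']
        by_cases hsB : S.lo t ∈ B
        · rw [if_pos hsB]
          simp only [Nat.add_zero]
          rw [adiff_comm, adiff_Theta_y, if_pos (Or.inr ⟨hsB, hp⟩)]
          omega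
        · rw [if_neg hsB]
          simp only [Nat.add_zero]
          rw [adiff_self]
          exact Nat.zero_le _
    · rw [S.cnt_next_of_ne _ t (Ne.symm h1) (Ne.symm h2), S.cnt_next_of_ne _ t (Ne.symm h1) (Ne.symm h2),
        adiff_self]
      exact Nat.zero_le _

/-- The peeled element, being first, gives twice the potential. -/
lemma sum_J (hd : Disjoint A B) (hp : p ∈ A)
    (hfirst : ∀ q, (q ∈ A ∨ q ∈ B) → q ≠ p → S.pos 0 p < S.pos 0 q)
    (hcard : 2 * (l + 1) ≤ A.card) :
    2 * ((l + 1) * rho L2) ≤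
      ∑ t ∈ range (2 * M), (S.J1 A B p l L2 t + 2 * S.J2 A B p l L2 t) := by
  set Th : ℕ → ℕ := fun t => Theta (l + 1) L2 (S.cnt (A.erase p) t p) (S.cnt B t p) with hTh
  have c1 : S.cnt (A.erase p) 0 p = 0 := by
    unfold cnt
    rw [Finset.card_eq_zero, Finset.filter_eq_empty_iff]
    intro r hr
    obtain ⟨h1, h2⟩ := Finset.mem_erase.mp hr
    have := hfirst r (Or.inl h2) h1
    omega
  have c2 : S.cnt B 0 p = 0 := by
    unfold cnt
    rw [Finset.card_eq_zero, Finset.filter_eq_empty_iff]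
    intro r hr
    have h1 : r ≠ p := by
      rintro rfl
      exact Finset.disjoint_left.mp hd hp hr
    have := hfirst r (Or.inr hr) h1
    omega
  have h0 : Th 0 = (l + 1) * rho L2 := by
    simp only [hTh, c1, c2, Theta, Nat.sub_zero]
  have c3 : l + 1 ≤ S.cnt (A.erase p) M p := by
    have e := S.cnt_add_M (A.erase p) 0 p
    rw [Nat.zero_add] at e
    rw [e]
    unfold cntA
    rw [Finset.filter_true_of_mem, Finset.card_erase_of_mem hp]
    · omega
    · intro r hr
      obtain ⟨h1, h2⟩ := Finset.mem_erase.mp hr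
      exact hfirst r (Or.inl h2) h1
  have hMz : Th M = 0 := by
    simp only [hTh, Theta]
    rw [Nat.sub_eq_zero_of_le c3, Nat.zero_mul]
  have h2M : Th (2 * M) = Th 0 := by
    have e1 := S.cnt_add_two_M (A.erase p) 0 p
    have e2 := S.cnt_add_two_M B 0 p
    rw [Nat.zero_add] at e1 e2
    simp only [hTh]
    rw [e1, e2]
  have s1 := adiff_le_sum_Ico Th 0 M (Nat.zero_le _)
  have s2 := adiff_le_sum_Ico Th M (2 * M) (by omega)
  have s3 : ∑ t ∈ Ico 0 M, adiff (Th t) (Th (t + 1)) + ∑ t ∈ Ico M (2 * M), adiff (Th t) (Th (t + 1))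
      = ∑ t ∈ range (2 * M), adiff (Th t) (Th (t + 1)) := by
    rw [Finset.range_eq_Ico]
    exact Finset.sum_Ico_consecutive _ (Nat.zero_le _) (by omega)
  have s4 : ∑ t ∈ range (2 * M), adiff (Th t) (Th (t + 1)) ≤
      ∑ t ∈ range (2 * M), (S.J1 A B p l L2 t + 2 * S.J2 A B p l L2 t) :=
    Finset.sum_le_sum (fun t _ => S.theta_step hd hp t)
  rw [h2M, hMz, h0] at *
  have s5 : adiff ((l + 1) * rho L2) 0 = (l + 1) * rho L2 := by unfold adiff; omega
  have s6 : adiff 0 ((l + 1) * rho L2) = (l + 1) * rho L2 := by unfold adiff; omega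
  rw [s5] at s1
  rw [s6] at s2
  omega

variable (A B p l L2) in
/-- The potential of a member `b` of the other class, after removing `p`. -/
def fb (b : α) (t : ℕ) : ℕ := Phi (l + 1) L2 (S.cnt (A.erase p) t b) (S.cnt B t b)

variable (A B p l L2) in
/-- The variation of `fb` while `b` is before `p`. -/
def ww (b : α) (t : ℕ) : ℕ :=
  if S.pos t b < S.pos t p ∧ S.pos (t + 1) b < S.pos (t + 1) p then
    adiff (S.fb A B p l L2 b t) (S.fb A B p l L2 b (t + 1)) else 0

lemma tAB_add_two_M (A B : Finset α) (L1 L2 t : ℕ) :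
    S.tAB A B L1 L2 (t + 2 * M) = S.tAB A B L1 L2 t := by
  unfold tAB
  rw [S.lo_add_two_M, S.hi_add_two_M, S.cnt_add_two_M, S.cnt_add_two_M]

/-- The two swaps of `p` and `b` are paid for by the variation of `fb`. -/
lemma flip_one (hd : Disjoint A B) (hp : p ∈ A) {b : α} (hb : b ∈ B)
    (hcard : 2 * (l + 1) ≤ A.card) :
    ∑ t ∈ range (2 * M), (if (S.lo t = p ∧ S.hi t = b) ∨ (S.lo t = b ∧ S.hi t = p) then
        S.tAB A B (l + 1) L2 t else 0) ≤ ∑ t ∈ range (2 * M), S.ww A B p l L2 b t := by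
  have hpB : p ∉ B := Finset.disjoint_left.mp hd hp
  have hbA : b ∉ A := fun e => Finset.disjoint_left.mp hd e hb
  have hne : p ≠ b := by
    rintro rfl
    exact hpB hb
  have hbA' : b ∉ A.erase p := fun e => hbA (Finset.mem_of_mem_erase e)
  have hpA' : p ∉ A.erase p := by simp
  obtain ⟨τ, -, h1, h2⟩ := S.exists_time hne
  have hps := S.pair_sum (S.tAB A B (l + 1) L2) (fun t => S.tAB_add_two_M A B _ _ t) τ
  rw [h1, h2] at hps
  rw [hps]
  have e1 : S.tAB A B (l + 1) L2 τ = S.fb A B p l L2 b (τ + 1) := by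
    unfold tAB fb
    rw [h1, h2, if_pos (Or.inl ⟨hp, hb⟩)]
    have c1 := S.cnt_next_hi (A.erase p) τ
    have c2 := S.cnt_next_hi B τ
    have c3 := S.cnt_erase A hp τ p
    rw [if_neg (lt_irrefl _), Nat.add_zero] at c3
    rw [h1, h2] at c1 c2
    rw [c1, c2, c3]
  have hlt : S.pos (τ + M) b < S.pos (τ + M) p := by
    have := S.pos_lt (τ + M)
    rwa [S.lo_add, S.hi_add, h1, h2] at this
  have e2 : S.tAB A B (l + 1) L2 (τ + M) = S.fb A B p l L2 b (τ + M) := by
    unfold tAB fb
    rw [S.lo_add, S.hi_add, h1, h2, if_pos (Or.inr ⟨hb, hp⟩)]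
    have c3 := S.cnt_erase A hp (τ + M) b
    rw [if_neg (by omega), Nat.add_zero] at c3
    rw [c3]
  rw [e1, e2]
  have hperF : ∀ t, S.fb A B p l L2 b (t + 2 * M) = S.fb A B p l L2 b t := by
    intro t
    unfold fb
    rw [S.cnt_add_two_M, S.cnt_add_two_M]
  have hfl := S.flip_bound (S.fb A B p l L2 b) hperF h1 h2
  have hex : S.cnt (A.erase p) (τ + 1) b + S.cnt (A.erase p) (τ + M) b = A.card - 1 := by
    have c1 := S.cnt_next_hi (A.erase p) τ
    rw [h2, h1] at c1
    have c2 := S.cnt_add_M (A.erase p) τ b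
    have c3 := S.cnt_add_cntA (A.erase p) τ b
    rw [if_neg hbA', Finset.card_erase_of_mem hp, Nat.add_zero] at c3
    have c4 := S.cnt_hi (A.erase p) τ
    rw [h1, h2, if_neg hpA', Nat.add_zero] at c4
    omega
  have hsum : S.fb A B p l L2 b (τ + 1) + S.fb A B p l L2 b (τ + M) ≤
      adiff (S.fb A B p l L2 b (τ + 1)) (S.fb A B p l L2 b (τ + M)) := by
    have hor : S.fb A B p l L2 b (τ + 1) = 0 ∨ S.fb A B p l L2 b (τ + M) = 0 := by
      unfold fb Phi
      have : l + 1 ≤ S.cnt (A.erase p) (τ + 1) b ∨ l + 1 ≤ S.cnt (A.erase p) (τ + M) b := by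
        omega
      rcases this with h | h
      · left; rw [Nat.sub_eq_zero_of_le h, Nat.zero_mul]
      · right; rw [Nat.sub_eq_zero_of_le h, Nat.zero_mul]
    unfold adiff
    omega
  exact hsum.trans hfl

/-- The swap weight of `p` is distributed over the members of the other class. -/
lemma J2_le_sum (hd : Disjoint A B) (hp : p ∈ A) (t : ℕ) :
    S.J2 A B p l L2 t ≤ ∑ b ∈ B, (if (S.lo t = p ∧ S.hi t = b) ∨ (S.lo t = b ∧ S.hi t = p) then
        S.tAB A B (l + 1) L2 t else 0) := by
  have hpB : p ∉ B := Finset.disjoint_left.mp hd hp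
  unfold J2
  by_cases hin : S.lo t = p ∨ S.hi t = p
  · rw [if_pos hin]
    by_cases hm : (S.lo t ∈ A ∧ S.hi t ∈ B) ∨ (S.lo t ∈ B ∧ S.hi t ∈ A)
    · rcases hin with h | h
      · have hb : S.hi t ∈ B := by
          rcases hm with ⟨_, h2⟩ | ⟨h2, _⟩
          · exact h2
          · rw [h] at h2; exact (hpB h2).elim
        have := Finset.single_le_sum (f := fun b => (if (S.lo t = p ∧ S.hi t = b) ∨
          (S.lo t = b ∧ S.hi t = p) then S.tAB A B (l + 1) L2 t else 0)) (fun _ _ => Nat.zero_le _) hb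
        beta_reduce at this
        rwa [if_pos (Or.inl ⟨h, rfl⟩)] at this
      · have hb : S.lo t ∈ B := by
          rcases hm with ⟨_, h2⟩ | ⟨h2, _⟩
          · rw [h] at h2; exact (hpB h2).elim
          · exact h2
        have := Finset.single_le_sum (f := fun b => (if (S.lo t = p ∧ S.hi t = b) ∨
          (S.lo t = b ∧ S.hi t = p) then S.tAB A B (l + 1) L2 t else 0)) (fun _ _ => Nat.zero_le _) hb
        beta_reduce at this
        rwa [if_pos (Or.inr ⟨rfl, h⟩)] at this
    · have : S.tAB A B (l + 1) L2 t = 0 := by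
        unfold tAB
        rw [if_neg hm]
      rw [this]
      exact Nat.zero_le _
  · rw [if_neg hin]
    exact Nat.zero_le _

omit [Fintype α] in
lemma sum_two_supp {r s : α} (hrs : r ≠ s) (B : Finset α) (f : α → ℕ)
    (hf : ∀ b, b ≠ r → b ≠ s → f b = 0) :
    ∑ b ∈ B, f b = (if r ∈ B then f r else 0) + (if s ∈ B then f s else 0) := by
  have : ∀ b ∈ B, f b = (if b = r then f b else 0) + (if b = s then f b else 0) := by
    intro b _
    by_cases h1 : b = r
    · rw [if_pos h1, if_neg (by rw [h1]; exact hrs), Nat.add_zero]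
    · by_cases h2 : b = s
      · rw [if_neg h1, if_pos h2, Nat.zero_add]
      · rw [if_neg h1, if_neg h2, hf b h1 h2]
  rw [Finset.sum_congr rfl this, Finset.sum_add_distrib, Finset.sum_ite_eq', Finset.sum_ite_eq']

/-- Away from the swap `fb` does not change. -/
lemma ww_eq_zero (t : ℕ) {b : α} (h1 : b ≠ S.lo t) (h2 : b ≠ S.hi t) :
    S.ww A B p l L2 b t = 0 := by
  unfold ww fb
  rw [S.cnt_next_of_ne _ t h1 h2, S.cnt_next_of_ne _ t h1 h2, adiff_self]
  simp

/-- The total variation is at most the gain. -/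
lemma sum_ww_le (hd : Disjoint A B) (hp : p ∈ A) (t : ℕ) :
    ∑ b ∈ B, S.ww A B p l L2 b t ≤ S.gg A B p l L2 t := by
  have hpB : p ∉ B := Finset.disjoint_left.mp hd hp
  rw [sum_two_supp (S.lo_ne_hi t) B _ (fun b h1 h2 => S.ww_eq_zero t h1 h2)]
  have hadj := S.adj t
  by_cases h1 : S.lo t = p
  · -- `p` moves up: the other one is after `p`
    have e1 : (if S.lo t ∈ B then S.ww A B p l L2 (S.lo t) t else 0) = 0 := by
      rw [if_neg (by rw [h1]; exact hpB)]
    have e2 : S.ww A B p l L2 (S.hi t) t = 0 := by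
      unfold ww
      rw [if_neg]
      rintro ⟨h3, _⟩
      rw [← h1] at h3
      omega
    rw [e1, e2]
    simp
  · by_cases h2 : S.hi t = p
    · have e1 : (if S.hi t ∈ B then S.ww A B p l L2 (S.hi t) t else 0) = 0 := by
        rw [if_neg (by rw [h2]; exact hpB)]
      have e2 : S.ww A B p l L2 (S.lo t) t = 0 := by
        unfold ww
        rw [if_neg]
        rintro ⟨_, h3⟩
        rw [← h2, S.next_lo, S.next_hi] at h3
        omega
      rw [e1, e2]
      simp
    · have hpn := S.next_other t p (Ne.symm h1) (Ne.symm h2)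
      have hne1 : S.pos t (S.lo t) ≠ S.pos t p := fun e => h1 (S.pos_inj t e)
      have hne2 : S.pos t (S.hi t) ≠ S.pos t p := fun e => h2 (S.pos_inj t e)
      by_cases hbef : S.pos t p < S.pos t (S.lo t)
      · have e1 : S.ww A B p l L2 (S.lo t) t = 0 := by
          unfold ww
          rw [if_neg]
          rintro ⟨h3, _⟩
          omega
        have e2 : S.ww A B p l L2 (S.hi t) t = 0 := by
          unfold ww
          rw [if_neg]
          rintro ⟨h3, _⟩
          omega
        rw [e1, e2]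
        simp
      · have hlt : S.pos t (S.lo t) < S.pos t p := by omega
        have hlt2 : S.pos t (S.hi t) < S.pos t p := by omega
        have e1 : S.ww A B p l L2 (S.lo t) t =
            adiff (S.fb A B p l L2 (S.lo t) t) (S.fb A B p l L2 (S.lo t) (t + 1)) := by
          unfold ww
          rw [if_pos]
          rw [S.next_lo, hpn]
          exact ⟨hlt, hlt2⟩
        have e2 : S.ww A B p l L2 (S.hi t) t =
            adiff (S.fb A B p l L2 (S.hi t) t) (S.fb A B p l L2 (S.hi t) (t + 1)) := by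
          unfold ww
          rw [if_pos]
          rw [S.next_hi, hpn]
          exact ⟨hlt2, hlt⟩
        rw [e1, e2]
        unfold gg
        have hcond : S.lo t ≠ p ∧ S.hi t ≠ p ∧ S.pos t (S.lo t) < S.pos t p := ⟨h1, h2, hlt⟩
        rw [if_pos hcond]
        have c0 := S.cnt_erase A hp t (S.lo t)
        rw [if_neg hbef, Nat.add_zero] at c0
        have mlo : S.lo t ∈ A.erase p ↔ S.lo t ∈ A := by simp [h1]
        have mhi : S.hi t ∈ A.erase p ↔ S.hi t ∈ A := by simp [h2]
        unfold fb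
        rw [S.cnt_next_lo (A.erase p) t, S.cnt_next_lo B t, S.cnt_next_hi (A.erase p) t,
          S.cnt_next_hi B t, S.cnt_hi (A.erase p) t, S.cnt_hi B t]
        simp only [mlo, mhi]
        rw [c0]
        set x := S.cnt (A.erase p) t (S.lo t) with hx
        set y := S.cnt B t (S.lo t) with hy
        by_cases rB : S.lo t ∈ B
        · have rA : S.lo t ∉ A := fun e => Finset.disjoint_left.mp hd e rB
          by_cases sB : S.hi t ∈ B
          · have sA : S.hi t ∉ A := fun e => Finset.disjoint_left.mp hd e sB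
            simp only [rA, rB, sA, sB, if_true, if_false, Nat.add_zero, true_and, false_and,
              and_self, or_false, false_or]
            rw [adiff_comm (Phi (l + 1) L2 x (y + 1)), adiff_Phi_y]
            split_ifs <;> omega
          · by_cases sA : S.hi t ∈ A
            · simp only [rA, rB, sA, sB, if_true, if_false, Nat.add_zero, true_and, false_and,
                and_self, or_false, false_or, and_false, or_true]
              rw [adiff_Phi_x]
            · simp only [rA, rB, sA, sB, if_true, if_false, Nat.add_zero, true_and, false_and,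
                and_self, or_false, false_or, and_false]
              simp [adiff_self]
        · by_cases sB : S.hi t ∈ B
          · have sA : S.hi t ∉ A := fun e => Finset.disjoint_left.mp hd e sB
            by_cases rA : S.lo t ∈ A
            · simp only [rA, rB, sA, sB, if_true, if_false, Nat.add_zero, true_and, false_and,
                and_self, or_false, false_or, and_false, or_true]
              rw [adiff_comm (Phi (l + 1) L2 (x + 1) y), adiff_Phi_x, Nat.zero_add]
            · simp only [rA, rB, sA, sB, if_true, if_false, Nat.add_zero, true_and, false_and,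
                and_self, or_false, false_or, and_false]
              simp [adiff_self]
          · simp only [rB, sB, if_false, Nat.zero_add]
            exact Nat.zero_le _

/-- The swaps of `p` with the other class are paid for by the gain. -/
lemma sum_J2_le_sum_gg (hd : Disjoint A B) (hp : p ∈ A) (hcard : 2 * (l + 1) ≤ A.card) :
    ∑ t ∈ range (2 * M), S.J2 A B p l L2 t ≤ ∑ t ∈ range (2 * M), S.gg A B p l L2 t := by
  calc ∑ t ∈ range (2 * M), S.J2 A B p l L2 t
      ≤ ∑ t ∈ range (2 * M), ∑ b ∈ B, (if (S.lo t = p ∧ S.hi t = b) ∨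
          (S.lo t = b ∧ S.hi t = p) then S.tAB A B (l + 1) L2 t else 0) :=
        Finset.sum_le_sum (fun t _ => S.J2_le_sum hd hp t)
    _ = ∑ b ∈ B, ∑ t ∈ range (2 * M), (if (S.lo t = p ∧ S.hi t = b) ∨
          (S.lo t = b ∧ S.hi t = p) then S.tAB A B (l + 1) L2 t else 0) := Finset.sum_comm
    _ ≤ ∑ b ∈ B, ∑ t ∈ range (2 * M), S.ww A B p l L2 b t :=
        Finset.sum_le_sum (fun b hb => S.flip_one hd hp hb hcard)
    _ = ∑ t ∈ range (2 * M), ∑ b ∈ B, S.ww A B p l L2 b t := Finset.sum_comm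
    _ ≤ ∑ t ∈ range (2 * M), S.gg A B p l L2 t :=
        Finset.sum_le_sum (fun t _ => S.sum_ww_le hd hp t)

/-- One peeling step. -/
lemma Xi_peel (hd : Disjoint A B) (hp : p ∈ A)
    (hfirst : ∀ q, (q ∈ A ∨ q ∈ B) → q ≠ p → S.pos 0 p < S.pos 0 q)
    (hcard : 2 * (l + 1) ≤ A.card) :
    S.Xi (A.erase p) B l L2 + 2 * ((l + 1) * rho L2) ≤ S.Xi A B (l + 1) L2 := by
  have h1 := S.sum_J (L2 := L2) hd hp hfirst hcard
  have h2 := S.sum_J2_le_sum_gg (L2 := L2) hd hp hcard
  have h3 : ∑ t ∈ range (2 * M), (S.term (A.erase p) B l L2 t + S.J1 A B p l L2 t +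
      S.J2 A B p l L2 t + S.gg A B p l L2 t) ≤ ∑ t ∈ range (2 * M), S.term A B (l + 1) L2 t :=
    Finset.sum_le_sum (fun t _ => S.term_peel hd hp t)
  simp only [Finset.sum_add_distrib, ← Finset.mul_sum] at h1 h3
  unfold Xi
  omega

end Peel

/-- The main lower bound on the weighted swap count. -/
theorem Xi_lower : ∀ (n : ℕ) (A B : Finset α) (L1 L2 : ℕ), A.card + B.card = n → Disjoint A B →
    2 * L1 ≤ A.card → 2 * L2 ≤ B.card →
    L1 * (L1 + 1) * (L2 * (L2 + 1)) ≤ S.Xi A B L1 L2 := by
  intro n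
  induction n using Nat.strong_induction_on with
  | _ n ih =>
    intro A B L1 L2 hn hd h1 h2
    rcases Nat.eq_zero_or_pos L1 with rfl | hL1
    · simp
    rcases Nat.eq_zero_or_pos L2 with rfl | hL2
    · simp
    -- the first element of `A ∪ B` at time 0
    have hne : (A ∪ B).Nonempty := by
      have : 0 < A.card := by omega
      obtain ⟨a, ha⟩ := Finset.card_pos.mp this
      exact ⟨a, Finset.mem_union_left _ ha⟩
    obtain ⟨p, hp, hmin⟩ := Finset.exists_min_image (A ∪ B) (S.pos 0) hne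
    have hfirst : ∀ q, (q ∈ A ∨ q ∈ B) → q ≠ p → S.pos 0 p < S.pos 0 q := by
      intro q hq hqp
      have h3 := hmin q (Finset.mem_union.mpr hq)
      have h4 : S.pos 0 q ≠ S.pos 0 p := fun e => hqp (S.pos_inj 0 e)
      omega
    rcases Finset.mem_union.mp hp with hpA | hpB
    · obtain ⟨l, rfl⟩ : ∃ l, L1 = l + 1 := ⟨L1 - 1, by omega⟩
      have hpeel := S.Xi_peel (L2 := L2) hd hpA hfirst h1
      have hc : (A.erase p).card = A.card - 1 := Finset.card_erase_of_mem hpA
      have hpos : 0 < A.card := by omega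
      have hih := ih ((A.erase p).card + B.card) (by omega) (A.erase p) B l L2 rfl
        (Finset.disjoint_of_subset_left (Finset.erase_subset _ _) hd) (by omega) h2
      have halg : (l + 1) * (l + 1 + 1) * (L2 * (L2 + 1)) =
          l * (l + 1) * (L2 * (L2 + 1)) + 2 * ((l + 1) * rho L2) := by
        unfold rho; ring
      omega
    · obtain ⟨l, rfl⟩ : ∃ l, L2 = l + 1 := ⟨L2 - 1, by omega⟩
      have hfirst' : ∀ q, (q ∈ B ∨ q ∈ A) → q ≠ p → S.pos 0 p < S.pos 0 q :=
        fun q hq hqp => hfirst q hq.symm hqp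
      have hpeel := S.Xi_peel (L2 := L1) hd.symm hpB hfirst' h2
      have hc : (B.erase p).card = B.card - 1 := Finset.card_erase_of_mem hpB
      have hpos : 0 < B.card := by omega
      have hih := ih (A.card + (B.erase p).card) (by omega) A (B.erase p) L1 l rfl
        (Finset.disjoint_of_subset_right (Finset.erase_subset _ _) hd) h1 (by omega)
      have e1 := S.Xi_symm A (B.erase p) L1 l
      have e2 := S.Xi_symm A B L1 (l + 1)
      have halg : L1 * (L1 + 1) * ((l + 1) * (l + 1 + 1)) =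
          L1 * (L1 + 1) * (l * (l + 1)) + 2 * ((l + 1) * rho L1) := by
        unfold rho; ring
      omega

end Sweep

end Vale.Agent.Lib.P040
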