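import Vale.Agent.Lib.P040.LMinus

/-!
A signed version of the total variation inequality.  The elements of a sweep are split into four
classes `Ap`, `An`, `Bp`, `Bn`: positive and negative elements of two kinds.
-/

namespace Vale.Agent.Lib.P040

open Finset

lemma Phi_step_x (L L' x y : ℕ) :
    Phi L L' x y = Phi L L' (x + 1) y + (if x < L then L' - y else 0) := by
  unfold Phi
  split_ifs with h
  · obtain ⟨z, hz⟩ : ∃ z, L - x = z + 1 := ⟨L - x - 1, by omega⟩
    have h2 : L - (x + 1) = z := by omega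
    rw [hz, h2]; ring
  · have h1 : L - x = 0 := by omega
    have h2 : L - (x + 1) = 0 := by omega
    rw [h1, h2]; simp

lemma Phi_step_y (L L' x y : ℕ) :
    Phi L L' x y = Phi L L' x (y + 1) + (if y < L' then L - x else 0) := by
  unfold Phi
  split_ifs with h
  · obtain ⟨z, hz⟩ : ∃ z, L' - y = z + 1 := ⟨L' - y - 1, by omega⟩
    have h2 : L' - (y + 1) = z := by omega
    rw [hz, h2]; ring
  · have h1 : L' - y = 0 := by omega
    have h2 : L' - (y + 1) = 0 := by omega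
    rw [h1, h2]; simp

/-- Four pairwise disjoint classes. -/
def Disj4 {α : Type} (Ap An Bp Bn : Finset α) : Prop :=
  Disjoint Ap An ∧ Disjoint Ap Bp ∧ Disjoint Ap Bn ∧ Disjoint An Bp ∧ Disjoint An Bn ∧
    Disjoint Bp Bn

lemma Disj4.comm {α : Type} {Ap An Bp Bn : Finset α} (h : Disj4 Ap An Bp Bn) :
    Disj4 Bp Bn Ap An := by
  obtain ⟨h1, h2, h3, h4, h5, h6⟩ := h
  exact ⟨h6, h2.symm, h4.symm, h3.symm, h5.symm, h1⟩

lemma Disj4.flip {α : Type} {Ap An Bp Bn : Finset α} (h : Disj4 Ap An Bp Bn) :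
    Disj4 An Ap Bn Bp := by
  obtain ⟨h1, h2, h3, h4, h5, h6⟩ := h
  exact ⟨h1.symm, h5, h4, h3, h2, h6.symm⟩

/-- Flipping only the first kind. -/
lemma Disj4.flipA {α : Type} {Ap An Bp Bn : Finset α} (h : Disj4 Ap An Bp Bn) :
    Disj4 An Ap Bp Bn := by
  obtain ⟨h1, h2, h3, h4, h5, h6⟩ := h
  exact ⟨h1.symm, h4, h5, h2, h3, h6⟩

namespace Sweep

variable {α : Type} [Fintype α] [DecidableEq α] {M : ℕ} (S : Sweep α M)

/-- A count with respect to a position bound. -/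
def cntK (F : Finset α) (t k : ℕ) : ℕ := (F.filter (fun r => S.pos t r < k)).card

omit [DecidableEq α] in
lemma cnt_eq_cntK (F : Finset α) (t : ℕ) (q : α) : S.cnt F t q = S.cntK F t (S.pos t q) := rfl

omit [DecidableEq α] in
lemma cntK_succ_of_none (F : Finset α) (t k : ℕ) (h : ∀ z ∈ F, S.pos t z ≠ k) :
    S.cntK F t (k + 1) = S.cntK F t k := by
  unfold cntK
  congr 1
  apply Finset.filter_congr
  intro r hr
  have := h r hr
  omega

lemma cntK_succ_of_mem (F : Finset α) (t k : ℕ) {z : α} (hz : z ∈ F) (hk : S.pos t z = k) :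
    S.cntK F t (k + 1) = S.cntK F t k + 1 := by
  unfold cntK
  have hn : z ∉ F.filter (fun r => S.pos t r < k) := by
    simp [hk]
  rw [← Finset.card_insert_of_notMem hn]
  congr 1
  ext r
  simp only [Finset.mem_filter, Finset.mem_insert]
  constructor
  · rintro ⟨h1, h2⟩
    by_cases hr : r = z
    · exact Or.inl hr
    · have : S.pos t r ≠ S.pos t z := fun e => hr (S.pos_inj t e)
      exact Or.inr ⟨h1, by omega⟩
  · rintro (rfl | ⟨h1, h2⟩)
    · exact ⟨hz, by omega⟩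
    · exact ⟨h1, by omega⟩

omit [Fintype α] [DecidableEq α] in
/-- A sum with a condition on a position bound: one more element. -/
lemma sum_cond_succ_of_mem [DecidableEq α] {β : Type} [AddCommMonoid β] (F : Finset α) (pos : α → ℕ)
    (hpos : Function.Injective pos) (w k : ℕ) (hw : w < k) (f : α → β) {z : α} (hz : z ∈ F)
    (hk : pos z = k) :
    ∑ x ∈ F, (if w < pos x ∧ pos x < k + 1 then f x else 0) =
      ∑ x ∈ F, (if w < pos x ∧ pos x < k then f x else 0) + f z := by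
  have h1 : ∀ x ∈ F, (if w < pos x ∧ pos x < k + 1 then f x else 0) =
      (if w < pos x ∧ pos x < k then f x else 0) + (if x = z then f x else 0) := by
    intro x _
    by_cases hx : x = z
    · subst hx
      rw [if_pos ⟨by omega, by omega⟩, if_neg (by omega), if_pos rfl, zero_add]
    · have : pos x ≠ pos z := fun e => hx (hpos e)
      rw [if_neg hx, add_zero]
      by_cases h2 : w < pos x ∧ pos x < k
      · rw [if_pos h2, if_pos ⟨h2.1, by omega⟩]
      · rw [if_neg h2, if_neg]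
        rintro ⟨h3, h4⟩
        exact h2 ⟨h3, by omega⟩
  rw [Finset.sum_congr rfl h1, Finset.sum_add_distrib, Finset.sum_ite_eq', if_pos hz]

omit [Fintype α] [DecidableEq α] in
lemma sum_cond_succ_of_none {β : Type} [AddCommMonoid β] (F : Finset α) (pos : α → ℕ)
    (w k : ℕ) (f : α → β) (h : ∀ z ∈ F, pos z ≠ k) :
    ∑ x ∈ F, (if w < pos x ∧ pos x < k + 1 then f x else 0) =
      ∑ x ∈ F, (if w < pos x ∧ pos x < k then f x else 0) := by
  apply Finset.sum_congr rfl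
  intro x hx
  have := h x hx
  by_cases h2 : w < pos x ∧ pos x < k
  · rw [if_pos h2, if_pos ⟨h2.1, by omega⟩]
  · rw [if_neg h2, if_neg]
    rintro ⟨h3, h4⟩
    exact h2 ⟨h3, by omega⟩

/-- The partial form of the merge identity. -/
lemma merge_aux (Q Q' : Finset α) (hd : Disjoint Q Q') (t v : ℕ) (X0 Y0 L L' : ℕ) (k : ℕ)
    (hk : v < k) :
    ∑ x ∈ Q', (if v < S.pos t x ∧ S.pos t x < k then
        (if Y0 + S.cnt Q' t x < L' then L - (X0 + S.cnt Q t x) else 0) else 0) +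
      ∑ x ∈ Q, (if v < S.pos t x ∧ S.pos t x < k then
        (if X0 + S.cnt Q t x < L then L' - (Y0 + S.cnt Q' t x) else 0) else 0) +
      Phi L L' (X0 + S.cntK Q t k) (Y0 + S.cntK Q' t k) =
      Phi L L' (X0 + S.cntK Q t (v + 1)) (Y0 + S.cntK Q' t (v + 1)) := by
  induction k, hk using Nat.le_induction with
  | base =>
    have e1 : ∀ x ∈ Q', (if v < S.pos t x ∧ S.pos t x < v + 1 then
        (if Y0 + S.cnt Q' t x < L' then L - (X0 + S.cnt Q t x) else 0) else 0) = 0 := by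
      intro x _
      rw [if_neg (by omega)]
    have e2 : ∀ x ∈ Q, (if v < S.pos t x ∧ S.pos t x < v + 1 then
        (if X0 + S.cnt Q t x < L then L' - (Y0 + S.cnt Q' t x) else 0) else 0) = 0 := by
      intro x _
      rw [if_neg (by omega)]
    rw [Finset.sum_eq_zero e1, Finset.sum_eq_zero e2]
    simp
  | succ k hk ih =>
    rw [← ih]
    have hvk : v < k := hk
    by_cases h1 : ∃ z ∈ Q, S.pos t z = k
    · obtain ⟨z, hz, hzk⟩ := h1
      have h2 : ∀ z' ∈ Q', S.pos t z' ≠ k := by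
        intro z' hz' e
        have : z' = z := S.pos_inj t (e.trans hzk.symm)
        subst this
        exact Finset.disjoint_left.mp hd hz hz'
      rw [sum_cond_succ_of_mem Q (S.pos t) (S.pos_inj t) v k hvk _ hz hzk,
        sum_cond_succ_of_none Q' (S.pos t) v k _ h2,
        S.cntK_succ_of_mem Q t k hz hzk, S.cntK_succ_of_none Q' t k h2,
        S.cnt_eq_cntK Q t z, S.cnt_eq_cntK Q' t z, hzk]
      rw [Phi_step_x L L' (X0 + S.cntK Q t k) (Y0 + S.cntK Q' t k)]
      rw [show X0 + (S.cntK Q t k + 1) = X0 + S.cntK Q t k + 1 by ring]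
      ring
    · by_cases h1' : ∃ z ∈ Q', S.pos t z = k
      · obtain ⟨z, hz, hzk⟩ := h1'
        have h2 : ∀ z' ∈ Q, S.pos t z' ≠ k := by
          intro z' hz' e
          have : z' = z := S.pos_inj t (e.trans hzk.symm)
          subst this
          exact Finset.disjoint_left.mp hd hz' hz
        rw [sum_cond_succ_of_mem Q' (S.pos t) (S.pos_inj t) v k hvk _ hz hzk,
          sum_cond_succ_of_none Q (S.pos t) v k _ h2,
          S.cntK_succ_of_mem Q' t k hz hzk, S.cntK_succ_of_none Q t k h2,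
          S.cnt_eq_cntK Q t z, S.cnt_eq_cntK Q' t z, hzk]
        rw [Phi_step_y L L' (X0 + S.cntK Q t k) (Y0 + S.cntK Q' t k)]
        rw [show Y0 + (S.cntK Q' t k + 1) = Y0 + S.cntK Q' t k + 1 by ring]
        ring
      · have h2 : ∀ z' ∈ Q, S.pos t z' ≠ k := fun z' hz' e => h1 ⟨z', hz', e⟩
        have h3 : ∀ z' ∈ Q', S.pos t z' ≠ k := fun z' hz' e => h1' ⟨z', hz', e⟩
        rw [sum_cond_succ_of_none Q (S.pos t) v k _ h2, sum_cond_succ_of_none Q' (S.pos t) v k _ h3,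
          S.cntK_succ_of_none Q t k h2, S.cntK_succ_of_none Q' t k h3]

omit [DecidableEq α] in
lemma pos_lt_card (t : ℕ) (q : α) : S.pos t q < Fintype.card α := by
  have := S.anti t q
  omega

/-- The merge inequality: the variation along a walk in the two counts is at most the starting
value of the potential. -/
lemma merge_le (Q Q' : Finset α) (hd : Disjoint Q Q') (t : ℕ) {v : α} (hv : v ∉ Q) (hv' : v ∉ Q')
    (X0 Y0 L L' : ℕ) :
    ∑ x ∈ Q', (if S.pos t v < S.pos t x then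
        (if Y0 + S.cnt Q' t x < L' then L - (X0 + S.cnt Q t x) else 0) else 0) +
      ∑ x ∈ Q, (if S.pos t v < S.pos t x then
        (if X0 + S.cnt Q t x < L then L' - (Y0 + S.cnt Q' t x) else 0) else 0) ≤
      Phi L L' (X0 + S.cnt Q t v) (Y0 + S.cnt Q' t v) := by
  have hk : S.pos t v < Fintype.card α := S.pos_lt_card t v
  have h := S.merge_aux Q Q' hd t (S.pos t v) X0 Y0 L L' (Fintype.card α) hk
  have e0 : ∀ F : Finset α, v ∉ F → S.cntK F t (S.pos t v + 1) = S.cnt F t v := by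
    intro F hF
    rw [S.cnt_eq_cntK]
    apply S.cntK_succ_of_none
    intro z hz e
    have : z = v := S.pos_inj t e
    subst this
    exact hF hz
  rw [e0 Q hv, e0 Q' hv'] at h
  rw [← h]
  have e1 : ∀ x ∈ Q', (if S.pos t v < S.pos t x ∧ S.pos t x < Fintype.card α then
        (if Y0 + S.cnt Q' t x < L' then L - (X0 + S.cnt Q t x) else 0) else 0) =
      (if S.pos t v < S.pos t x then
        (if Y0 + S.cnt Q' t x < L' then L - (X0 + S.cnt Q t x) else 0) else 0) := by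
    intro x _
    have := S.pos_lt_card t x
    simp only [this, and_true]
  have e2 : ∀ x ∈ Q, (if S.pos t v < S.pos t x ∧ S.pos t x < Fintype.card α then
        (if X0 + S.cnt Q t x < L then L' - (Y0 + S.cnt Q' t x) else 0) else 0) =
      (if S.pos t v < S.pos t x then
        (if X0 + S.cnt Q t x < L then L' - (Y0 + S.cnt Q' t x) else 0) else 0) := by
    intro x _
    have := S.pos_lt_card t x
    simp only [this, and_true]
  rw [Finset.sum_congr rfl e1, Finset.sum_congr rfl e2]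
  exact Nat.le_add_right _ _

section Signed

variable (Ap An Bp Bn : Finset α) (L1 L2 : ℕ)

/-- The potential of a positive element `e` and a negative element `x`. -/
def VV (e x : α) (t : ℕ) : ℕ :=
  Phi L1 L2 (S.cntA Ap t e + S.cnt An t x) (S.cntA Bp t e + S.cnt Bn t x)

/-- The variation of the potential while `e` is before `x`. -/
def HH (e x : α) (t : ℕ) : ℕ :=
  if S.pos t e < S.pos t x ∧ S.pos (t + 1) e < S.pos (t + 1) x then
    adiff (S.VV Ap An Bp Bn L1 L2 e x t) (S.VV Ap An Bp Bn L1 L2 e x (t + 1)) else 0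

/-- The total variation at a given time. -/
def Hsum (t : ℕ) : ℕ :=
  ∑ e ∈ Ap, ∑ x ∈ Bn, S.HH Ap An Bp Bn L1 L2 e x t +
    ∑ e ∈ Bp, ∑ x ∈ An, S.HH Ap An Bp Bn L1 L2 e x t

/-- The count attached to a swap. -/
def xh (P Q : Finset α) (t : ℕ) : ℕ := S.cntA P t (S.hi t) + S.cnt Q t (S.lo t)

variable {Ap An Bp Bn L1 L2}

omit [DecidableEq α] in
lemma VV_comm (e x : α) (t : ℕ) :
    S.VV Ap An Bp Bn L1 L2 e x t = S.VV Bp Bn Ap An L2 L1 e x t := by
  unfold VV
  rw [Phi_comm]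

omit [DecidableEq α] in
lemma HH_comm (e x : α) (t : ℕ) :
    S.HH Ap An Bp Bn L1 L2 e x t = S.HH Bp Bn Ap An L2 L1 e x t := by
  unfold HH
  rw [S.VV_comm, S.VV_comm e x (t + 1)]

omit [DecidableEq α] in
lemma Hsum_comm (t : ℕ) : S.Hsum Ap An Bp Bn L1 L2 t = S.Hsum Bp Bn Ap An L2 L1 t := by
  unfold Hsum
  rw [Nat.add_comm]
  congr 1
  · apply Finset.sum_congr rfl
    intro e _
    apply Finset.sum_congr rfl
    intro x _
    exact S.HH_comm e x t
  · apply Finset.sum_congr rfl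
    intro e _
    apply Finset.sum_congr rfl
    intro x _
    exact S.HH_comm e x t

omit [DecidableEq α] in
lemma VV_add_M (e x : α) (t : ℕ) :
    S.VV Ap An Bp Bn L1 L2 e x (t + M) = S.VV An Ap Bn Bp L1 L2 x e t := by
  unfold VV
  rw [S.cntA_add_M, S.cnt_add_M, S.cntA_add_M, S.cnt_add_M, Nat.add_comm (S.cnt Ap t e),
    Nat.add_comm (S.cnt Bp t e)]

omit [DecidableEq α] in
lemma HH_add_M (e x : α) (t : ℕ) :
    S.HH Ap An Bp Bn L1 L2 e x (t + M) = S.HH An Ap Bn Bp L1 L2 x e t := by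
  unfold HH
  have e1 : t + M + 1 = t + 1 + M := by ring
  rw [e1, S.VV_add_M, S.VV_add_M]
  have i1 := S.add_M_lt_iff t e x
  have i2 := S.add_M_lt_iff (t + 1) e x
  simp only [i1, i2]

omit [DecidableEq α] in
lemma Hsum_add_M (t : ℕ) :
    S.Hsum Ap An Bp Bn L1 L2 (t + M) = S.Hsum An Ap Bn Bp L1 L2 t := by
  unfold Hsum
  rw [Nat.add_comm]
  congr 1
  · rw [Finset.sum_comm]
    apply Finset.sum_congr rfl
    intro e _
    apply Finset.sum_congr rfl
    intro x _
    exact S.HH_add_M x e t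
  · rw [Finset.sum_comm]
    apply Finset.sum_congr rfl
    intro e _
    apply Finset.sum_congr rfl
    intro x _
    exact S.HH_add_M x e t

omit [DecidableEq α] in
lemma xh_add_M (P Q : Finset α) (t : ℕ) : S.xh P Q (t + M) = S.xh Q P t := by
  unfold xh
  rw [S.lo_add, S.hi_add, S.cntA_add_M, S.cnt_add_M, Nat.add_comm]

omit [DecidableEq α] in
/-- Nothing changes if neither element of the pair is involved in the swap. -/
lemma HH_eq_zero_of_ne (t : ℕ) {e x : α} (h1 : e ≠ S.lo t) (h2 : e ≠ S.hi t) (h3 : x ≠ S.lo t)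
    (h4 : x ≠ S.hi t) : S.HH Ap An Bp Bn L1 L2 e x t = 0 := by
  unfold HH VV
  rw [S.cntA_next_of_ne _ t h1 h2, S.cntA_next_of_ne _ t h1 h2, S.cnt_next_of_ne _ t h3 h4,
    S.cnt_next_of_ne _ t h3 h4, adiff_self]
  simp

/-- The bound for a swap of two positive elements of the first kind. -/
lemma Hsum_same (hd : Disj4 Ap An Bp Bn) (t : ℕ) (h1 : S.lo t ∈ Ap) (h2 : S.hi t ∈ Ap) :
    S.Hsum Ap An Bp Bn L1 L2 t ≤
      if S.xh Ap An t < L1 then rho (L2 - S.xh Bp Bn t) else 0 := by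
  obtain ⟨d1, d2, d3, d4, d5, d6⟩ := hd
  have hadj := S.adj t
  set u := S.lo t with hu
  set v := S.hi t with hv
  have huv : u ≠ v := S.lo_ne_hi t
  have z2 : ∑ e ∈ Bp, ∑ x ∈ An, S.HH Ap An Bp Bn L1 L2 e x t = 0 := by
    apply Finset.sum_eq_zero
    intro e he
    apply Finset.sum_eq_zero
    intro x hx
    apply S.HH_eq_zero_of_ne t
    · rw [← hu]; exact fun e' => Finset.disjoint_left.mp d2 h1 (e' ▸ he)
    · rw [← hv]; exact fun e' => Finset.disjoint_left.mp d2 h2 (e' ▸ he)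
    · rw [← hu]; exact fun e' => Finset.disjoint_left.mp d1 h1 (e' ▸ hx)
    · rw [← hv]; exact fun e' => Finset.disjoint_left.mp d1 h2 (e' ▸ hx)
  unfold Hsum
  rw [z2, Nat.add_zero, Finset.sum_comm]
  set X0 := S.cntA Ap t v with hX0
  set Y0 := S.cntA Bp t v with hY0
  have cl : S.cntA Ap t u = X0 + 1 := by
    have := S.cntA_lo Ap t
    rwa [if_pos h2] at this
  have clY : S.cntA Bp t u = Y0 := by
    have := S.cntA_lo Bp t
    rwa [if_neg (fun e => Finset.disjoint_left.mp d2 h2 e), Nat.add_zero] at this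
  have clt : S.cntA Ap (t + 1) u = X0 := S.cntA_next_lo Ap t
  have cltY : S.cntA Bp (t + 1) u = Y0 := S.cntA_next_lo Bp t
  have cht : S.cntA Ap (t + 1) v = X0 + 1 := by
    have := S.cntA_next_hi Ap t
    rwa [if_pos h1] at this
  have chtY : S.cntA Bp (t + 1) v = Y0 := by
    have := S.cntA_next_hi Bp t
    rwa [if_neg (fun e => Finset.disjoint_left.mp d2 h1 e), Nat.add_zero] at this
  have inner : ∀ x ∈ Bn, ∑ e ∈ Ap, S.HH Ap An Bp Bn L1 L2 e x t ≤
      2 * (if S.pos t v < S.pos t x then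
        (if X0 + S.cnt An t x < L1 then (L2 - Y0) - S.cnt Bn t x else 0) else 0) := by
    intro x hx
    have hxu : x ≠ u := fun e => Finset.disjoint_left.mp d3 h1 (e ▸ hx)
    have hxv : x ≠ v := fun e => Finset.disjoint_left.mp d3 h2 (e ▸ hx)
    have c1 := S.cnt_next_of_ne An t hxu hxv
    have c2 := S.cnt_next_of_ne Bn t hxu hxv
    have hposne : S.pos t x ≠ S.pos t v := fun e => hxv (S.pos_inj t e)
    rw [sum_two_supp huv Ap _ (fun e h3 h4 => S.HH_eq_zero_of_ne t h3 h4 hxu hxv), if_pos h1,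
      if_pos h2]
    have e0 : L2 - Y0 - S.cnt Bn t x = L2 - (Y0 + S.cnt Bn t x) := by omega
    rw [e0]
    have v1 : adiff (Phi L1 L2 (X0 + S.cnt An t x) (Y0 + S.cnt Bn t x))
        (Phi L1 L2 (X0 + S.cnt An t x + 1) (Y0 + S.cnt Bn t x)) =
        if X0 + S.cnt An t x < L1 then L2 - (Y0 + S.cnt Bn t x) else 0 := adiff_Phi_x _ _ _ _
    have e1 : S.HH Ap An Bp Bn L1 L2 u x t ≤ (if S.pos t v < S.pos t x then
        (if X0 + S.cnt An t x < L1 then L2 - (Y0 + S.cnt Bn t x) else 0) else 0) := by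
      unfold HH VV
      rw [cl, clY, clt, cltY, c1, c2, show X0 + 1 + S.cnt An t x = X0 + S.cnt An t x + 1 by ring,
        adiff_comm, v1]
      by_cases h5 : S.pos t u < S.pos t x ∧ S.pos (t + 1) u < S.pos (t + 1) x
      · have h6 : S.pos t v < S.pos t x := by omega
        rw [if_pos h5, if_pos h6]
      · rw [if_neg h5]
        exact Nat.zero_le _
    have e2 : S.HH Ap An Bp Bn L1 L2 v x t ≤ (if S.pos t v < S.pos t x then
        (if X0 + S.cnt An t x < L1 then L2 - (Y0 + S.cnt Bn t x) else 0) else 0) := by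
      unfold HH VV
      rw [cht, chtY, c1, c2, show X0 + 1 + S.cnt An t x = X0 + S.cnt An t x + 1 by ring, v1]
      by_cases h5 : S.pos t v < S.pos t x ∧ S.pos (t + 1) v < S.pos (t + 1) x
      · rw [if_pos h5, if_pos h5.1]
      · rw [if_neg h5]
        exact Nat.zero_le _
    omega
  refine (Finset.sum_le_sum inner).trans ?_
  rw [← Finset.mul_sum]
  unfold xh
  rw [← hv, ← hu, ← hX0, ← hY0]
  have e3 : S.cnt Bn t v = S.cnt Bn t u := by
    have := S.cnt_hi Bn t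
    rwa [if_neg (fun e => Finset.disjoint_left.mp d3 h1 e), Nat.add_zero] at this
  by_cases hx : X0 + S.cnt An t u < L1
  · rw [if_pos hx]
    have e4 : L2 - (Y0 + S.cnt Bn t u) = L2 - Y0 - S.cnt Bn t v := by
      rw [e3]; omega
    rw [e4]
    refine le_trans (Nat.mul_le_mul_left 2 ?_) (S.rank_sum Bn v (L2 - Y0) t)
    apply Finset.sum_le_sum
    intro x _
    by_cases h6 : S.pos t v < S.pos t x
    · rw [if_pos h6, if_pos h6]
      split_ifs
      · exact le_refl _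
      · exact Nat.zero_le _
    · rw [if_neg h6, if_neg h6]
  · rw [if_neg hx]
    apply Nat.le_zero.mpr
    rw [Nat.mul_eq_zero]
    right
    apply Finset.sum_eq_zero
    intro x _
    by_cases h6 : S.pos t v < S.pos t x
    · rw [if_pos h6, if_neg]
      have := S.cnt_le_of_pos_lt An (u := u) (v := x) t (by omega)
      omega
    · rw [if_neg h6]

/-- The bound for a swap of two positive elements of different kinds. -/
lemma Hsum_mix (hd : Disj4 Ap An Bp Bn) (t : ℕ) (h1 : S.lo t ∈ Ap) (h2 : S.hi t ∈ Bp) :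
    S.Hsum Ap An Bp Bn L1 L2 t ≤ Phi L1 L2 (S.xh Ap An t) (S.xh Bp Bn t) := by
  obtain ⟨d1, d2, d3, d4, d5, d6⟩ := hd
  have hadj := S.adj t
  set u := S.lo t with hu
  set v := S.hi t with hv
  have huv : u ≠ v := S.lo_ne_hi t
  set X0 := S.cntA Ap t v with hX0
  set Y0 := S.cntA Bp t v with hY0
  have clX : S.cntA Ap t u = X0 := by
    have := S.cntA_lo Ap t
    rwa [if_neg (fun e => Finset.disjoint_left.mp d2 e h2), Nat.add_zero] at this
  have clY : S.cntA Bp t u = Y0 + 1 := by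
    have := S.cntA_lo Bp t
    rwa [if_pos h2] at this
  have cltX : S.cntA Ap (t + 1) u = X0 := S.cntA_next_lo Ap t
  have cltY : S.cntA Bp (t + 1) u = Y0 := S.cntA_next_lo Bp t
  have chtX : S.cntA Ap (t + 1) v = X0 + 1 := by
    have := S.cntA_next_hi Ap t
    rwa [if_pos h1] at this
  have chtY : S.cntA Bp (t + 1) v = Y0 := by
    have := S.cntA_next_hi Bp t
    rwa [if_neg (fun e => Finset.disjoint_left.mp d2 h1 e), Nat.add_zero] at this
  have s1 : ∀ x ∈ Bn, ∑ e ∈ Ap, S.HH Ap An Bp Bn L1 L2 e x t ≤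
      (if S.pos t v < S.pos t x then
        (if Y0 + S.cnt Bn t x < L2 then L1 - (X0 + S.cnt An t x) else 0) else 0) := by
    intro x hx
    have hxu : x ≠ u := fun e => Finset.disjoint_left.mp d3 h1 (e ▸ hx)
    have hxv : x ≠ v := fun e => Finset.disjoint_left.mp d6 h2 (e ▸ hx)
    have c1 := S.cnt_next_of_ne An t hxu hxv
    have c2 := S.cnt_next_of_ne Bn t hxu hxv
    have hposne : S.pos t x ≠ S.pos t v := fun e => hxv (S.pos_inj t e)
    rw [Finset.sum_eq_single_of_mem u h1]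
    · unfold HH VV
      rw [clX, clY, cltX, cltY, c1, c2, show Y0 + 1 + S.cnt Bn t x = Y0 + S.cnt Bn t x + 1 by ring,
        adiff_comm, adiff_Phi_y]
      by_cases h5 : S.pos t u < S.pos t x ∧ S.pos (t + 1) u < S.pos (t + 1) x
      · have h6 : S.pos t v < S.pos t x := by omega
        rw [if_pos h5, if_pos h6]
      · rw [if_neg h5]
        exact Nat.zero_le _
    · intro e he hne
      apply S.HH_eq_zero_of_ne t hne _ hxu hxv
      exact fun e' => Finset.disjoint_left.mp d2 he (e' ▸ h2)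
  have s2 : ∀ x ∈ An, ∑ e ∈ Bp, S.HH Ap An Bp Bn L1 L2 e x t ≤
      (if S.pos t v < S.pos t x then
        (if X0 + S.cnt An t x < L1 then L2 - (Y0 + S.cnt Bn t x) else 0) else 0) := by
    intro x hx
    have hxu : x ≠ u := fun e => Finset.disjoint_left.mp d1 h1 (e ▸ hx)
    have hxv : x ≠ v := fun e => Finset.disjoint_left.mp d4 hx (e ▸ h2)
    have c1 := S.cnt_next_of_ne An t hxu hxv
    have c2 := S.cnt_next_of_ne Bn t hxu hxv
    rw [Finset.sum_eq_single_of_mem v h2]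
    · unfold HH VV
      rw [chtX, chtY, c1, c2, show X0 + 1 + S.cnt An t x = X0 + S.cnt An t x + 1 by ring,
        adiff_Phi_x]
      by_cases h5 : S.pos t v < S.pos t x ∧ S.pos (t + 1) v < S.pos (t + 1) x
      · rw [if_pos h5, if_pos h5.1]
      · rw [if_neg h5]
        exact Nat.zero_le _
    · intro e he hne
      refine S.HH_eq_zero_of_ne t ?_ hne hxu hxv
      rw [← hu]
      exact fun e' => Finset.disjoint_left.mp d2 h1 (e' ▸ he)
  unfold Hsum
  rw [Finset.sum_comm, Finset.sum_comm (s := Bp)]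
  refine (Nat.add_le_add (Finset.sum_le_sum s1) (Finset.sum_le_sum s2)).trans ?_
  refine (S.merge_le An Bn d5 t (v := v) (fun e => Finset.disjoint_left.mp d4 e h2)
    (fun e => Finset.disjoint_left.mp d6 h2 e) X0 Y0 L1 L2).trans (le_of_eq ?_)
  unfold xh
  rw [← hu, ← hv, ← hX0, ← hY0]
  have e1 : S.cnt An t v = S.cnt An t u := by
    have := S.cnt_hi An t
    rwa [if_neg (fun e => Finset.disjoint_left.mp d1 h1 e), Nat.add_zero] at this
  have e2 : S.cnt Bn t v = S.cnt Bn t u := by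
    have := S.cnt_hi Bn t
    rwa [if_neg (fun e => Finset.disjoint_left.mp d3 h1 e), Nat.add_zero] at this
  rw [e1, e2]

variable (Ap An Bp Bn L1 L2)

/-- The condition for a swap within one sign and one kind. -/
def SameKind (P Q : Finset α) (t : ℕ) : Prop :=
  (S.lo t ∈ P ∧ S.hi t ∈ P) ∨ (S.lo t ∈ Q ∧ S.hi t ∈ Q)

/-- The condition for a swap with equal signs and different kinds. -/
def MixSame (t : ℕ) : Prop :=
  (S.lo t ∈ Ap ∧ S.hi t ∈ Bp) ∨ (S.lo t ∈ Bp ∧ S.hi t ∈ Ap) ∨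
    (S.lo t ∈ An ∧ S.hi t ∈ Bn) ∨ (S.lo t ∈ Bn ∧ S.hi t ∈ An)

/-- The condition for a swap with different signs and different kinds. -/
def MixDiff (t : ℕ) : Prop :=
  (S.lo t ∈ Ap ∧ S.hi t ∈ Bn) ∨ (S.lo t ∈ Bn ∧ S.hi t ∈ Ap) ∨
    (S.lo t ∈ Bp ∧ S.hi t ∈ An) ∨ (S.lo t ∈ An ∧ S.hi t ∈ Bp)

open scoped Classical in
/-- Positive weight of a swap. -/
noncomputable def tPos (t : ℕ) : ℕ :=
  (if S.SameKind Ap An t ∧ S.xh Ap An t < L1 then rho (L2 - S.xh Bp Bn t) else 0) +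
  (if S.SameKind Bp Bn t ∧ S.xh Bp Bn t < L2 then rho (L1 - S.xh Ap An t) else 0) +
  (if S.MixSame Ap An Bp Bn t then Phi L1 L2 (S.xh Ap An t) (S.xh Bp Bn t) else 0)

open scoped Classical in
/-- Negative weight of a swap. -/
noncomputable def tNeg (t : ℕ) : ℕ :=
  if S.MixDiff Ap An Bp Bn t then Phi L1 L2 (S.xh Ap An t) (S.xh Bp Bn t) else 0

variable {Ap An Bp Bn L1 L2}

omit [DecidableEq α] in
lemma tPos_comm (t : ℕ) : S.tPos Ap An Bp Bn L1 L2 t = S.tPos Bp Bn Ap An L2 L1 t := by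
  classical
  unfold tPos
  have i1 : S.MixSame Ap An Bp Bn t ↔ S.MixSame Bp Bn Ap An t := by
    unfold MixSame; tauto
  simp only [i1]
  rw [Phi_comm]
  ring

omit [DecidableEq α] in
lemma tPos_add_M (t : ℕ) : S.tPos Ap An Bp Bn L1 L2 (t + M) = S.tPos An Ap Bn Bp L1 L2 t := by
  classical
  unfold tPos
  rw [S.xh_add_M, S.xh_add_M]
  have i1 : S.MixSame Ap An Bp Bn (t + M) ↔ S.MixSame An Ap Bn Bp t := by
    unfold MixSame
    rw [S.lo_add, S.hi_add]
    tauto
  have i2 : ∀ P Q : Finset α, S.SameKind P Q (t + M) ↔ S.SameKind Q P t := by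
    intro P Q
    unfold SameKind
    rw [S.lo_add, S.hi_add]
    tauto
  simp only [i1, i2]

/-- The bound for a swap of two positive elements. -/
lemma Hsum_pos (hd : Disj4 Ap An Bp Bn) (t : ℕ) (h1 : S.lo t ∈ Ap ∪ Bp) (h2 : S.hi t ∈ Ap ∪ Bp) :
    S.Hsum Ap An Bp Bn L1 L2 t ≤ S.tPos Ap An Bp Bn L1 L2 t := by
  classical
  rw [Finset.mem_union] at h1 h2
  rcases h1 with h1 | h1 <;> rcases h2 with h2 | h2
  · refine (S.Hsum_same hd t h1 h2).trans ?_
    unfold tPos
    by_cases h : S.xh Ap An t < L1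
    · rw [if_pos h, if_pos ⟨Or.inl ⟨h1, h2⟩, h⟩]
      rw [Nat.add_assoc]
      exact Nat.le_add_right _ _
    · rw [if_neg h]
      exact Nat.zero_le _
  · refine (S.Hsum_mix hd t h1 h2).trans ?_
    unfold tPos
    rw [if_pos (show S.MixSame Ap An Bp Bn t from Or.inl ⟨h1, h2⟩)]
    exact Nat.le_add_left _ _
  · rw [S.Hsum_comm, S.tPos_comm]
    refine (S.Hsum_mix hd.comm t h1 h2).trans ?_
    unfold tPos
    rw [if_pos (show S.MixSame Bp Bn Ap An t from Or.inl ⟨h1, h2⟩)]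
    exact Nat.le_add_left _ _
  · rw [S.Hsum_comm, S.tPos_comm]
    refine (S.Hsum_same hd.comm t h1 h2).trans ?_
    unfold tPos
    by_cases h : S.xh Bp Bn t < L2
    · rw [if_pos h, if_pos ⟨Or.inl ⟨h1, h2⟩, h⟩]
      rw [Nat.add_assoc]
      exact Nat.le_add_right _ _
    · rw [if_neg h]
      exact Nat.zero_le _

/-- The bound for a swap of two negative elements. -/
lemma Hsum_neg (hd : Disj4 Ap An Bp Bn) (t : ℕ) (h1 : S.lo t ∈ An ∪ Bn) (h2 : S.hi t ∈ An ∪ Bn) :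
    S.Hsum Ap An Bp Bn L1 L2 t ≤ S.tPos Ap An Bp Bn L1 L2 t := by
  have e1 : S.Hsum Ap An Bp Bn L1 L2 t = S.Hsum An Ap Bn Bp L1 L2 (t + M) :=
    (S.Hsum_add_M t).symm
  have e2 : S.tPos Ap An Bp Bn L1 L2 t = S.tPos An Ap Bn Bp L1 L2 (t + M) :=
    (S.tPos_add_M t).symm
  rw [e1, e2]
  apply S.Hsum_pos hd.flip
  · rw [S.lo_add]; exact h2
  · rw [S.hi_add]; exact h1

/-- No variation in the other cases. -/
lemma Hsum_zero (hd : Disj4 Ap An Bp Bn) (t : ℕ)
    (h : ¬ (S.lo t ∈ Ap ∪ Bp ∧ S.hi t ∈ Ap ∪ Bp)) (h' : ¬ (S.lo t ∈ An ∪ Bn ∧ S.hi t ∈ An ∪ Bn)) :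
    S.Hsum Ap An Bp Bn L1 L2 t = 0 := by
  obtain ⟨d1, d2, d3, d4, d5, d6⟩ := hd
  have hadj := S.adj t
  -- a positive element is not changed in counting positive elements
  have e1 : ∀ P, P ⊆ Ap ∪ Bp → ∀ e ∈ Ap ∪ Bp, S.cntA P (t + 1) e = S.cntA P t e := by
    intro P hP e he
    by_cases h3 : e = S.lo t
    · subst h3
      have hn : S.hi t ∉ P := fun e' => h ⟨he, hP e'⟩
      have := S.cntA_lo P t
      rw [if_neg hn, Nat.add_zero] at this
      rw [S.cntA_next_lo, this]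
    · by_cases h4 : e = S.hi t
      · subst h4
        have hn : S.lo t ∉ P := fun e' => h ⟨hP e', he⟩
        rw [S.cntA_next_hi, if_neg hn, Nat.add_zero]
      · exact S.cntA_next_of_ne P t h3 h4
  have e2 : ∀ Q, Q ⊆ An ∪ Bn → ∀ x ∈ An ∪ Bn, S.cnt Q (t + 1) x = S.cnt Q t x := by
    intro Q hQ x hx
    by_cases h3 : x = S.lo t
    · subst h3
      have hn : S.hi t ∉ Q := fun e' => h' ⟨hx, hQ e'⟩
      rw [S.cnt_next_lo, if_neg hn, Nat.add_zero]
    · by_cases h4 : x = S.hi t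
      · subst h4
        have hn : S.lo t ∉ Q := fun e' => h' ⟨hQ e', hx⟩
        have := S.cnt_hi Q t
        rw [if_neg hn, Nat.add_zero] at this
        rw [S.cnt_next_hi, this]
      · exact S.cnt_next_of_ne Q t h3 h4
  have key : ∀ e ∈ Ap ∪ Bp, ∀ x ∈ An ∪ Bn, S.HH Ap An Bp Bn L1 L2 e x t = 0 := by
    intro e he x hx
    unfold HH VV
    rw [e1 Ap Finset.subset_union_left e he, e1 Bp Finset.subset_union_right e he,
      e2 An Finset.subset_union_left x hx, e2 Bn Finset.subset_union_right x hx, adiff_self]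
    simp
  unfold Hsum
  rw [Finset.sum_eq_zero, Finset.sum_eq_zero, Nat.add_zero]
  · intro e he
    apply Finset.sum_eq_zero
    intro x hx
    exact key e (Finset.mem_union_right _ he) x (Finset.mem_union_left _ hx)
  · intro e he
    apply Finset.sum_eq_zero
    intro x hx
    exact key e (Finset.mem_union_left _ he) x (Finset.mem_union_right _ hx)

/-- The local bound. -/
lemma Hsum_le (hd : Disj4 Ap An Bp Bn) (t : ℕ) :
    S.Hsum Ap An Bp Bn L1 L2 t ≤ S.tPos Ap An Bp Bn L1 L2 t := by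
  by_cases h : S.lo t ∈ Ap ∪ Bp ∧ S.hi t ∈ Ap ∪ Bp
  · exact S.Hsum_pos hd t h.1 h.2
  · by_cases h' : S.lo t ∈ An ∪ Bn ∧ S.hi t ∈ An ∪ Bn
    · exact S.Hsum_neg hd t h'.1 h'.2
    · rw [S.Hsum_zero hd t h h']
      exact Nat.zero_le _

omit [DecidableEq α] in
lemma tNeg_add_two_M (t : ℕ) : S.tNeg Ap An Bp Bn L1 L2 (t + 2 * M) = S.tNeg Ap An Bp Bn L1 L2 t := by
  classical
  unfold tNeg MixDiff xh
  rw [S.lo_add_two_M, S.hi_add_two_M, S.cnt_add_two_M, S.cntA_add_two_M, S.cnt_add_two_M,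
    S.cntA_add_two_M]

omit [DecidableEq α] in
lemma VV_add_two_M (e x : α) (t : ℕ) :
    S.VV Ap An Bp Bn L1 L2 e x (t + 2 * M) = S.VV Ap An Bp Bn L1 L2 e x t := by
  unfold VV
  rw [S.cnt_add_two_M, S.cntA_add_two_M, S.cnt_add_two_M, S.cntA_add_two_M]

/-- The two swaps of a positive element `e` and a negative element `x` of different kinds are paid
for by the variation of the potential. -/
lemma flip_signed {e x : α} (he1 : e ∉ An) (he2 : e ∉ Bn) (hx1 : x ∉ Ap) (hx2 : x ∉ Bp)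
    (hne : x ≠ e)
    (hc : (if e ∈ Ap then 1 else 0) + (if x ∈ An then 1 else 0) = 1)
    (hm1 : ∀ t, S.lo t = x → S.hi t = e → S.MixDiff Ap An Bp Bn t)
    (hm2 : ∀ t, S.lo t = e → S.hi t = x → S.MixDiff Ap An Bp Bn t)
    (hcard : 2 * L1 ≤ Ap.card + An.card) :
    ∑ t ∈ range (2 * M), (if (S.lo t = x ∧ S.hi t = e) ∨ (S.lo t = e ∧ S.hi t = x) then
        S.tNeg Ap An Bp Bn L1 L2 t else 0) ≤ ∑ t ∈ range (2 * M), S.HH Ap An Bp Bn L1 L2 e x t := by
  classical
  obtain ⟨τ, -, h1, h2⟩ := S.exists_time hne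
  have hps := S.pair_sum (S.tNeg Ap An Bp Bn L1 L2) (fun t => S.tNeg_add_two_M t) τ
  rw [h1, h2] at hps
  rw [hps]
  have loM : S.lo (τ + M) = e := by rw [S.lo_add, h2]
  have hiM : S.hi (τ + M) = x := by rw [S.hi_add, h1]
  -- the counts right after the first swap
  have a1 : ∀ P, e ∉ P → x ∉ P → S.cntA P (τ + 1) e = S.cntA P τ e := by
    intro P _ hxP
    have := S.cntA_next_hi P τ
    rw [h1, h2, if_neg hxP, Nat.add_zero] at this
    exact this
  have a2 : ∀ Q, e ∉ Q → S.cnt Q (τ + 1) x = S.cnt Q τ x := by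
    intro Q heQ
    have := S.cnt_next_lo Q τ
    rw [h1, h2, if_neg heQ, Nat.add_zero] at this
    exact this
  have a1' : ∀ P, x ∉ P → S.cntA P (τ + 1) e = S.cntA P τ e := by
    intro P hxP
    have := S.cntA_next_hi P τ
    rw [h1, h2, if_neg hxP, Nat.add_zero] at this
    exact this
  have e1 : S.tNeg Ap An Bp Bn L1 L2 τ = S.VV Ap An Bp Bn L1 L2 e x (τ + 1) := by
    unfold tNeg VV xh
    rw [if_pos (hm1 τ h1 h2), h1, h2, a1' Ap hx1, a1' Bp hx2, a2 An he1, a2 Bn he2]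
  have e2 : S.tNeg Ap An Bp Bn L1 L2 (τ + M) = S.VV Ap An Bp Bn L1 L2 e x (τ + M) := by
    unfold tNeg VV xh
    rw [if_pos (hm2 (τ + M) loM hiM), loM, hiM]
    have c1 : ∀ P, x ∉ P → S.cntA P (τ + M) x = S.cntA P (τ + M) e := by
      intro P hxP
      have := S.cntA_lo P (τ + M)
      rw [loM, hiM, if_neg hxP, Nat.add_zero] at this
      exact this.symm
    have c2 : ∀ Q, e ∉ Q → S.cnt Q (τ + M) e = S.cnt Q (τ + M) x := by
      intro Q heQ
      have := S.cnt_hi Q (τ + M)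
      rw [loM, hiM, if_neg heQ, Nat.add_zero] at this
      exact this.symm
    rw [c1 Ap hx1, c1 Bp hx2, c2 An he1, c2 Bn he2]
  rw [e1, e2]
  have hperF : ∀ t, S.VV Ap An Bp Bn L1 L2 e x (t + 2 * M) = S.VV Ap An Bp Bn L1 L2 e x t :=
    fun t => S.VV_add_two_M e x t
  have hfl := S.flip_bound (S.VV Ap An Bp Bn L1 L2 e x) hperF h1 h2
  have hex : S.cntA Ap (τ + 1) e + S.cnt An (τ + 1) x +
      (S.cntA Ap (τ + M) e + S.cnt An (τ + M) x) + 1 = Ap.card + An.card := by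
    rw [a1' Ap hx1, a2 An he1, S.cntA_add_M, S.cnt_add_M]
    have c3 := S.cnt_add_cntA Ap τ e
    have c4 := S.cnt_add_cntA An τ x
    omega
  have hsum : S.VV Ap An Bp Bn L1 L2 e x (τ + 1) + S.VV Ap An Bp Bn L1 L2 e x (τ + M) ≤
      adiff (S.VV Ap An Bp Bn L1 L2 e x (τ + 1)) (S.VV Ap An Bp Bn L1 L2 e x (τ + M)) := by
    have hor : S.VV Ap An Bp Bn L1 L2 e x (τ + 1) = 0 ∨ S.VV Ap An Bp Bn L1 L2 e x (τ + M) = 0 := by
      unfold VV Phi
      have : L1 ≤ S.cntA Ap (τ + 1) e + S.cnt An (τ + 1) x ∨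
          L1 ≤ S.cntA Ap (τ + M) e + S.cnt An (τ + M) x := by
        omega
      rcases this with h | h
      · left; rw [Nat.sub_eq_zero_of_le h, Nat.zero_mul]
      · right; rw [Nat.sub_eq_zero_of_le h, Nat.zero_mul]
    unfold adiff
    omega
  refine hsum.trans (hfl.trans (le_of_eq ?_))
  rfl

/-- Every negative weight is attached to a pair. -/
lemma tNeg_le_sum (t : ℕ) :
    S.tNeg Ap An Bp Bn L1 L2 t ≤
      ∑ e ∈ Ap, ∑ x ∈ Bn, (if (S.lo t = x ∧ S.hi t = e) ∨ (S.lo t = e ∧ S.hi t = x) then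
        S.tNeg Ap An Bp Bn L1 L2 t else 0) +
      ∑ e ∈ Bp, ∑ x ∈ An, (if (S.lo t = x ∧ S.hi t = e) ∨ (S.lo t = e ∧ S.hi t = x) then
        S.tNeg Ap An Bp Bn L1 L2 t else 0) := by
  classical
  have single : ∀ (E X : Finset α) {e x : α}, e ∈ E → x ∈ X →
      ((S.lo t = x ∧ S.hi t = e) ∨ (S.lo t = e ∧ S.hi t = x)) →
      S.tNeg Ap An Bp Bn L1 L2 t ≤ ∑ e ∈ E, ∑ x ∈ X,
        (if (S.lo t = x ∧ S.hi t = e) ∨ (S.lo t = e ∧ S.hi t = x) then
        S.tNeg Ap An Bp Bn L1 L2 t else 0) := by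
    intro E X e x he hx hc
    have i1 := Finset.single_le_sum (f := fun x => (if (S.lo t = x ∧ S.hi t = e) ∨
      (S.lo t = e ∧ S.hi t = x) then S.tNeg Ap An Bp Bn L1 L2 t else 0))
      (fun _ _ => Nat.zero_le _) hx
    have i2 := Finset.single_le_sum (f := fun e => ∑ x ∈ X, (if (S.lo t = x ∧ S.hi t = e) ∨
      (S.lo t = e ∧ S.hi t = x) then S.tNeg Ap An Bp Bn L1 L2 t else 0))
      (fun _ _ => Finset.sum_nonneg (fun _ _ => Nat.zero_le _)) he
    beta_reduce at i1 i2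
    rw [if_pos hc] at i1
    exact i1.trans i2
  by_cases hm : S.MixDiff Ap An Bp Bn t
  · rcases hm with ⟨h1, h2⟩ | ⟨h1, h2⟩ | ⟨h1, h2⟩ | ⟨h1, h2⟩
    · exact (single Ap Bn h1 h2 (Or.inr ⟨rfl, rfl⟩)).trans (Nat.le_add_right _ _)
    · exact (single Ap Bn h2 h1 (Or.inl ⟨rfl, rfl⟩)).trans (Nat.le_add_right _ _)
    · exact (single Bp An h1 h2 (Or.inr ⟨rfl, rfl⟩)).trans (Nat.le_add_left _ _)
    · exact (single Bp An h2 h1 (Or.inl ⟨rfl, rfl⟩)).trans (Nat.le_add_left _ _)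
  · have : S.tNeg Ap An Bp Bn L1 L2 t = 0 := by
      unfold tNeg
      rw [if_neg hm]
    rw [this]
    exact Nat.zero_le _

/-- The signed inequality. -/
theorem signed_le (hd : Disj4 Ap An Bp Bn) (hcard : 2 * L1 ≤ Ap.card + An.card) :
    ∑ t ∈ range (2 * M), S.tNeg Ap An Bp Bn L1 L2 t ≤
      ∑ t ∈ range (2 * M), S.tPos Ap An Bp Bn L1 L2 t := by
  classical
  obtain ⟨d1, d2, d3, d4, d5, d6⟩ := id hd
  have hdl : ∀ {F G : Finset α}, Disjoint F G → ∀ {a : α}, a ∈ F → a ∉ G :=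
    fun h _ ha => Finset.disjoint_left.mp h ha
  have hdr : ∀ {F G : Finset α}, Disjoint F G → ∀ {a : α}, a ∈ G → a ∉ F :=
    fun h _ ha e => Finset.disjoint_left.mp h e ha
  have f1 : ∀ e ∈ Ap, ∀ x ∈ Bn, ∑ t ∈ range (2 * M),
      (if (S.lo t = x ∧ S.hi t = e) ∨ (S.lo t = e ∧ S.hi t = x) then
        S.tNeg Ap An Bp Bn L1 L2 t else 0) ≤ ∑ t ∈ range (2 * M), S.HH Ap An Bp Bn L1 L2 e x t := by
    intro e he x hx
    apply S.flip_signed (hdl d1 he) (hdl d3 he) (hdr d3 hx) (hdr d6 hx)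
      (fun e' => hdl d3 he (e' ▸ hx))
    · rw [if_pos he, if_neg (hdr d5 hx)]
    · rintro t rfl rfl
      exact Or.inr (Or.inl ⟨hx, he⟩)
    · rintro t rfl rfl
      exact Or.inl ⟨he, hx⟩
    · exact hcard
  have f2 : ∀ e ∈ Bp, ∀ x ∈ An, ∑ t ∈ range (2 * M),
      (if (S.lo t = x ∧ S.hi t = e) ∨ (S.lo t = e ∧ S.hi t = x) then
        S.tNeg Ap An Bp Bn L1 L2 t else 0) ≤ ∑ t ∈ range (2 * M), S.HH Ap An Bp Bn L1 L2 e x t := by
    intro e he x hx
    apply S.flip_signed (hdr d4 he) (hdl d6 he) (hdr d1 hx) (hdl d4 hx)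
      (fun e' => hdr d4 he (e' ▸ hx))
    · rw [if_neg (hdr d2 he), if_pos hx]
    · rintro t rfl rfl
      exact Or.inr (Or.inr (Or.inr ⟨hx, he⟩))
    · rintro t rfl rfl
      exact Or.inr (Or.inr (Or.inl ⟨he, hx⟩))
    · exact hcard
  have swap3 : ∀ (E X : Finset α) (f : ℕ → α → α → ℕ),
      ∑ t ∈ range (2 * M), ∑ e ∈ E, ∑ x ∈ X, f t e x =
      ∑ e ∈ E, ∑ x ∈ X, ∑ t ∈ range (2 * M), f t e x := by
    intro E X f
    rw [Finset.sum_comm]
    apply Finset.sum_congr rfl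
    intro e _
    rw [Finset.sum_comm]
  calc ∑ t ∈ range (2 * M), S.tNeg Ap An Bp Bn L1 L2 t
      ≤ ∑ t ∈ range (2 * M),
          (∑ e ∈ Ap, ∑ x ∈ Bn, (if (S.lo t = x ∧ S.hi t = e) ∨ (S.lo t = e ∧ S.hi t = x) then
            S.tNeg Ap An Bp Bn L1 L2 t else 0) +
          ∑ e ∈ Bp, ∑ x ∈ An, (if (S.lo t = x ∧ S.hi t = e) ∨ (S.lo t = e ∧ S.hi t = x) then
            S.tNeg Ap An Bp Bn L1 L2 t else 0)) :=
        Finset.sum_le_sum (fun t _ => S.tNeg_le_sum t)
    _ ≤ ∑ t ∈ range (2 * M), S.Hsum Ap An Bp Bn L1 L2 t := by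
        rw [Finset.sum_add_distrib]
        unfold Hsum
        rw [Finset.sum_add_distrib, swap3, swap3, swap3, swap3]
        exact Nat.add_le_add
          (Finset.sum_le_sum (fun e he => Finset.sum_le_sum (fun x hx => f1 e he x hx)))
          (Finset.sum_le_sum (fun e he => Finset.sum_le_sum (fun x hx => f2 e he x hx)))
    _ ≤ _ := Finset.sum_le_sum (fun t _ => S.Hsum_le hd t)

end Signed

end Sweep

end Vale.Agent.Lib.P040
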