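import Mathlib

/-!
Geodesic arcs on the unit sphere of three-space.
-/

namespace Vale.Agent.Lib.P040

/-- The geodesic arc between two points of the unit sphere: the unit vectors in the cone spanned
by the two points.  For `u ≠ v` that are not antipodal this is the shorter great circle arc from `u`
to `v`, end points included; for `u = v` it is the single point `u`. -/
def sphArc (u v : EuclideanSpace ℝ (Fin 3)) : Set (EuclideanSpace ℝ (Fin 3)) :=
  {w | ‖w‖ = 1 ∧ ∃ s t : ℝ, 0 ≤ s ∧ 0 ≤ t ∧ w = s • u + t • v}

end Vale.Agent.Lib.P040
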