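import Vale.Agent.Lib.P040.SphOdd

/-!
From the odd case to all cases; crossings of arcs; removal of the general position hypothesis.
-/

namespace Vale.Agent.Lib.P040

open Finset

section Even

variable {β : Type} [DecidableEq β] (I : β → β → β → β → ℕ)

/-- A sum over quadruples. -/
def XG (A B : Finset β) : ℕ := ∑ a ∈ A, ∑ a' ∈ A, ∑ b ∈ B, ∑ b' ∈ B, I a a' b b'

variable {I}

omit [DecidableEq β] in
lemma XG_symm (hsym : ∀ a a' b b', I a a' b b' = I b b' a a') (A B : Finset β) :
    XG I A B = XG I B A := by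
  unfold XG
  rw [sum4_pairs]
  apply Finset.sum_congr rfl
  intro b _
  apply Finset.sum_congr rfl
  intro b' _
  apply Finset.sum_congr rfl
  intro a _
  apply Finset.sum_congr rfl
  intro a' _
  exact hsym _ _ _ _

/-- Deleting one element of the first class and double counting. -/
lemma XG_delete (h0 : ∀ a b b', I a a b b' = 0) (A B : Finset β) :
    ∑ c ∈ A, XG I (A.erase c) B = (A.card - 2) * XG I A B := by
  set T : β → β → ℕ := fun a a' => ∑ b ∈ B, ∑ b' ∈ B, I a a' b b' with hT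
  have hT0 : ∀ a, T a a = 0 := by
    intro a
    simp [hT, h0]
  have h1 : ∀ c ∈ A, XG I (A.erase c) B =
      ∑ a ∈ A, ∑ a' ∈ A, (if a ≠ c ∧ a' ≠ c then T a a' else 0) := by
    intro c _
    unfold XG
    rw [← Finset.filter_ne' A c, Finset.sum_filter]
    apply Finset.sum_congr rfl
    intro a _
    by_cases ha : a ≠ c
    · rw [if_pos ha, Finset.sum_filter]
      apply Finset.sum_congr rfl
      intro a' _
      by_cases ha' : a' ≠ c
      · rw [if_pos ha', if_pos ⟨ha, ha'⟩]
      · rw [if_neg ha', if_neg (fun e => ha' e.2)]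
    · rw [if_neg ha]
      symm
      apply Finset.sum_eq_zero
      intro a' _
      rw [if_neg (fun e => ha e.1)]
  rw [Finset.sum_congr rfl h1, Finset.sum_comm]
  unfold XG
  rw [Finset.mul_sum]
  apply Finset.sum_congr rfl
  intro a ha
  rw [Finset.sum_comm, Finset.mul_sum]
  apply Finset.sum_congr rfl
  intro a' ha'
  by_cases haa : a = a'
  · subst haa
    have : ∑ b ∈ B, ∑ b' ∈ B, I a a b b' = 0 := hT0 a
    rw [this, Nat.mul_zero]
    apply Finset.sum_eq_zero
    intro c _
    by_cases h : a ≠ c ∧ a ≠ c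
    · rw [if_pos h]; exact hT0 a
    · rw [if_neg h]
  · have e : ∑ c ∈ A, (if a ≠ c ∧ a' ≠ c then T a a' else 0) = (A.card - 2) * T a a' := by
      rw [← Finset.sum_filter, Finset.sum_const, smul_eq_mul]
      congr 1
      have e2 : A.filter (fun c => a ≠ c ∧ a' ≠ c) = (A.erase a).erase a' := by
        ext c
        simp only [Finset.mem_filter, Finset.mem_erase]
        constructor
        · rintro ⟨h1, h2, h3⟩
          exact ⟨Ne.symm h3, Ne.symm h2, h1⟩
        · rintro ⟨h1, h2, h3⟩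
          exact ⟨h3, Ne.symm h2, Ne.symm h1⟩
      rw [e2, Finset.card_erase_of_mem (Finset.mem_erase.mpr ⟨Ne.symm haa, ha'⟩),
        Finset.card_erase_of_mem ha]
      omega
    rw [e]

/-- Reducing an even class to odd ones. -/
lemma even_reductionG (h0 : ∀ a b b', I a a b b' = 0) {A B : Finset β} {D : ℕ}
    (h : ∀ c ∈ A, 4 * (dd (A.card - 1) * D) ≤ XG I (A.erase c) B) (heven : Even A.card) :
    4 * (dd A.card * D) ≤ XG I A B := by
  obtain ⟨L, hL⟩ := heven
  have hL' : A.card = 2 * L := by omega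
  rcases Nat.lt_or_ge L 2 with h2 | h2
  · have : dd A.card = 0 := by
      unfold dd
      rw [hL']
      have : (2 * L - 1) / 2 = 0 := by omega
      rw [this, Nat.mul_zero]
    rw [this]
    simp
  · obtain ⟨u, rfl⟩ : ∃ u, L = u + 1 := ⟨L - 1, by omega⟩
    have hu : 0 < u := by omega
    have e1 : dd A.card = (u + 1) * u := by
      unfold dd
      rw [hL']
      have e3 : 2 * (u + 1) / 2 = u + 1 := by omega
      have e4 : (2 * (u + 1) - 1) / 2 = u := by omega
      rw [e3, e4]
    have e2 : dd (A.card - 1) = u * u := by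
      unfold dd
      rw [hL']
      have e3 : (2 * (u + 1) - 1) / 2 = u := by omega
      have e4 : (2 * (u + 1) - 1 - 1) / 2 = u := by omega
      rw [e3, e4]
    rw [e2] at h
    rw [e1]
    have hs := Finset.card_nsmul_le_sum A (fun c => XG I (A.erase c) B)
      (4 * (u * u * D)) h
    rw [XG_delete h0, hL', smul_eq_mul] at hs
    have e5 : 2 * (u + 1) - 2 = 2 * u := by omega
    rw [e5] at hs
    have e6 : 2 * (u + 1) * (4 * (u * u * D)) = 2 * u * (4 * ((u + 1) * u * D)) := by ring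
    rw [e6] at hs
    exact Nat.le_of_mul_le_mul_left hs (by omega)

/-- The lower bound for arbitrary class sizes. -/
theorem XG_lower (h0 : ∀ a b b', I a a b b' = 0) (hsym : ∀ a a' b b', I a a' b b' = I b b' a a')
    (hodd : ∀ {A B : Finset β}, Disjoint A B → ∀ {L1 L2 : ℕ}, A.card = 2 * L1 + 1 →
      B.card = 2 * L2 + 1 → 4 * (L1 * L1 * (L2 * L2)) ≤ XG I A B)
    {A B : Finset β} (hd : Disjoint A B) : 4 * (dd A.card * dd B.card) ≤ XG I A B := by
  have h0' : ∀ a b b', I a a b b' = 0 := h0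
  have odd_odd : ∀ {A B : Finset β}, Disjoint A B → Odd A.card → Odd B.card →
      4 * (dd A.card * dd B.card) ≤ XG I A B := by
    intro A B hd hA hB
    obtain ⟨L1, hL1⟩ := hA
    obtain ⟨L2, hL2⟩ := hB
    have := hodd hd hL1 hL2
    have e1 : dd A.card = L1 * L1 := by
      unfold dd
      rw [hL1]
      have e3 : (2 * L1 + 1) / 2 = L1 := by omega
      have e4 : (2 * L1 + 1 - 1) / 2 = L1 := by omega
      rw [e3, e4]
    have e2 : dd B.card = L2 * L2 := by
      unfold dd
      rw [hL2]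
      have e3 : (2 * L2 + 1) / 2 = L2 := by omega
      have e4 : (2 * L2 + 1 - 1) / 2 = L2 := by omega
      rw [e3, e4]
    rw [e1, e2]
    exact this
  have any_odd : ∀ {A B : Finset β}, Disjoint A B → Odd B.card →
      4 * (dd A.card * dd B.card) ≤ XG I A B := by
    intro A B hd hB
    rcases Nat.even_or_odd A.card with hA | hA
    · apply even_reductionG h0' _ hA
      intro c hc
      rw [← Finset.card_erase_of_mem hc]
      apply odd_odd (Finset.disjoint_of_subset_left (Finset.erase_subset _ _) hd) _ hB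
      rw [Finset.card_erase_of_mem hc]
      obtain ⟨L, hL⟩ := hA
      have hpos : 0 < A.card := Finset.card_pos.mpr ⟨c, hc⟩
      exact ⟨L - 1, by omega⟩
    · exact odd_odd hd hA hB
  have h0'' : ∀ a b b', I b b' a a = 0 := by
    intro a b b'
    rw [← hsym]
    exact h0 _ _ _
  rcases Nat.even_or_odd B.card with hB | hB
  · rw [XG_symm hsym, Nat.mul_comm (dd A.card)]
    apply even_reductionG h0' _ hB
    intro c hc
    rw [← Finset.card_erase_of_mem hc, Nat.mul_comm (dd (B.erase c).card), XG_symm hsym]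
    apply any_odd (Finset.disjoint_of_subset_right (Finset.erase_subset _ _) hd)
    rw [Finset.card_erase_of_mem hc]
    obtain ⟨L, hL⟩ := hB
    have hpos : 0 < B.card := Finset.card_pos.mpr ⟨c, hc⟩
    exact ⟨L - 1, by omega⟩
  · exact any_odd hd hB

end Even

section Cone

variable {β : Type} (u1 u2 u3 : β → ℝ)

/-- The cones spanned by `a, b` and by `a', b'` share a nonzero vector. -/
def CM (a b a' b' : β) : Prop :=
  ∃ s t s' t' : ℝ, 0 ≤ s ∧ 0 ≤ t ∧ 0 ≤ s' ∧ 0 ≤ t' ∧
    s * u1 a + t * u1 b = s' * u1 a' + t' * u1 b' ∧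
    s * u2 a + t * u2 b = s' * u2 a' + t' * u2 b' ∧
    s * u3 a + t * u3 b = s' * u3 a' + t' * u3 b' ∧
    ¬ (s * u1 a + t * u1 b = 0 ∧ s * u2 a + t * u2 b = 0 ∧ s * u3 a + t * u3 b = 0)

variable {u1 u2 u3}

lemma CM_symm {a b a' b' : β} (h : CM u1 u2 u3 a b a' b') : CM u1 u2 u3 a' b' a b := by
  obtain ⟨s, t, s', t', h1, h2, h3, h4, e1, e2, e3, hne⟩ := h
  exact ⟨s', t', s, t, h3, h4, h1, h2, e1.symm, e2.symm, e3.symm, by rwa [← e1, ← e2, ← e3]⟩

lemma det3_cycle (r s q : β) : det3 u1 u2 u3 s q r = det3 u1 u2 u3 r s q := by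
  unfold det3; ring

/-- Quadruples with the sign conditions give a crossing. -/
lemma crossing_of_signs {a a' b b' : β}
    (h1 : 0 < det3 u1 u2 u3 a a' b * det3 u1 u2 u3 a a' b')
    (h2 : 0 < det3 u1 u2 u3 b b' a * det3 u1 u2 u3 b b' a') :
    CM u1 u2 u3 a b a' b' ∨ CM u1 u2 u3 a b' a' b := by
  rw [det3_cycle (u1 := u1) a b b', det3_cycle (u1 := u1) a' b b'] at h2
  set p := det3 u1 u2 u3 a a' b with hp
  set q := det3 u1 u2 u3 a a' b' with hq
  set r := det3 u1 u2 u3 a b b' with hr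
  set t := det3 u1 u2 u3 a' b b' with ht
  have c1 : t * u1 a + q * u1 b = r * u1 a' + p * u1 b' := by
    simp only [hp, hq, hr, ht, det3]; ring
  have c2 : t * u2 a + q * u2 b = r * u2 a' + p * u2 b' := by
    simp only [hp, hq, hr, ht, det3]; ring
  have c3 : t * u3 a + q * u3 b = r * u3 a' + p * u3 b' := by
    simp only [hp, hq, hr, ht, det3]; ring
  have hne1 : ∀ z1 z2 z3 : ℝ, z1 = t * u1 a + q * u1 b → z2 = t * u2 a + q * u2 b →
      z3 = t * u3 a + q * u3 b → ¬ (z1 = 0 ∧ z2 = 0 ∧ z3 = 0) := by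
    rintro z1 z2 z3 e1 e2 e3 ⟨z1', z2', z3'⟩
    have : t * p = z1 * (u2 a' * u3 b - u3 a' * u2 b) - z2 * (u1 a' * u3 b - u3 a' * u1 b) +
        z3 * (u1 a' * u2 b - u2 a' * u1 b) := by
      rw [e1, e2, e3]
      simp only [hp, det3]
      ring
    rw [z1', z2', z3'] at this
    have h3 : t * p = 0 := by linarith
    rcases mul_eq_zero.mp h3 with h4 | h4
    · rw [h4] at h2; simp at h2
    · rw [h4] at h1; simp at h1
  have hne2 : ∀ z1 z2 z3 : ℝ, z1 = t * u1 a - p * u1 b' → z2 = t * u2 a - p * u2 b' →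
      z3 = t * u3 a - p * u3 b' → ¬ (z1 = 0 ∧ z2 = 0 ∧ z3 = 0) := by
    rintro z1 z2 z3 e1 e2 e3 ⟨z1', z2', z3'⟩
    have : t * q = z1 * (u2 a' * u3 b' - u3 a' * u2 b') - z2 * (u1 a' * u3 b' - u3 a' * u1 b') +
        z3 * (u1 a' * u2 b' - u2 a' * u1 b') := by
      rw [e1, e2, e3]
      simp only [hq, det3]
      ring
    rw [z1', z2', z3'] at this
    have h3 : t * q = 0 := by linarith
    rcases mul_eq_zero.mp h3 with h4 | h4
    · rw [h4] at h2; simp at h2
    · rw [h4] at h1; simp at h1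
  rcases (mul_pos_iff.mp h1) with ⟨p1, q1⟩ | ⟨p1, q1⟩ <;>
    rcases (mul_pos_iff.mp h2) with ⟨r1, t1⟩ | ⟨r1, t1⟩
  · left
    exact ⟨t, q, r, p, t1.le, q1.le, r1.le, p1.le, c1, c2, c3, hne1 _ _ _ rfl rfl rfl⟩
  · right
    refine ⟨-t, p, -r, q, by linarith, p1.le, by linarith, q1.le, by linarith, by linarith,
      by linarith, ?_⟩
    intro hz
    exact hne2 (t * u1 a - p * u1 b') (t * u2 a - p * u2 b') (t * u3 a - p * u3 b') rfl rfl rfl
      ⟨by linarith [hz.1], by linarith [hz.2.1], by linarith [hz.2.2]⟩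
  · right
    refine ⟨t, -p, r, -q, t1.le, by linarith, r1.le, by linarith, by linarith, by linarith,
      by linarith, ?_⟩
    intro hz
    exact hne2 (t * u1 a - p * u1 b') (t * u2 a - p * u2 b') (t * u3 a - p * u3 b') rfl rfl rfl
      ⟨by linarith [hz.1], by linarith [hz.2.1], by linarith [hz.2.2]⟩
  · left
    refine ⟨-t, -q, -r, -p, by linarith, by linarith, by linarith, by linarith, by linarith,
      by linarith, by linarith, ?_⟩
    intro hz
    exact hne1 (t * u1 a + q * u1 b) (t * u2 a + q * u2 b) (t * u3 a + q * u3 b) rfl rfl rfl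
      ⟨by linarith [hz.1], by linarith [hz.2.1], by linarith [hz.2.2]⟩

end Cone

section Count

variable {m n : ℕ} (R : Fin m → Fin m → Fin n → Fin n → Prop)

open scoped Classical in
/-- Indicator of a related pair of edges. -/
noncomputable def iCR (i k : Fin m) (j l : Fin n) : ℕ := if i ≠ k ∧ j ≠ l ∧ R i k j l then 1 else 0

open scoped Classical in
/-- Indicator of a related pair of edges, with the first index smaller. -/
noncomputable def iCR' (i k : Fin m) (j l : Fin n) : ℕ := if i < k ∧ j ≠ l ∧ R i k j l then 1 else 0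

/-- The number of related pairs of edges. -/
noncomputable def countR : ℕ :=
  Set.ncard {q : Fin m × Fin m × Fin n × Fin n |
    q.1 < q.2.1 ∧ q.2.2.1 ≠ q.2.2.2 ∧ R q.1 q.2.1 q.2.2.1 q.2.2.2}

lemma countR_eq_sum :
    countR R = ∑ i : Fin m, ∑ k : Fin m, ∑ j : Fin n, ∑ l : Fin n, iCR' R i k j l := by
  classical
  unfold countR
  rw [Set.ncard_eq_toFinset_card']
  rw [Set.toFinset_ofPred, Finset.card_filter]
  simp only [Fintype.sum_prod_type]
  unfold iCR'
  rfl

variable {R}

lemma iCR_split (hR : ∀ i k j l, R i k j l ↔ R k i l j) (i k : Fin m) (j l : Fin n) :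
    iCR R i k j l = iCR' R i k j l + iCR' R k i l j := by
  classical
  unfold iCR iCR'
  have e := hR i k j l
  simp only [← e]
  by_cases h : R i k j l
  · by_cases h2 : j = l
    · simp [h2]
    · have h2' : l ≠ j := fun e => h2 e.symm
      rcases lt_trichotomy i k with h3 | h3 | h3
      · simp [h, h2, h2', h3, h3.ne, not_lt.mpr h3.le]
      · simp [h3]
      · simp [h, h2, h2', h3, h3.ne', not_lt.mpr h3.le]
  · simp [h]

lemma sum_iCR (hR : ∀ i k j l, R i k j l ↔ R k i l j) :
    ∑ i : Fin m, ∑ k : Fin m, ∑ j : Fin n, ∑ l : Fin n, iCR R i k j l = 2 * countR R := by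
  rw [countR_eq_sum]
  simp only [iCR_split hR, Finset.sum_add_distrib]
  have : ∑ i : Fin m, ∑ k : Fin m, ∑ j : Fin n, ∑ l : Fin n, iCR' R k i l j =
      ∑ i : Fin m, ∑ k : Fin m, ∑ j : Fin n, ∑ l : Fin n, iCR' R i k j l := by
    rw [Finset.sum_comm]
    apply Finset.sum_congr rfl
    intro i _
    apply Finset.sum_congr rfl
    intro k _
    exact Finset.sum_comm
  rw [this]
  ring

end Count

section Main

variable {m n : ℕ}

/-- The lower bound for vectors in general position. -/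
theorem cross_vec (u1 u2 u3 : Fin m ⊕ Fin n → ℝ) (hV : GenV u1 u2 u3) :
    dd m * dd n ≤ countR (fun i k j l =>
      CM u1 u2 u3 (Sum.inl i) (Sum.inr j) (Sum.inl k) (Sum.inr l)) := by
  classical
  set A : Finset (Fin m ⊕ Fin n) := univ.image Sum.inl with hA
  set B : Finset (Fin m ⊕ Fin n) := univ.image Sum.inr with hB
  have hd : Disjoint A B := by
    rw [Finset.disjoint_left]
    intro x hx hx'
    obtain ⟨i, _, rfl⟩ := Finset.mem_image.mp hx
    obtain ⟨j, _, hj⟩ := Finset.mem_image.mp hx'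
    simp at hj
  have hcA : A.card = m := by
    rw [hA, Finset.card_image_of_injective _ Sum.inl_injective]
    simp
  have hcB : B.card = n := by
    rw [hB, Finset.card_image_of_injective _ Sum.inr_injective]
    simp
  have hlow := XG_lower (I := iXV u1 u2 u3) (by
      intro a b b'
      unfold iXV
      simp) (by
      intro a a' b b'
      unfold iXV
      have : (a ≠ a' ∧ b ≠ b' ∧ 0 < det3 u1 u2 u3 a a' b * det3 u1 u2 u3 a a' b' ∧
          0 < det3 u1 u2 u3 b b' a * det3 u1 u2 u3 b b' a') ↔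
          (b ≠ b' ∧ a ≠ a' ∧ 0 < det3 u1 u2 u3 b b' a * det3 u1 u2 u3 b b' a' ∧
          0 < det3 u1 u2 u3 a a' b * det3 u1 u2 u3 a a' b') := by tauto
      by_cases h : a ≠ a' ∧ b ≠ b' ∧ 0 < det3 u1 u2 u3 a a' b * det3 u1 u2 u3 a a' b' ∧
          0 < det3 u1 u2 u3 b b' a * det3 u1 u2 u3 b b' a'
      · rw [if_pos h, if_pos (this.mp h)]
      · rw [if_neg h, if_neg (fun e => h (this.mpr e))]) (fun hd _ _ hA hB => XtV_odd hV hd hA hB) hd
  rw [hcA, hcB] at hlow
  set R : Fin m → Fin m → Fin n → Fin n → Prop := fun i k j l =>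
    CM u1 u2 u3 (Sum.inl i) (Sum.inr j) (Sum.inl k) (Sum.inr l) with hR
  have hRs : ∀ i k j l, R i k j l ↔ R k i l j := fun i k j l => ⟨CM_symm, CM_symm⟩
  have hXt : XG (iXV u1 u2 u3) A B = ∑ i : Fin m, ∑ k : Fin m, ∑ j : Fin n, ∑ l : Fin n,
      iXV u1 u2 u3 (Sum.inl i) (Sum.inl k) (Sum.inr j) (Sum.inr l) := by
    unfold XG
    rw [hA, hB]
    rw [Finset.sum_image (fun _ _ _ _ e => Sum.inl_injective e)]
    apply Finset.sum_congr rfl
    intro i _
    rw [Finset.sum_image (fun _ _ _ _ e => Sum.inl_injective e)]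
    apply Finset.sum_congr rfl
    intro k _
    rw [Finset.sum_image (fun _ _ _ _ e => Sum.inr_injective e)]
    apply Finset.sum_congr rfl
    intro j _
    rw [Finset.sum_image (fun _ _ _ _ e => Sum.inr_injective e)]
  have hle : ∀ (i k : Fin m) (j l : Fin n),
      iXV u1 u2 u3 (Sum.inl i) (Sum.inl k) (Sum.inr j) (Sum.inr l) ≤
        iCR R i k j l + iCR R i k l j := by
    intro i k j l
    unfold iXV
    by_cases hc : (Sum.inl i : Fin m ⊕ Fin n) ≠ Sum.inl k ∧
        (Sum.inr j : Fin m ⊕ Fin n) ≠ Sum.inr l ∧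
        0 < det3 u1 u2 u3 (Sum.inl i) (Sum.inl k) (Sum.inr j) *
          det3 u1 u2 u3 (Sum.inl i) (Sum.inl k) (Sum.inr l) ∧
        0 < det3 u1 u2 u3 (Sum.inr j) (Sum.inr l) (Sum.inl i) *
          det3 u1 u2 u3 (Sum.inr j) (Sum.inr l) (Sum.inl k)
    · rw [if_pos hc]
      obtain ⟨h1, h2, h3, h4⟩ := hc
      have hik : i ≠ k := fun e => h1 (by rw [e])
      have hjl : j ≠ l := fun e => h2 (by rw [e])
      rcases crossing_of_signs h3 h4 with h | h
      · have : iCR R i k j l = 1 := by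
          unfold iCR
          rw [if_pos ⟨hik, hjl, h⟩]
        omega
      · have : iCR R i k l j = 1 := by
          unfold iCR
          rw [if_pos ⟨hik, Ne.symm hjl, h⟩]
        omega
    · rw [if_neg hc]
      exact Nat.zero_le _
  have hup : ∑ i : Fin m, ∑ k : Fin m, ∑ j : Fin n, ∑ l : Fin n,
      iXV u1 u2 u3 (Sum.inl i) (Sum.inl k) (Sum.inr j) (Sum.inr l) ≤
      ∑ i : Fin m, ∑ k : Fin m, ∑ j : Fin n, ∑ l : Fin n, (iCR R i k j l + iCR R i k l j) := by
    apply Finset.sum_le_sum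
    intro i _
    apply Finset.sum_le_sum
    intro k _
    apply Finset.sum_le_sum
    intro j _
    apply Finset.sum_le_sum
    intro l _
    exact hle i k j l
  have hswap : ∑ i : Fin m, ∑ k : Fin m, ∑ j : Fin n, ∑ l : Fin n, iCR R i k l j =
      ∑ i : Fin m, ∑ k : Fin m, ∑ j : Fin n, ∑ l : Fin n, iCR R i k j l := by
    apply Finset.sum_congr rfl
    intro i _
    apply Finset.sum_congr rfl
    intro k _
    exact Finset.sum_comm
  simp only [Finset.sum_add_distrib] at hup
  rw [hswap, sum_iCR hRs] at hup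
  rw [hXt] at hlow
  omega

end Main

end Vale.Agent.Lib.P040
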