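import Vale.Agent.Lib.P040.SphStatic
import Vale.Agent.Lib.P040.RealSweep

/-!
Vectors in three-space: from determinants of vectors to the plane, via a chart chosen to balance
one class.
-/

namespace Vale.Agent.Lib.P040

open Finset

section Real

lemma sgZ_mul (x y : ℝ) : sgZ (x * y) = sgZ x * sgZ y := by
  rcases lt_trichotomy x 0 with h1 | h1 | h1 <;> rcases lt_trichotomy y 0 with h2 | h2 | h2
  · rw [sgZ_negz h1, sgZ_negz h2, sgZ_pos (mul_pos_of_neg_of_neg h1 h2)]; norm_num
  · rw [h2, mul_zero, sgZ_zero, mul_zero]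
  · rw [sgZ_negz h1, sgZ_pos h2, sgZ_negz (mul_neg_of_neg_of_pos h1 h2)]; norm_num
  · rw [h1, zero_mul, sgZ_zero, zero_mul]
  · rw [h1, zero_mul, sgZ_zero, zero_mul]
  · rw [h1, zero_mul, sgZ_zero, zero_mul]
  · rw [sgZ_pos h1, sgZ_negz h2, sgZ_negz (mul_neg_of_pos_of_neg h1 h2)]; norm_num
  · rw [h2, mul_zero, sgZ_zero, mul_zero]
  · rw [sgZ_pos h1, sgZ_pos h2, sgZ_pos (mul_pos h1 h2)]; norm_num

lemma sgZ_pos_iff (x : ℝ) : 0 < sgZ x ↔ 0 < x := by
  rcases lt_trichotomy x 0 with h | h | h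
  · rw [sgZ_negz h]
    constructor
    · intro e; norm_num at e
    · intro e; linarith
  · rw [h, sgZ_zero]
    simp
  · rw [sgZ_pos h]
    exact ⟨fun _ => h, fun _ => by norm_num⟩

/-- Two finite sets of reals, one below the other: a point between them, off a finite set. -/
lemma exists_between_finsets (Lo Up : Finset ℝ) (h : ∀ x ∈ Lo, ∀ y ∈ Up, x < y) (bad : Set ℝ)
    (hbad : bad.Finite) : ∃ t, t ∉ bad ∧ (∀ x ∈ Lo, x < t) ∧ (∀ y ∈ Up, t < y) := by
  obtain ⟨a, b, hab, ha, hb⟩ : ∃ a b : ℝ, a < b ∧ (∀ x ∈ Lo, x ≤ a) ∧ (∀ y ∈ Up, b ≤ y) := by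
    by_cases h1 : Lo.Nonempty
    · by_cases h2 : Up.Nonempty
      · exact ⟨Lo.max' h1, Up.min' h2, h _ (Lo.max'_mem h1) _ (Up.min'_mem h2),
          fun x hx => Lo.le_max' x hx, fun y hy => Up.min'_le y hy⟩
      · rw [Finset.not_nonempty_iff_eq_empty] at h2
        subst h2
        exact ⟨Lo.max' h1, Lo.max' h1 + 1, by linarith, fun x hx => Lo.le_max' x hx, by simp⟩
    · rw [Finset.not_nonempty_iff_eq_empty] at h1
      subst h1
      by_cases h2 : Up.Nonempty
      · exact ⟨Up.min' h2 - 1, Up.min' h2, by linarith, by simp, fun y hy => Up.min'_le y hy⟩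
      · rw [Finset.not_nonempty_iff_eq_empty] at h2
        subst h2
        exact ⟨0, 1, by norm_num, by simp, by simp⟩
  obtain ⟨t, ht1, ht2⟩ := ((Set.Ioo_infinite hab).sdiff hbad).nonempty
  exact ⟨t, ht2, fun x hx => lt_of_le_of_lt (ha x hx) ht1.1, fun y hy => lt_of_lt_of_le ht1.2 (hb y hy)⟩

/-- A discrete intermediate value statement. -/
lemma ivt_pos (F : ℕ → ℤ) (m : ℕ) (hstep : ∀ k, k < m → |F (k + 1) - F k| ≤ 2)
    (hodd : ∀ k, k ≤ m → F k % 2 = 1) (h0 : 0 < F 0) (hm : F m < 0) : ∃ k, k ≤ m ∧ F k = 1 := by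
  induction m with
  | zero => omega
  | succ m ih =>
    by_cases h : F m < 0
    · obtain ⟨k, h1, h2⟩ := ih (fun k hk => hstep k (by omega)) (fun k hk => hodd k (by omega)) h
      exact ⟨k, by omega, h2⟩
    · refine ⟨m, by omega, ?_⟩
      have h1 := hstep m (by omega)
      rw [abs_le] at h1
      have h2 := hodd m (by omega)
      have h3 := hodd (m + 1) (by omega)
      omega

/-- A walk from an odd value to its negative, in steps of two, takes the value one or minus one. -/
lemma ivt_walk (F : ℕ → ℤ) (m : ℕ) (hstep : ∀ k, k < m → |F (k + 1) - F k| ≤ 2)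
    (hodd : ∀ k, k ≤ m → F k % 2 = 1) (hend : F m = - F 0) : ∃ k, k ≤ m ∧ (F k) ^ 2 = 1 := by
  have h0 := hodd 0 (by omega)
  rcases lt_trichotomy (F 0) 0 with h | h | h
  · obtain ⟨k, h1, h2⟩ := ivt_pos (fun k => - F k) m
      (fun k hk => by
        have := hstep k hk
        rw [abs_le] at this ⊢
        constructor <;> omega)
      (fun k hk => by
        have := hodd k hk
        omega)
      (by omega) (by omega)
    refine ⟨k, h1, ?_⟩
    have : F k = -1 := by omega
    rw [this]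
    norm_num
  · omega
  · obtain ⟨k, h1, h2⟩ := ivt_pos F m hstep hodd h (by omega)
    refine ⟨k, h1, ?_⟩
    rw [h2]
    norm_num

end Real

section Balance

variable {β : Type} [DecidableEq β]

/-- A threshold which balances a class of odd size. -/
lemma exists_balanced (A : Finset β) (ρ : β → ℝ) (hρ : Function.Injective ρ) (s : β → ℤ)
    (hs : ∀ q, s q = 1 ∨ s q = -1) {L : ℕ} (hA : A.card = 2 * L + 1) (bad : Set ℝ)
    (hbad : bad.Finite) :
    ∃ t, t ∉ bad ∧ (∑ a ∈ A, s a * (if t < ρ a then 1 else -1)) ^ 2 = 1 := by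
  obtain ⟨T, h1, h2, h3⟩ := exists_rank A ρ
  have hsurj := rank_surj A T h1 h2
  set F : ℕ → ℤ := fun k => ∑ a ∈ A, s a * (if k ≤ T a then 1 else -1) with hF
  have hodd : ∀ k, F k % 2 = 1 := by
    intro k
    have e : F k - (A.card : ℤ) = ∑ a ∈ A, (s a * (if k ≤ T a then 1 else -1) - 1) := by
      rw [hF, Finset.sum_sub_distrib, Finset.card_eq_sum_ones]
      push_cast
      rfl
    have hdvd : (2 : ℤ) ∣ F k - (A.card : ℤ) := by
      rw [e]
      apply Finset.dvd_sum
      intro a _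
      rcases hs a with h | h <;> rw [h] <;> split_ifs <;> norm_num
    rw [hA] at hdvd
    push_cast at hdvd
    omega
  have hstep : ∀ k, k < A.card → |F (k + 1) - F k| ≤ 2 := by
    intro k hk
    obtain ⟨a0, ha0, ht⟩ := hsurj k hk
    have e : F (k + 1) - F k = - 2 * s a0 := by
      rw [hF]
      simp only
      rw [← Finset.sum_sub_distrib, Finset.sum_eq_single_of_mem a0 ha0]
      · rw [ht]
        simp
        ring
      · intro b hb hne
        have hT : T b ≠ k := fun e => hne (h2 b hb a0 ha0 (e.trans ht.symm))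
        have e1 : k + 1 ≤ T b ↔ k ≤ T b := by omega
        simp only [e1]
        ring
    rw [e]
    rcases hs a0 with h | h <;> rw [h] <;> norm_num
  have hend : F A.card = - F 0 := by
    rw [hF]
    simp only
    rw [← Finset.sum_neg_distrib]
    apply Finset.sum_congr rfl
    intro a ha
    have := h1 a ha
    simp only [Nat.zero_le, if_true, not_le.mpr this, if_false]
    ring
  obtain ⟨k, -, hk⟩ := ivt_walk F A.card hstep (fun k _ => hodd k) hend
  obtain ⟨t, ht1, ht2, ht3⟩ := exists_between_finsets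
    ((A.filter (fun a => T a < k)).image ρ) ((A.filter (fun a => k ≤ T a)).image ρ)
    (by
      intro x hx y hy
      obtain ⟨a, ha, rfl⟩ := Finset.mem_image.mp hx
      obtain ⟨a', ha', rfl⟩ := Finset.mem_image.mp hy
      obtain ⟨ha1, ha2⟩ := Finset.mem_filter.mp ha
      obtain ⟨ha1', ha2'⟩ := Finset.mem_filter.mp ha'
      by_contra hcon
      have hne : ρ a ≠ ρ a' := by
        intro e
        have := hρ e
        subst this
        omega
      have : ρ a' < ρ a := lt_of_le_of_ne (not_lt.mp hcon) (Ne.symm hne)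
      have := h3 a' ha1' a ha1 this
      omega)
    bad hbad
  refine ⟨t, ht1, ?_⟩
  have e : ∑ a ∈ A, s a * (if t < ρ a then 1 else -1) = F k := by
    rw [hF]
    apply Finset.sum_congr rfl
    intro a ha
    by_cases h : k ≤ T a
    · have : t < ρ a := ht3 _ (Finset.mem_image_of_mem _ (Finset.mem_filter.mpr ⟨ha, h⟩))
      rw [if_pos this, if_pos h]
    · have h' : T a < k := by omega
      have : ρ a < t := ht2 _ (Finset.mem_image_of_mem _ (Finset.mem_filter.mpr ⟨ha, h'⟩))
      rw [if_neg (not_lt.mpr this.le), if_neg h]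
  rw [e]
  exact hk

end Balance

lemma det_chart_aux (a1 a2 a3 b1 b2 b3 c1 c2 c3 t za zb zc : ℝ) (ha : za ≠ 0) (hb : zb ≠ 0)
    (hc : zc ≠ 0) (ea : a2 = za + t * a3) (eb : b2 = zb + t * b3) (ec : c2 = zc + t * c3) :
    a1 * (b2 * c3 - b3 * c2) - a2 * (b1 * c3 - b3 * c1) + a3 * (b1 * c2 - b2 * c1) =
      -(za * zb * zc) * ((b1 / zb - a1 / za) * (c3 / zc - a3 / za) -
        (b3 / zb - a3 / za) * (c1 / zc - a1 / za)) := by
  subst ea eb ec
  field_simp
  ring

section Vec

variable {β : Type} (u1 u2 u3 : β → ℝ)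

/-- The determinant of three vectors, given by coordinates. -/
def det3 (r s q : β) : ℝ :=
  u1 r * (u2 s * u3 q - u3 s * u2 q) - u2 r * (u1 s * u3 q - u3 s * u1 q) +
    u3 r * (u1 s * u2 q - u2 s * u1 q)

/-- General position for vectors. -/
structure GenV : Prop where
  det_ne : ∀ r s q, r ≠ s → s ≠ q → r ≠ q → det3 u1 u2 u3 r s q ≠ 0
  third_ne : ∀ q, u3 q ≠ 0
  root_ne : ∀ r s, r ≠ s → u2 r * u3 s ≠ u2 s * u3 r

open scoped Classical in
/-- The indicator of a crossing quadruple, for vectors. -/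
noncomputable def iXV (a a' b b' : β) : ℕ :=
  if a ≠ a' ∧ b ≠ b' ∧ 0 < det3 u1 u2 u3 a a' b * det3 u1 u2 u3 a a' b' ∧
    0 < det3 u1 u2 u3 b b' a * det3 u1 u2 u3 b b' a' then 1 else 0

/-- The number of crossing quadruples, for vectors. -/
noncomputable def XtV (A B : Finset β) : ℕ :=
  ∑ a ∈ A, ∑ a' ∈ A, ∑ b ∈ B, ∑ b' ∈ B, iXV u1 u2 u3 a a' b b'

variable {u1 u2 u3}

lemma det_chart (t : ℝ) (hz : ∀ q, u2 q - t * u3 q ≠ 0) (r s q : β) :
    det3 u1 u2 u3 r s q = - ((u2 r - t * u3 r) * (u2 s - t * u3 s) * (u2 q - t * u3 q)) *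
      Det (fun v => u1 v / (u2 v - t * u3 v)) (fun v => u3 v / (u2 v - t * u3 v)) r s q := by
  unfold det3 Det
  exact det_chart_aux _ _ _ _ _ _ _ _ _ t _ _ _ (hz r) (hz s) (hz q) (by ring) (by ring) (by ring)

variable [Fintype β] [DecidableEq β]

/-- The odd case of the bound, for vectors in general position. -/
theorem XtV_odd (hV : GenV u1 u2 u3) {A B : Finset β} (hd : Disjoint A B) {L1 L2 : ℕ}
    (hA : A.card = 2 * L1 + 1) (hB : B.card = 2 * L2 + 1) :
    4 * (L1 * L1 * (L2 * L2)) ≤ XtV u1 u2 u3 A B := by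
  classical
  have hρ : Function.Injective (fun q => u2 q / u3 q) := by
    intro r s e
    by_contra hne
    have h1 := hV.third_ne r
    have h2 := hV.third_ne s
    simp only at e
    rw [div_eq_div_iff h1 h2] at e
    exact hV.root_ne r s hne e
  obtain ⟨t, ht1, ht2⟩ := exists_balanced A (fun q => u2 q / u3 q) hρ
    (fun q => if 0 < u3 q then 1 else -1)
    (fun q => by
      by_cases h : 0 < u3 q
      · left; simp [h]
      · right; simp [h])
    hA (Set.range (fun q => u2 q / u3 q)) (Set.finite_range _)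
  have hz : ∀ q, u2 q - t * u3 q ≠ 0 := by
    intro q e
    apply ht1
    refine ⟨q, ?_⟩
    have h1 := hV.third_ne q
    have : u2 q = t * u3 q := by linarith
    simp only
    rw [this]
    field_simp
  set X : β → ℝ := fun v => u1 v / (u2 v - t * u3 v) with hX
  set Y : β → ℝ := fun v => u3 v / (u2 v - t * u3 v) with hY
  set σ : β → ℤ := fun q => sgZ (u2 q - t * u3 q) with hσdef
  have hσ : ∀ q, σ q = 1 ∨ σ q = -1 := by
    intro q
    rcases lt_or_gt_of_ne (hz q) with h | h
    · right; exact sgZ_negz h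
    · left; exact sgZ_pos h
  have hchart := det_chart (u1 := u1) (u2 := u2) (u3 := u3) t hz
  have hgen : GenPos X Y := by
    intro r s q h1 h2 h3 e
    apply hV.det_ne r s q h1 h2 h3
    rw [hchart, e, mul_zero]
  have hYinj : ∀ r s, r ≠ s → X r ≠ X s ∨ Y r ≠ Y s := by
    intro r s hrs
    right
    intro e
    have h1 := hz r
    have h2 := hz s
    simp only [hY] at e
    rw [div_eq_div_iff h1 h2] at e
    apply hV.root_ne r s hrs
    nlinarith [e]
  have hAne : A.Nonempty := Finset.card_pos.mp (by omega)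
  have hBne : B.Nonempty := Finset.card_pos.mp (by omega)
  obtain ⟨r0, hr0⟩ := hAne
  obtain ⟨s0, hs0⟩ := hBne
  have hne : r0 ≠ s0 := fun e => Finset.disjoint_left.mp hd hr0 (e ▸ hs0)
  obtain ⟨M, S, hS⟩ := exists_sweep_of_points X Y hYinj hgen hne
  have hbal : (∑ a ∈ A, σ a) ^ 2 = 1 := by
    rw [← ht2]
    congr 1
    apply Finset.sum_congr rfl
    intro a _
    have h1 := hV.third_ne a
    have e1 : u2 a - t * u3 a = u3 a * (u2 a / u3 a - t) := by
      field_simp
    simp only [hσdef]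
    rw [e1, sgZ_mul]
    congr 1
    · rcases lt_or_gt_of_ne h1 with h | h
      · rw [sgZ_negz h, if_neg (not_lt.mpr h.le)]
      · rw [sgZ_pos h, if_pos h]
    · by_cases h : t < u2 a / u3 a
      · rw [sgZ_pos (by linarith), if_pos h]
      · have h2 : t ≠ u2 a / u3 a := fun e => ht1 ⟨a, e.symm⟩
        have h3 : u2 a / u3 a < t := lt_of_le_of_ne (not_lt.mp h) (Ne.symm h2)
        rw [sgZ_negz (by linarith), if_neg h]
  have hmain := XtS_main S hS hgen hσ hd hA hB hbal
  have hiX : ∀ a a' b b', iXS X Y σ a a' b b' = iXV u1 u2 u3 a a' b b' := by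
    intro a a' b b'
    have key : ∀ r s q q', 0 < det3 u1 u2 u3 r s q * det3 u1 u2 u3 r s q' ↔
        0 < tw X Y σ r s q * tw X Y σ r s q' := by
      intro r s q q'
      rw [← sgZ_pos_iff, sgZ_mul]
      have e1 : ∀ w, sgZ (det3 u1 u2 u3 r s w) = - (σ r * σ s * σ w) * sg X Y r s w := by
        intro w
        rw [hchart, sgZ_mul, sgZ_neg, sgZ_mul, sgZ_mul]
        rfl
      rw [e1, e1]
      have sr : σ r * σ r = 1 := by
        rcases hσ r with h | h <;> rw [h] <;> norm_num
      have ss : σ s * σ s = 1 := by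
        rcases hσ s with h | h <;> rw [h] <;> norm_num
      have e2 : -(σ r * σ s * σ q) * sg X Y r s q * (-(σ r * σ s * σ q') * sg X Y r s q') =
          (σ r * σ r) * (σ s * σ s) * (tw X Y σ r s q * tw X Y σ r s q') := by
        unfold tw
        ring
      rw [e2, sr, ss]
      simp
    unfold iXS iXV
    simp only [key]
  have hXt : XtS X Y σ A B = XtV u1 u2 u3 A B := by
    unfold XtS XtV
    simp only [hiX]
  rw [← hXt]
  exact hmain

end Vec

end Vale.Agent.Lib.P040
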