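import Vale.Agent.Lib.P040.SphFinal
import Vale.Agent.Lib.P040.Crossing
import Vale.Agent.Lib.P040.SphArc

/-!
Removal of the general position hypothesis for arcs on the sphere.
-/

namespace Vale.Agent.Lib.P040

open Finset Topology

lemma bad_finite3 (A B C D : ℝ) (hD : D ≠ 0) :
    {τ : ℝ | A + τ * B + τ ^ 2 * C + τ ^ 3 * D = 0}.Finite := by
  classical
  set p : Polynomial ℝ := Polynomial.C A + Polynomial.C B * Polynomial.X +
    Polynomial.C C * Polynomial.X ^ 2 + Polynomial.C D * Polynomial.X ^ 3 with hp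
  have hp0 : p ≠ 0 := by
    intro e
    have : p.coeff 3 = D := by
      simp [hp, Polynomial.coeff_X, Polynomial.coeff_C]
    rw [e] at this
    simp at this
    exact hD this.symm
  apply Set.Finite.subset (p.roots.toFinset.finite_toSet)
  intro τ hτ
  simp only [Finset.mem_coe, Multiset.mem_toFinset]
  rw [Polynomial.mem_roots hp0]
  simp only [Set.mem_ofPred_eq] at hτ
  simp only [hp, Polynomial.IsRoot, Polynomial.eval_add, Polynomial.eval_mul, Polynomial.eval_C,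
    Polynomial.eval_X, Polynomial.eval_pow]
  linarith

lemma bad_finite1 (A B : ℝ) (hB : B ≠ 0) : {τ : ℝ | A + τ * B = 0}.Finite := by
  apply Set.Finite.subset (Set.finite_singleton (-A / B))
  intro τ hτ
  simp only [Set.mem_ofPred_eq] at hτ
  simp only [Set.mem_singleton_iff]
  field_simp
  linarith

section Generic

variable {β : Type} [Fintype β] [DecidableEq β]

/-- Perturbing along the moment curve gives general position. -/
lemma exists_genV (w1 w2 w3 : β → ℝ) (c : β → ℝ) (hc : Function.Injective c) (hc0 : ∀ q, c q ≠ 0)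
    {ε : ℝ} (hε : 0 < ε) :
    ∃ τ, 0 < τ ∧ τ < ε ∧ GenV (fun q => w1 q + τ) (fun q => w2 q + τ * c q)
      (fun q => w3 q + τ * c q ^ 2) := by
  have hexp : ∀ r s q : β, ∃ K1 K2 K3 : ℝ, ∀ τ : ℝ,
      det3 (fun q => w1 q + τ) (fun q => w2 q + τ * c q) (fun q => w3 q + τ * c q ^ 2) r s q =
        K1 + τ * K2 + τ ^ 2 * K3 + τ ^ 3 * ((c s - c r) * (c q - c r) * (c q - c s)) := by
    intro r s q
    refine ⟨det3 w1 w2 w3 r s q,
      (w2 s * w3 q - w3 s * w2 q) - c r * (w1 s * w3 q - w3 s * w1 q) +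
        c r ^ 2 * (w1 s * w2 q - w2 s * w1 q) +
      w1 r * (c s * w3 q + w2 s * c q ^ 2 - c s ^ 2 * w2 q - w3 s * c q) -
      w2 r * (w3 q + w1 s * c q ^ 2 - c s ^ 2 * w1 q - w3 s) +
      w3 r * (w2 q + w1 s * c q - c s * w1 q - w2 s),
      (c s * w3 q + w2 s * c q ^ 2 - c s ^ 2 * w2 q - w3 s * c q) -
        c r * (w3 q + w1 s * c q ^ 2 - c s ^ 2 * w1 q - w3 s) +
        c r ^ 2 * (w2 q + w1 s * c q - c s * w1 q - w2 s) +
      w1 r * (c s * c q ^ 2 - c s ^ 2 * c q) -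
      w2 r * (c q ^ 2 - c s ^ 2) +
      w3 r * (c q - c s), ?_⟩
    intro τ
    unfold det3
    ring
  have hexp2 : ∀ r s : β, ∀ τ : ℝ,
      (w2 r + τ * c r) * (w3 s + τ * c s ^ 2) - (w2 s + τ * c s) * (w3 r + τ * c r ^ 2) =
      (w2 r * w3 s - w2 s * w3 r) +
        τ * (w2 r * c s ^ 2 + c r * w3 s - w2 s * c r ^ 2 - c s * w3 r) +
        τ ^ 2 * (c r * c s ^ 2 - c s * c r ^ 2) := by
    intro r s τ
    ring
  set S1 : β × β × β → Set ℝ := fun x =>
    {τ | (x.1 ≠ x.2.1 ∧ x.2.1 ≠ x.2.2 ∧ x.1 ≠ x.2.2) ∧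
      det3 (fun q => w1 q + τ) (fun q => w2 q + τ * c q) (fun q => w3 q + τ * c q ^ 2)
        x.1 x.2.1 x.2.2 = 0} with hS1
  set S2 : β → Set ℝ := fun q => {τ | w3 q + τ * c q ^ 2 = 0} with hS2
  set S3 : β × β → Set ℝ := fun x =>
    {τ | x.1 ≠ x.2 ∧ (w2 x.1 + τ * c x.1) * (w3 x.2 + τ * c x.2 ^ 2) -
      (w2 x.2 + τ * c x.2) * (w3 x.1 + τ * c x.1 ^ 2) = 0} with hS3
  have hfin1 : (⋃ x, S1 x).Finite := by
    apply Set.finite_iUnion
    intro x
    by_cases hx : x.1 ≠ x.2.1 ∧ x.2.1 ≠ x.2.2 ∧ x.1 ≠ x.2.2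
    · obtain ⟨K1, K2, K3, hK⟩ := hexp x.1 x.2.1 x.2.2
      have hD : (c x.2.1 - c x.1) * (c x.2.2 - c x.1) * (c x.2.2 - c x.2.1) ≠ 0 := by
        apply mul_ne_zero
        · apply mul_ne_zero
          · exact sub_ne_zero.mpr (fun e => hx.1 (hc e).symm)
          · exact sub_ne_zero.mpr (fun e => hx.2.2 (hc e).symm)
        · exact sub_ne_zero.mpr (fun e => hx.2.1 (hc e).symm)
      apply Set.Finite.subset (bad_finite3 K1 K2 K3 _ hD)
      intro τ hτ
      have := hτ.2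
      rw [hK] at this
      exact this
    · apply Set.Finite.subset Set.finite_empty
      intro τ hτ
      exact absurd hτ.1 hx
  have hfin2 : (⋃ q, S2 q).Finite := by
    apply Set.finite_iUnion
    intro q
    exact bad_finite1 _ _ (pow_ne_zero 2 (hc0 q))
  have hfin3 : (⋃ x, S3 x).Finite := by
    apply Set.finite_iUnion
    intro x
    by_cases hx : x.1 ≠ x.2
    · have hC : c x.1 * c x.2 ^ 2 - c x.2 * c x.1 ^ 2 ≠ 0 := by
        have e : c x.1 * c x.2 ^ 2 - c x.2 * c x.1 ^ 2 = c x.1 * c x.2 * (c x.2 - c x.1) := by ring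
        rw [e]
        exact mul_ne_zero (mul_ne_zero (hc0 _) (hc0 _))
          (sub_ne_zero.mpr (fun e => hx (hc e).symm))
      apply Set.Finite.subset (bad_finite _ _ _ hC)
      intro τ hτ
      have := hτ.2
      rw [hexp2] at this
      exact this
    · apply Set.Finite.subset Set.finite_empty
      intro τ hτ
      exact absurd hτ.1 hx
  obtain ⟨τ, hτ1, hτ2⟩ := ((Set.Ioo_infinite hε).sdiff (hfin1.union (hfin2.union hfin3))).nonempty
  refine ⟨τ, hτ1.1, hτ1.2, ?_, ?_, ?_⟩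
  · intro r s q h1 h2 h3 e
    exact hτ2 (Or.inl (Set.mem_iUnion.mpr ⟨(r, s, q), ⟨h1, h2, h3⟩, e⟩))
  · intro q e
    exact hτ2 (Or.inr (Or.inl (Set.mem_iUnion.mpr ⟨q, e⟩)))
  · intro r s h e
    exact hτ2 (Or.inr (Or.inr (Set.mem_iUnion.mpr ⟨(r, s), h, sub_eq_zero.mpr e⟩)))

end Generic

section Stable

variable {E : Type} [NormedAddCommGroup E] [NormedSpace ℝ E]

/-- A zero-free family of combinations stays zero-free under a small perturbation. -/
lemma stable_cone (u v u' v' du dv du' dv' : E)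
    (h : ∀ l ∈ stdSimplex ℝ (Fin 4), l 0 • u + l 1 • v - l 2 • u' - l 3 • v' ≠ 0) :
    ∀ᶠ τ : ℝ in 𝓝 0, ∀ l ∈ stdSimplex ℝ (Fin 4),
      l 0 • (u + τ • du) + l 1 • (v + τ • dv) - l 2 • (u' + τ • du') - l 3 • (v' + τ • dv') ≠ 0 := by
  apply (isCompact_stdSimplex ℝ (Fin 4)).eventually_forall_of_forall_eventually
  intro l hl
  set G : ℝ × (Fin 4 → ℝ) → E := fun z =>
    z.2 0 • (u + z.1 • du) + z.2 1 • (v + z.1 • dv) - z.2 2 • (u' + z.1 • du') -
      z.2 3 • (v' + z.1 • dv') with hG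
  have hcont : Continuous G := by
    rw [hG]
    fun_prop
  have h0 : G (0, l) ≠ 0 := by
    simp only [hG, zero_smul, add_zero]
    exact h l hl
  exact hcont.continuousAt.eventually_ne h0

lemma smul_add_eq_zero_unit {a b : E} (ha : ‖a‖ = 1) (hb : ‖b‖ = 1) (hab : a ≠ -b) {s t : ℝ}
    (hs : 0 ≤ s) (ht : 0 ≤ t) (h : s • a + t • b = 0) : s = 0 ∧ t = 0 := by
  have e1 : s • a = (-t) • b := by
    rw [neg_smul]
    exact eq_neg_of_add_eq_zero_left h
  have e2 : s = t := by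
    have := congrArg norm e1
    rw [norm_smul, norm_smul, ha, hb, mul_one, mul_one, Real.norm_of_nonneg hs, norm_neg,
      Real.norm_of_nonneg ht] at this
    exact this
  subst e2
  by_cases hs0 : s = 0
  · exact ⟨hs0, hs0⟩
  · exfalso
    apply hab
    rw [neg_smul, ← smul_neg] at e1
    exact smul_right_injective E hs0 e1

end Stable

section Sphere

/-- If two arcs do not meet, no convex combination of their ends vanishes. -/
lemma no_zero_of_arcs {a b a' b' : EuclideanSpace ℝ (Fin 3)} (ha : ‖a‖ = 1) (hb : ‖b‖ = 1)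
    (ha' : ‖a'‖ = 1) (hb' : ‖b'‖ = 1) (h1 : a ≠ -b) (h2 : a' ≠ -b')
    (h : ¬ (sphArc a b ∩ sphArc a' b').Nonempty) :
    ∀ l ∈ stdSimplex ℝ (Fin 4), l 0 • a + l 1 • b - l 2 • a' - l 3 • b' ≠ 0 := by
  intro l hl e
  obtain ⟨hl0, hl1⟩ := hl
  have e1 : l 0 • a + l 1 • b = l 2 • a' + l 3 • b' := by
    have : l 0 • a + l 1 • b - (l 2 • a' + l 3 • b') = 0 := by
      rw [← e]
      abel
    exact sub_eq_zero.mp this
  by_cases hw : l 0 • a + l 1 • b = 0
  · obtain ⟨z0, z1⟩ := smul_add_eq_zero_unit ha hb h1 (hl0 0) (hl0 1) hw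
    obtain ⟨z2, z3⟩ := smul_add_eq_zero_unit ha' hb' h2 (hl0 2) (hl0 3) (e1 ▸ hw)
    rw [Fin.sum_univ_four, z0, z1, z2, z3] at hl1
    norm_num at hl1
  · apply h
    set w := l 0 • a + l 1 • b with hwdef
    have hn : ‖w‖ ≠ 0 := norm_ne_zero_iff.mpr hw
    have hp : 0 < ‖w‖⁻¹ := inv_pos.mpr (norm_pos_iff.mpr hw)
    refine ⟨‖w‖⁻¹ • w, ⟨?_, ‖w‖⁻¹ * l 0, ‖w‖⁻¹ * l 1, mul_nonneg hp.le (hl0 0),
      mul_nonneg hp.le (hl0 1), ?_⟩, ⟨?_, ‖w‖⁻¹ * l 2, ‖w‖⁻¹ * l 3, mul_nonneg hp.le (hl0 2),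
      mul_nonneg hp.le (hl0 3), ?_⟩⟩
    · rw [norm_smul, norm_inv, norm_norm, inv_mul_cancel₀ hn]
    · rw [hwdef, smul_add, smul_smul, smul_smul]
    · rw [norm_smul, norm_inv, norm_norm, inv_mul_cancel₀ hn]
    · rw [e1, smul_add, smul_smul, smul_smul]

/-- A common nonzero vector of two cones gives a vanishing convex combination. -/
lemma zero_of_CM {β : Type} (W : β → EuclideanSpace ℝ (Fin 3)) {a b a' b' : β}
    (h : CM (fun q => W q 0) (fun q => W q 1) (fun q => W q 2) a b a' b') :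
    ∃ l ∈ stdSimplex ℝ (Fin 4), l 0 • W a + l 1 • W b - l 2 • W a' - l 3 • W b' = 0 := by
  obtain ⟨s, t, s', t', h1, h2, h3, h4, e1, e2, e3, hne⟩ := h
  set S := s + t + s' + t' with hS
  have hS0 : 0 < S := by
    by_contra hcon
    have z1 : s = 0 := by linarith
    have z2 : t = 0 := by linarith
    apply hne
    rw [z1, z2]
    simp
  refine ⟨![s / S, t / S, s' / S, t' / S], ⟨?_, ?_⟩, ?_⟩
  · intro i
    fin_cases i
    · exact div_nonneg h1 hS0.le
    · exact div_nonneg h2 hS0.le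
    · exact div_nonneg h3 hS0.le
    · exact div_nonneg h4 hS0.le
  · rw [Fin.sum_univ_four]
    simp only [Matrix.cons_val_zero, Matrix.cons_val_one, Matrix.cons_val]
    field_simp
    rw [hS]
  · simp only [Matrix.cons_val_zero, Matrix.cons_val_one, Matrix.cons_val]
    ext i
    fin_cases i
    · simp only [Fin.zero_eta, Fin.mk_one, PiLp.sub_apply, PiLp.add_apply, PiLp.smul_apply,
        smul_eq_mul, PiLp.zero_apply]
      field_simp
      linarith
    · simp only [Fin.zero_eta, Fin.mk_one, PiLp.sub_apply, PiLp.add_apply, PiLp.smul_apply,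
        smul_eq_mul, PiLp.zero_apply]
      field_simp
      linarith
    · simp only [Fin.reduceFinMk, PiLp.sub_apply, PiLp.add_apply, PiLp.smul_apply,
        smul_eq_mul, PiLp.zero_apply]
      field_simp
      linarith

/-- The main bound: any drawing of a complete bipartite graph on the sphere with geodesic arcs has
at least the Zarankiewicz number of meeting pairs of edges. -/
theorem sph_main {m n : ℕ} (a : Fin m → EuclideanSpace ℝ (Fin 3))
    (b : Fin n → EuclideanSpace ℝ (Fin 3)) (ha : ∀ i, ‖a i‖ = 1) (hb : ∀ j, ‖b j‖ = 1)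
    (hanti : ∀ i j, a i ≠ - b j) :
    dd m * dd n ≤ Set.ncard {q : Fin m × Fin m × Fin n × Fin n |
      q.1 < q.2.1 ∧ q.2.2.1 ≠ q.2.2.2 ∧
        (sphArc (a q.1) (b q.2.2.1) ∩ sphArc (a q.2.1) (b q.2.2.2)).Nonempty} := by
  classical
  set V : Fin m ⊕ Fin n → EuclideanSpace ℝ (Fin 3) := Sum.elim a b with hV
  set c : Fin m ⊕ Fin n → ℝ := fun q => ((Fintype.equivFin (Fin m ⊕ Fin n) q : ℕ) : ℝ) + 1 with hc
  have hcinj : Function.Injective c := by
    intro u v e
    have e' : ((Fintype.equivFin (Fin m ⊕ Fin n) u : ℕ) : ℝ) =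
        ((Fintype.equivFin (Fin m ⊕ Fin n) v : ℕ) : ℝ) := by
      simp only [hc] at e
      linarith
    have : (Fintype.equivFin (Fin m ⊕ Fin n) u : ℕ) = (Fintype.equivFin (Fin m ⊕ Fin n) v : ℕ) := by
      exact_mod_cast e'
    exact (Fintype.equivFin (Fin m ⊕ Fin n)).injective (Fin.ext this)
  have hc0 : ∀ q, c q ≠ 0 := by
    intro q
    simp only [hc]
    positivity
  set e : Fin m ⊕ Fin n → EuclideanSpace ℝ (Fin 3) := fun q => !₂[1, c q, c q ^ 2] with he
  set W : ℝ → Fin m ⊕ Fin n → EuclideanSpace ℝ (Fin 3) := fun τ q => V q + τ • e q with hW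
  have hev : ∀ᶠ τ : ℝ in 𝓝 0, ∀ q : Fin m × Fin m × Fin n × Fin n,
      ¬ (sphArc (a q.1) (b q.2.2.1) ∩ sphArc (a q.2.1) (b q.2.2.2)).Nonempty →
      ∀ l ∈ stdSimplex ℝ (Fin 4),
        l 0 • W τ (Sum.inl q.1) + l 1 • W τ (Sum.inr q.2.2.1) - l 2 • W τ (Sum.inl q.2.1) -
          l 3 • W τ (Sum.inr q.2.2.2) ≠ 0 := by
    rw [Filter.eventually_all]
    intro q
    by_cases h : (sphArc (a q.1) (b q.2.2.1) ∩ sphArc (a q.2.1) (b q.2.2.2)).Nonempty
    · exact Filter.Eventually.of_forall (fun τ e => absurd h e)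
    · have := stable_cone (a q.1) (b q.2.2.1) (a q.2.1) (b q.2.2.2)
        (e (Sum.inl q.1)) (e (Sum.inr q.2.2.1)) (e (Sum.inl q.2.1)) (e (Sum.inr q.2.2.2))
        (no_zero_of_arcs (ha _) (hb _) (ha _) (hb _) (hanti _ _) (hanti _ _) h)
      filter_upwards [this] with τ hτ _
      exact hτ
  obtain ⟨ε, hε, hball⟩ := Metric.eventually_nhds_iff.mp hev
  obtain ⟨τ, h1, h2, h3⟩ := exists_genV (fun q => V q 0) (fun q => V q 1) (fun q => V q 2) c hcinj
    hc0 hε
  have hdist : dist τ 0 < ε := by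
    rw [Real.dist_eq, sub_zero, abs_of_pos h1]
    exact h2
  have hsub := hball hdist
  have e0 : (fun q => W τ q 0) = fun q => V q 0 + τ := by
    funext q
    simp [hW, he]
  have e1 : (fun q => W τ q 1) = fun q => V q 1 + τ * c q := by
    funext q
    simp [hW, he]
  have e2 : (fun q => W τ q 2) = fun q => V q 2 + τ * c q ^ 2 := by
    funext q
    simp [hW, he]
  have hgen : GenV (fun q => W τ q 0) (fun q => W τ q 1) (fun q => W τ q 2) := by
    rw [e0, e1, e2]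
    exact h3
  have hlow := cross_vec _ _ _ hgen
  refine hlow.trans ?_
  unfold countR
  apply Set.ncard_le_ncard _ (Set.toFinite _)
  rintro q ⟨q1, q2, q3⟩
  refine ⟨q1, q2, ?_⟩
  by_contra hcon
  obtain ⟨l, hl, hz⟩ := zero_of_CM (W τ) q3
  exact hsub q hcon l hl hz

end Sphere

end Vale.Agent.Lib.P040
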