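import Vale.Agent.Lib.P040.Signed
import Vale.Agent.Lib.P040.FourPoint

/-!
The static form of the signed inequality.
-/

namespace Vale.Agent.Lib.P040

open Finset

section Pairs

variable {β : Type} [DecidableEq β] (X Y : β → ℝ)

/-- The count attached to an ordered pair. -/
noncomputable def xx (P Q : Finset β) (r s : β) : ℕ := PP X Y P r s + NN X Y Q r s

omit [DecidableEq β] in
lemma xx_swap (P Q : Finset β) (r s : β) : xx X Y P Q s r = xx X Y Q P r s := by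
  unfold xx
  rw [PP_swap X Y P r s, NN_swap X Y Q r s, Nat.add_comm]

/-- Both elements in the same class. -/
def SameK (P Q : Finset β) (r s : β) : Prop := (r ∈ P ∧ s ∈ P) ∨ (r ∈ Q ∧ s ∈ Q)

/-- Elements of different kinds and equal signs. -/
def MixS (Ap An Bp Bn : Finset β) (r s : β) : Prop :=
  (r ∈ Ap ∧ s ∈ Bp) ∨ (r ∈ Bp ∧ s ∈ Ap) ∨ (r ∈ An ∧ s ∈ Bn) ∨ (r ∈ Bn ∧ s ∈ An)

/-- Elements of different kinds and different signs. -/
def MixD (Ap An Bp Bn : Finset β) (r s : β) : Prop :=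
  (r ∈ Ap ∧ s ∈ Bn) ∨ (r ∈ Bn ∧ s ∈ Ap) ∨ (r ∈ Bp ∧ s ∈ An) ∨ (r ∈ An ∧ s ∈ Bp)

open scoped Classical in
/-- Positive weight of an ordered pair. -/
noncomputable def fPos (Ap An Bp Bn : Finset β) (L1 L2 : ℕ) (r s : β) : ℕ :=
  (if SameK Ap An r s ∧ xx X Y Ap An r s < L1 then rho (L2 - xx X Y Bp Bn r s) else 0) +
  (if SameK Bp Bn r s ∧ xx X Y Bp Bn r s < L2 then rho (L1 - xx X Y Ap An r s) else 0) +
  (if MixS Ap An Bp Bn r s then Phi L1 L2 (xx X Y Ap An r s) (xx X Y Bp Bn r s) else 0)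

open scoped Classical in
/-- Negative weight of an ordered pair. -/
noncomputable def fNeg (Ap An Bp Bn : Finset β) (L1 L2 : ℕ) (r s : β) : ℕ :=
  if MixD Ap An Bp Bn r s then Phi L1 L2 (xx X Y Ap An r s) (xx X Y Bp Bn r s) else 0

variable {X Y}

theorem sum_fNeg_le [Fintype β] {M : ℕ} (S : Sweep β M) (hb : S.Bridge X Y) (hgen : GenPos X Y)
    {Ap An Bp Bn : Finset β} {L1 L2 : ℕ} (hd : Disj4 Ap An Bp Bn)
    (hcard : 2 * L1 ≤ Ap.card + An.card) :
    ∑ p ∈ (univ : Finset β).offDiag, fNeg X Y Ap An Bp Bn L1 L2 p.1 p.2 ≤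
      ∑ p ∈ (univ : Finset β).offDiag, fPos X Y Ap An Bp Bn L1 L2 p.1 p.2 := by
  have hs := S.signed_le (L2 := L2) hd hcard
  have hx : ∀ (P Q : Finset β) (t : ℕ), S.xh P Q t = xx X Y P Q (S.lo t) (S.hi t) := by
    intro P Q t
    unfold Sweep.xh xx
    rw [Sweep.cntA_hi_eq hb hgen, Sweep.cnt_lo_eq hb]
  rw [← S.sum_range_eq_offDiag, ← S.sum_range_eq_offDiag]
  have e1 : ∀ t, S.tNeg Ap An Bp Bn L1 L2 t = fNeg X Y Ap An Bp Bn L1 L2 (S.lo t) (S.hi t) := by
    intro t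
    unfold Sweep.tNeg fNeg
    rw [hx, hx]
    rfl
  have e2 : ∀ t, S.tPos Ap An Bp Bn L1 L2 t = fPos X Y Ap An Bp Bn L1 L2 (S.lo t) (S.hi t) := by
    intro t
    unfold Sweep.tPos fPos
    rw [hx, hx]
    rfl
  simp only [e1, e2] at hs
  exact hs

/-- The positive elements of a set. -/
def pt (σ : β → ℤ) (F : Finset β) : Finset β := F.filter (fun q => σ q = 1)

/-- The negative elements of a set. -/
def nt (σ : β → ℤ) (F : Finset β) : Finset β := F.filter (fun q => σ q = -1)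

omit [DecidableEq β] in
lemma mem_pt {σ : β → ℤ} {F : Finset β} {q : β} : q ∈ pt σ F ↔ q ∈ F ∧ σ q = 1 := by
  unfold pt; exact Finset.mem_filter

omit [DecidableEq β] in
lemma mem_nt {σ : β → ℤ} {F : Finset β} {q : β} : q ∈ nt σ F ↔ q ∈ F ∧ σ q = -1 := by
  unfold nt; exact Finset.mem_filter

omit [DecidableEq β] in
lemma disj_pt_nt (σ : β → ℤ) (F G : Finset β) : Disjoint (pt σ F) (nt σ G) := by
  rw [Finset.disjoint_left]
  intro q h1 h2
  have := (mem_pt.mp h1).2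
  have := (mem_nt.mp h2).2
  omega

omit [DecidableEq β] in
lemma disj_pt_pt (σ : β → ℤ) {F G : Finset β} (h : Disjoint F G) : Disjoint (pt σ F) (pt σ G) :=
  Finset.disjoint_of_subset_left (Finset.filter_subset _ _)
    (Finset.disjoint_of_subset_right (Finset.filter_subset _ _) h)

omit [DecidableEq β] in
lemma disj_nt_nt (σ : β → ℤ) {F G : Finset β} (h : Disjoint F G) : Disjoint (nt σ F) (nt σ G) :=
  Finset.disjoint_of_subset_left (Finset.filter_subset _ _)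
    (Finset.disjoint_of_subset_right (Finset.filter_subset _ _) h)

omit [DecidableEq β] in
lemma disj4_pt (σ : β → ℤ) {A B : Finset β} (h : Disjoint A B) :
    Disj4 (pt σ A) (nt σ A) (pt σ B) (nt σ B) :=
  ⟨disj_pt_nt σ A A, disj_pt_pt σ h, disj_pt_nt σ A B, (disj_pt_nt σ B A).symm, disj_nt_nt σ h,
    disj_pt_nt σ B B⟩

omit [DecidableEq β] in
lemma card_pt_nt {σ : β → ℤ} (hσ : ∀ q, σ q = 1 ∨ σ q = -1) (F : Finset β) :
    (pt σ F).card + (nt σ F).card = F.card := by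
  classical
  have h : nt σ F = F.filter (fun q => ¬ σ q = 1) := by
    unfold nt
    apply Finset.filter_congr
    intro q _
    have := hσ q
    omega
  rw [h]
  exact Finset.card_filter_add_card_filter_not _

/-- The sign of a real number, as an integer. -/
noncomputable def sgZ (z : ℝ) : ℤ := if 0 < z then 1 else if z < 0 then -1 else 0

lemma sgZ_neg (z : ℝ) : sgZ (-z) = - sgZ z := by
  unfold sgZ
  rcases lt_trichotomy z 0 with h | h | h
  · have h1 : ¬ 0 < z := not_lt.mpr h.le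
    have h2 : 0 < -z := by linarith
    simp [h, h1]
  · simp [h]
  · have h1 : ¬ z < 0 := not_lt.mpr h.le
    have h2 : -z < 0 := by linarith
    have h3 : ¬ 0 < -z := not_lt.mpr h2.le
    simp [h, h1]

lemma sgZ_zero : sgZ 0 = 0 := by
  simp [sgZ]

lemma sgZ_pos {z : ℝ} (h : 0 < z) : sgZ z = 1 := by
  simp [sgZ, h]

lemma sgZ_negz {z : ℝ} (h : z < 0) : sgZ z = -1 := by
  have h1 : ¬ 0 < z := not_lt.mpr h.le
  simp [sgZ, h, h1]

lemma sgZ_sq {z : ℝ} (h : z ≠ 0) : sgZ z * sgZ z = 1 := by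
  rcases lt_or_gt_of_ne h with h | h
  · rw [sgZ_negz h]; norm_num
  · rw [sgZ_pos h]; norm_num

variable (X Y)

/-- The orientation sign of a triple. -/
noncomputable def sg (r s q : β) : ℤ := sgZ (Det X Y r s q)

/-- The signed orientation of a triple, twisted by the sign of the third element. -/
noncomputable def tw (σ : β → ℤ) (r s q : β) : ℤ := σ q * sg X Y r s q

/-- The total signed count of an ordered pair. -/
noncomputable def ZT (σ : β → ℤ) (F : Finset β) (r s : β) : ℤ := ∑ q ∈ F, tw X Y σ r s q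

variable {X Y}

omit [DecidableEq β] in
lemma sg_swap (r s q : β) : sg X Y s r q = - sg X Y r s q := by
  unfold sg
  rw [Det_swap, sgZ_neg]

omit [DecidableEq β] in
lemma sg_cycle (r s q : β) : sg X Y s q r = sg X Y r s q := by
  unfold sg
  rw [Det_cycle]

omit [DecidableEq β] in
lemma sg_left (r s : β) : sg X Y r s r = 0 := by
  unfold sg
  rw [Det_left, sgZ_zero]

omit [DecidableEq β] in
lemma sg_right (r s : β) : sg X Y r s s = 0 := by
  unfold sg
  rw [Det_right, sgZ_zero]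

omit [DecidableEq β] in
lemma sg_self (r q : β) : sg X Y r r q = 0 := by
  unfold sg
  rw [Det_self, sgZ_zero]

omit [DecidableEq β] in
lemma sum_sg (F : Finset β) (r s : β) :
    ∑ q ∈ F, sg X Y r s q = (PP X Y F r s : ℤ) - NN X Y F r s := by
  unfold PP NN
  rw [Finset.card_filter, Finset.card_filter]
  push_cast
  rw [← Finset.sum_sub_distrib]
  apply Finset.sum_congr rfl
  intro q _
  unfold sg sgZ
  by_cases h1 : 0 < Det X Y r s q
  · have h2 : ¬ Det X Y r s q < 0 := not_lt.mpr h1.le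
    simp [h1, h2]
  · by_cases h2 : Det X Y r s q < 0
    · simp [h1, h2]
    · simp [h1, h2]

omit [DecidableEq β] in
lemma ZT_eq {σ : β → ℤ} (hσ : ∀ q, σ q = 1 ∨ σ q = -1) (F : Finset β) (r s : β) :
    ZT X Y σ F r s = (xx X Y (pt σ F) (nt σ F) r s : ℤ) - xx X Y (nt σ F) (pt σ F) r s := by
  classical
  have h : nt σ F = F.filter (fun q => ¬ σ q = 1) := by
    unfold nt
    apply Finset.filter_congr
    intro q _
    have := hσ q
    omega
  unfold ZT xx
  push_cast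
  have e1 := sum_sg (X := X) (Y := Y) (pt σ F) r s
  have e2 := sum_sg (X := X) (Y := Y) (nt σ F) r s
  have e3 : ∑ q ∈ F, tw X Y σ r s q =
      ∑ q ∈ pt σ F, sg X Y r s q - ∑ q ∈ nt σ F, sg X Y r s q := by
    rw [← Finset.sum_filter_add_sum_filter_not F (fun q => σ q = 1), h]
    unfold pt
    rw [sub_eq_add_neg, ← Finset.sum_neg_distrib]
    congr 1
    · apply Finset.sum_congr rfl
      intro q hq
      unfold tw
      rw [(Finset.mem_filter.mp hq).2, one_mul]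
    · apply Finset.sum_congr rfl
      intro q hq
      unfold tw
      have h1 := (Finset.mem_filter.mp hq).2
      have : σ q = -1 := by
        have := hσ q
        omega
      rw [this]
      ring
  rw [e3, e1, e2]
  ring

lemma xx_sum {σ : β → ℤ} (hσ : ∀ q, σ q = 1 ∨ σ q = -1) (hgen : GenPos X Y) (F : Finset β) {r s : β}
    (hrs : r ≠ s) :
    xx X Y (pt σ F) (nt σ F) r s + xx X Y (nt σ F) (pt σ F) r s + (if r ∈ F then 1 else 0) +
      (if s ∈ F then 1 else 0) = F.card := by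
  have h1 := NN_add_PP hgen (pt σ F) hrs
  have h2 := NN_add_PP hgen (nt σ F) hrs
  have h3 := card_pt_nt hσ F
  have m : ∀ q, (if q ∈ pt σ F then 1 else 0) + (if q ∈ nt σ F then 1 else 0) =
      (if q ∈ F then 1 else 0) := by
    intro q
    simp only [mem_pt, mem_nt]
    rcases hσ q with h | h <;> by_cases hq : q ∈ F <;> simp [h, hq]
  have m1 := m r
  have m2 := m s
  unfold xx
  omega

lemma rho_pair_Z (L y z : ℕ) (h : y + z = 2 * L + 1) :
    4 * ((rho (L - y) : ℤ) + rho (L - z)) = ((y : ℤ) - z) ^ 2 - 1 := by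
  have h1 := rho_pair L y z h
  have h2 : ((rho (L - y) : ℤ) + rho (L - z)) + (y : ℤ) * z = (L : ℤ) * (L + 1) := by
    exact_mod_cast h1
  have h3 : (y : ℤ) + z = 2 * L + 1 := by exact_mod_cast h
  have h4 : (z : ℤ) = 2 * L + 1 - y := by linarith
  rw [h4] at h2 ⊢
  nlinarith [h2]

lemma Phi_quad_Z (L1 L2 x xb y yb : ℕ) (hx : x + xb = 2 * L1) (hy : y + yb = 2 * L2) :
    4 * ((Phi L1 L2 x y : ℤ) + Phi L1 L2 xb yb - Phi L1 L2 xb y - Phi L1 L2 x yb) =
      ((x : ℤ) - xb) * ((y : ℤ) - yb) := by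
  have h1 := Phi_flip L1 L2 x xb y yb hx hy
  have h2 : 2 * ((Phi L1 L2 x y : ℤ) + Phi L1 L2 xb yb) + ((x : ℤ) * yb + (xb : ℤ) * y) =
      2 * ((Phi L1 L2 xb y : ℤ) + Phi L1 L2 x yb) + 2 * ((L1 : ℤ) * L2) := by
    exact_mod_cast h1
  have h3 : (L1 : ℤ) = ((x : ℤ) + xb) / 2 := by omega
  have h4 : (2 : ℤ) * L1 = (x : ℤ) + xb := by omega
  have h5 : (2 : ℤ) * L2 = (y : ℤ) + yb := by omega
  have h6 : (4 : ℤ) * ((L1 : ℤ) * L2) = ((x : ℤ) + xb) * ((y : ℤ) + yb) := by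
    rw [← h4, ← h5]; ring
  linarith

lemma T1_num (L1 L2 x x' y y' : ℕ) (hx : x + x' + 1 = 2 * L1) (hy : y + y' = 2 * L2 + 1) :
    8 * ((((if x < L1 then rho (L2 - y) else 0 : ℕ)) : ℤ) + ((if x' < L1 then rho (L2 - y) else 0 : ℕ) : ℤ) +
        (((if x' < L1 then rho (L2 - y') else 0 : ℕ) : ℤ) +
          ((if x < L1 then rho (L2 - y') else 0 : ℕ) : ℤ))) =
      2 * (((y : ℤ) - y') ^ 2 - 1) := by
  have h := rho_pair_Z L2 y y' hy
  by_cases h1 : x < L1
  · have h2 : ¬ x' < L1 := by omega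
    simp only [h1, h2, if_true, if_false, Nat.cast_zero, add_zero, zero_add]
    linarith
  · have h2 : x' < L1 := by omega
    simp only [h1, h2, if_true, if_false, Nat.cast_zero, add_zero, zero_add]
    linarith

lemma T2_num (L1 L2 x x' y y' : ℕ) (hx : x + x' = 2 * L1 + 1) (hy : y + y' + 1 = 2 * L2) :
    8 * (((if y < L2 then rho (L1 - x) else 0 : ℕ) : ℤ) + ((if y < L2 then rho (L1 - x') else 0 : ℕ) : ℤ) +
        (((if y' < L2 then rho (L1 - x') else 0 : ℕ) : ℤ) +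
          ((if y' < L2 then rho (L1 - x) else 0 : ℕ) : ℤ))) =
      2 * (((x : ℤ) - x') ^ 2 - 1) := by
  have h := rho_pair_Z L1 x x' hx
  by_cases h1 : y < L2
  · have h2 : ¬ y' < L2 := by omega
    simp only [h1, h2, if_true, if_false, Nat.cast_zero, add_zero, zero_add]
    linarith
  · have h2 : y' < L2 := by omega
    simp only [h1, h2, if_true, if_false, Nat.cast_zero, add_zero, zero_add]
    linarith

section PairId

variable [Fintype β] (σ : β → ℤ) (A B : Finset β) (L1 L2 : ℕ)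

/-- The combined weight of an ordered pair, for the two configurations. -/
noncomputable def HZ (r s : β) : ℤ :=
  (fPos X Y (pt σ A) (nt σ A) (pt σ B) (nt σ B) L1 L2 r s : ℤ) +
    fPos X Y (nt σ A) (pt σ A) (pt σ B) (nt σ B) L1 L2 r s -
    fNeg X Y (pt σ A) (nt σ A) (pt σ B) (nt σ B) L1 L2 r s -
    fNeg X Y (nt σ A) (pt σ A) (pt σ B) (nt σ B) L1 L2 r s

/-- The static value of the weight of a pair. -/
noncomputable def WZ (r s : β) : ℤ :=
  (if r ∈ A ∧ s ∈ A then (1 + σ r * σ s) * (ZT X Y σ B r s ^ 2 - 1) else 0) +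
  (if r ∈ B ∧ s ∈ B then (1 + σ r * σ s) * (ZT X Y σ A r s ^ 2 - 1) else 0) +
  (if (r ∈ A ∧ s ∈ B) ∨ (r ∈ B ∧ s ∈ A) then
    2 * (σ r * σ s * ZT X Y σ A r s * ZT X Y σ B r s) else 0)

variable {σ A B L1 L2}

omit [Fintype β] in
lemma pair_id (hσ : ∀ q, σ q = 1 ∨ σ q = -1) (hgen : GenPos X Y) (hd : Disjoint A B)
    (hA : A.card = 2 * L1 + 1) (hB : B.card = 2 * L2 + 1) {r s : β} (hrs : r ≠ s) :
    8 * (HZ (X := X) (Y := Y) σ A B L1 L2 r s + HZ (X := X) (Y := Y) σ A B L1 L2 s r) =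
      WZ (X := X) (Y := Y) σ A B r s := by
  have hsA := xx_sum hσ hgen A hrs
  have hsB := xx_sum hσ hgen B hrs
  rw [hA] at hsA
  rw [hB] at hsB
  have zA := ZT_eq (X := X) (Y := Y) hσ A r s
  have zB := ZT_eq (X := X) (Y := Y) hσ B r s
  have e1 := xx_swap X Y (pt σ A) (nt σ A) r s
  have e2 := xx_swap X Y (nt σ A) (pt σ A) r s
  have e3 := xx_swap X Y (pt σ B) (nt σ B) r s
  have e4 := xx_swap X Y (nt σ B) (pt σ B) r s
  unfold HZ WZ fPos fNeg
  rw [zA, zB, e1, e2, e3]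
  generalize xx X Y (pt σ A) (nt σ A) r s = x at *
  generalize xx X Y (nt σ A) (pt σ A) r s = x' at *
  generalize xx X Y (pt σ B) (nt σ B) r s = y at *
  generalize xx X Y (nt σ B) (pt σ B) r s = y' at *
  have loc : ∀ q, (q ∈ A ∧ q ∉ B) ∨ (q ∉ A ∧ q ∈ B) ∨ (q ∉ A ∧ q ∉ B) := by
    intro q
    by_cases h1 : q ∈ A
    · exact Or.inl ⟨h1, Finset.disjoint_left.mp hd h1⟩
    · by_cases h2 : q ∈ B
      · exact Or.inr (Or.inl ⟨h1, h2⟩)
      · exact Or.inr (Or.inr ⟨h1, h2⟩)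
  have n1 : ((1 : ℤ) = -1) = False := by simp
  have n2 : ((-1 : ℤ) = 1) = False := by simp
  rcases loc r with ⟨ra, rb⟩ | ⟨ra, rb⟩ | ⟨ra, rb⟩ <;>
  rcases loc s with ⟨sa, sb⟩ | ⟨sa, sb⟩ | ⟨sa, sb⟩ <;>
  rcases hσ r with sr | sr <;> rcases hσ s with ss | ss <;>
  simp only [SameK, MixS, MixD, mem_pt, mem_nt, ra, rb, sa, sb, sr, ss, n1, n2, true_and, false_and,
    and_true, and_false, or_true, or_false, true_or, false_or, if_true, if_false, and_self,
    or_self, Nat.add_zero, Nat.zero_add, Nat.cast_zero, sub_zero, add_zero, zero_add] at hsA hsB ⊢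
  all_goals
    first
    | (have t1 := T1_num L1 L2 x x' y y' (by omega) (by omega); linarith)
    | (have t2 := T2_num L1 L2 x x' y y' (by omega) (by omega); linarith)
    | (have t3 := Phi_quad_Z L1 L2 x x' y y' (by omega) (by omega); linarith)
    | ring

end PairId

/-- The sum over ordered pairs of distinct elements. -/
def OS (F : Finset β) (g : β → β → ℤ) : ℤ := ∑ a ∈ F, ∑ a' ∈ F, if a ≠ a' then g a a' else 0

lemma OS_eq (F : Finset β) (g : β → β → ℤ) :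
    OS F g = ∑ a ∈ F, ∑ a' ∈ F, g a a' - ∑ a ∈ F, g a a := by
  unfold OS
  rw [← Finset.sum_sub_distrib]
  apply Finset.sum_congr rfl
  intro a ha
  have h1 : ∑ a' ∈ F, (if a = a' then g a a' else 0) = g a a := by
    rw [Finset.sum_ite_eq, if_pos ha]
  rw [← h1, ← Finset.sum_sub_distrib]
  apply Finset.sum_congr rfl
  intro a' _
  by_cases h : a = a'
  · simp [h]
  · simp [h]

lemma offDiag_eq_OS (F : Finset β) (g : β → β → ℤ) :
    ∑ p ∈ F.offDiag, g p.1 p.2 = OS F g := by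
  unfold OS
  have h : F.offDiag = (F ×ˢ F).filter (fun p => p.1 ≠ p.2) := by
    ext p
    simp [Finset.mem_offDiag, and_assoc]
  rw [← Finset.sum_product', h, Finset.sum_filter]

lemma OS_prod (F : Finset β) (f : β → ℤ) :
    OS F (fun u v => f u * f v) = (∑ u ∈ F, f u) ^ 2 - ∑ u ∈ F, f u * f u := by
  rw [OS_eq, sq, Finset.sum_mul_sum]

lemma OS_sub_mul (F : Finset β) (w Z : β → β → ℤ) (c : ℤ) :
    OS F (fun u v => w u v * (Z u v - c)) = OS F (fun u v => w u v * Z u v) - c * OS F w := by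
  unfold OS
  rw [Finset.mul_sum, ← Finset.sum_sub_distrib]
  apply Finset.sum_congr rfl
  intro u _
  rw [Finset.mul_sum, ← Finset.sum_sub_distrib]
  apply Finset.sum_congr rfl
  intro v _
  by_cases h : u ≠ v
  · simp only [h, ne_eq, not_false_eq_true, if_true]; ring
  · simp [h]

lemma OS_add (F : Finset β) (w w' : β → β → ℤ) :
    OS F (fun u v => w u v + w' u v) = OS F w + OS F w' := by
  unfold OS
  rw [← Finset.sum_add_distrib]
  apply Finset.sum_congr rfl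
  intro u _
  rw [← Finset.sum_add_distrib]
  apply Finset.sum_congr rfl
  intro v _
  by_cases h : u ≠ v
  · simp [h]
  · simp [h]

section Sums

variable [Fintype β] {σ : β → ℤ} {A B : Finset β} {L1 L2 : ℕ}

omit [DecidableEq β] in
lemma sum_univ_offDiag_swap [DecidableEq β] (g : β → β → ℤ) :
    ∑ p ∈ (univ : Finset β).offDiag, g p.2 p.1 = ∑ p ∈ (univ : Finset β).offDiag, g p.1 p.2 := by
  apply Finset.sum_nbij' Prod.swap Prod.swap
  · intro p hp
    simp only [Finset.mem_offDiag, Prod.fst_swap, Prod.snd_swap] at hp ⊢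
    exact ⟨hp.2.1, hp.1, Ne.symm hp.2.2⟩
  · intro p hp
    simp only [Finset.mem_offDiag, Prod.fst_swap, Prod.snd_swap] at hp ⊢
    exact ⟨hp.2.1, hp.1, Ne.symm hp.2.2⟩
  · intro p _
    simp
  · intro p _
    simp
  · intro p _
    simp

lemma sum_univ_same (F : Finset β) (g : β → β → ℤ) :
    ∑ p ∈ (univ : Finset β).offDiag, (if p.1 ∈ F ∧ p.2 ∈ F then g p.1 p.2 else 0) = OS F g := by
  rw [← offDiag_eq_OS, ← Finset.sum_filter]
  apply Finset.sum_congr _ (fun _ _ => rfl)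
  ext p
  simp only [Finset.mem_filter, Finset.mem_offDiag, Finset.mem_univ, true_and]
  tauto

lemma sum_univ_mixed {F G : Finset β} (hd : Disjoint F G) (g : β → β → ℤ) :
    ∑ p ∈ (univ : Finset β).offDiag, (if p.1 ∈ F ∧ p.2 ∈ G then g p.1 p.2 else 0) =
      ∑ a ∈ F, ∑ b ∈ G, g a b := by
  rw [← Finset.sum_filter, ← Finset.sum_product']
  apply Finset.sum_congr _ (fun _ _ => rfl)
  ext p
  simp only [Finset.mem_filter, Finset.mem_offDiag, Finset.mem_univ, true_and, Finset.mem_product]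
  constructor
  · rintro ⟨_, h1, h2⟩
    exact ⟨h1, h2⟩
  · rintro ⟨h1, h2⟩
    refine ⟨?_, h1, h2⟩
    intro e
    exact Finset.disjoint_left.mp hd h1 (e ▸ h2)

omit [Fintype β] [DecidableEq β] in
lemma ZT_swap (F : Finset β) (r s : β) : ZT X Y σ F s r = - ZT X Y σ F r s := by
  unfold ZT tw
  rw [← Finset.sum_neg_distrib]
  apply Finset.sum_congr rfl
  intro q _
  rw [sg_swap]
  ring

variable (X Y σ A B L1 L2) in
/-- The sum of all combined weights. -/
noncomputable def TZ : ℤ := ∑ p ∈ (univ : Finset β).offDiag, HZ (X := X) (Y := Y) σ A B L1 L2 p.1 p.2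

variable (X Y σ A B) in
/-- The mixed sum. -/
noncomputable def M3 : ℤ :=
  ∑ a ∈ A, ∑ b ∈ B, σ a * σ b * ZT X Y σ A a b * ZT X Y σ B a b

/-- The sum of all combined weights is nonnegative. -/
lemma TZ_nonneg {M : ℕ} (S : Sweep β M) (hb : S.Bridge X Y) (hgen : GenPos X Y)
    (hσ : ∀ q, σ q = 1 ∨ σ q = -1) (hd : Disjoint A B) (hA : A.card = 2 * L1 + 1) :
    0 ≤ TZ X Y σ A B L1 L2 := by
  have hcard : (pt σ A).card + (nt σ A).card = A.card := card_pt_nt hσ A
  have h1 := sum_fNeg_le S hb hgen (L1 := L1) (L2 := L2) (disj4_pt σ hd) (by omega)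
  have h2 := sum_fNeg_le S hb hgen (L1 := L1) (L2 := L2) (disj4_pt σ hd).flipA (by omega)
  have h1' : (∑ p ∈ (univ : Finset β).offDiag,
      (fNeg X Y (pt σ A) (nt σ A) (pt σ B) (nt σ B) L1 L2 p.1 p.2 : ℤ)) ≤
      ∑ p ∈ (univ : Finset β).offDiag,
      (fPos X Y (pt σ A) (nt σ A) (pt σ B) (nt σ B) L1 L2 p.1 p.2 : ℤ) := by
    exact_mod_cast h1
  have h2' : (∑ p ∈ (univ : Finset β).offDiag,
      (fNeg X Y (nt σ A) (pt σ A) (pt σ B) (nt σ B) L1 L2 p.1 p.2 : ℤ)) ≤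
      ∑ p ∈ (univ : Finset β).offDiag,
      (fPos X Y (nt σ A) (pt σ A) (pt σ B) (nt σ B) L1 L2 p.1 p.2 : ℤ) := by
    exact_mod_cast h2
  unfold TZ HZ
  rw [Finset.sum_sub_distrib, Finset.sum_sub_distrib, Finset.sum_add_distrib]
  linarith

/-- The value of the sum of all combined weights. -/
lemma TZ_eq (hσ : ∀ q, σ q = 1 ∨ σ q = -1) (hgen : GenPos X Y) (hd : Disjoint A B)
    (hA : A.card = 2 * L1 + 1) (hB : B.card = 2 * L2 + 1) :
    16 * TZ X Y σ A B L1 L2 =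
      OS A (fun u v => (1 + σ u * σ v) * (ZT X Y σ B u v ^ 2 - 1)) +
      OS B (fun u v => (1 + σ u * σ v) * (ZT X Y σ A u v ^ 2 - 1)) +
      4 * M3 X Y σ A B := by
  have h1 : ∑ p ∈ (univ : Finset β).offDiag, WZ (X := X) (Y := Y) σ A B p.1 p.2 =
      16 * TZ X Y σ A B L1 L2 := by
    have e : ∀ p ∈ (univ : Finset β).offDiag, WZ (X := X) (Y := Y) σ A B p.1 p.2 =
        8 * (HZ (X := X) (Y := Y) σ A B L1 L2 p.1 p.2 + HZ (X := X) (Y := Y) σ A B L1 L2 p.2 p.1) := by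
      intro p hp
      exact (pair_id hσ hgen hd hA hB (Finset.mem_offDiag.mp hp).2.2).symm
    rw [Finset.sum_congr rfl e, ← Finset.mul_sum, Finset.sum_add_distrib,
      sum_univ_offDiag_swap (fun r s => HZ (X := X) (Y := Y) σ A B L1 L2 r s)]
    unfold TZ
    ring
  rw [← h1]
  unfold WZ
  simp only [Finset.sum_add_distrib]
  rw [sum_univ_same A (fun u v => (1 + σ u * σ v) * (ZT X Y σ B u v ^ 2 - 1)),
    sum_univ_same B (fun u v => (1 + σ u * σ v) * (ZT X Y σ A u v ^ 2 - 1))]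
  have e2 : ∀ p ∈ (univ : Finset β).offDiag,
      (if (p.1 ∈ A ∧ p.2 ∈ B) ∨ (p.1 ∈ B ∧ p.2 ∈ A) then
        2 * (σ p.1 * σ p.2 * ZT X Y σ A p.1 p.2 * ZT X Y σ B p.1 p.2) else 0) =
      (if p.1 ∈ A ∧ p.2 ∈ B then
        2 * (σ p.1 * σ p.2 * ZT X Y σ A p.1 p.2 * ZT X Y σ B p.1 p.2) else 0) +
      (if p.1 ∈ B ∧ p.2 ∈ A then
        2 * (σ p.1 * σ p.2 * ZT X Y σ A p.1 p.2 * ZT X Y σ B p.1 p.2) else 0) := by
    intro p _
    by_cases h3 : p.1 ∈ A ∧ p.2 ∈ B
    · have h4 : ¬ (p.1 ∈ B ∧ p.2 ∈ A) := fun h => Finset.disjoint_left.mp hd h3.1 h.1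
      simp [h3, h4]
    · by_cases h4 : p.1 ∈ B ∧ p.2 ∈ A
      · simp [h3, h4]
      · simp [h3, h4]
  rw [Finset.sum_congr rfl e2, Finset.sum_add_distrib,
    sum_univ_mixed hd (fun r s => 2 * (σ r * σ s * ZT X Y σ A r s * ZT X Y σ B r s)),
    sum_univ_mixed hd.symm (fun r s => 2 * (σ r * σ s * ZT X Y σ A r s * ZT X Y σ B r s))]
  have e3 : ∑ a ∈ B, ∑ b ∈ A, 2 * (σ a * σ b * ZT X Y σ A a b * ZT X Y σ B a b) =
      ∑ a ∈ A, ∑ b ∈ B, 2 * (σ a * σ b * ZT X Y σ A a b * ZT X Y σ B a b) := by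
    rw [Finset.sum_comm]
    apply Finset.sum_congr rfl
    intro a _
    apply Finset.sum_congr rfl
    intro b _
    rw [ZT_swap A a b, ZT_swap B a b]
    ring
  rw [e3]
  unfold M3
  simp only [← Finset.mul_sum]
  ring

end Sums

section Cross

variable (X Y) (σ : β → ℤ)

/-- The indicator of a quadruple that is crossing, in signed terms. -/
noncomputable def iXS (a a' b b' : β) : ℕ :=
  if a ≠ a' ∧ b ≠ b' ∧ 0 < tw X Y σ a a' b * tw X Y σ a a' b' ∧
    0 < tw X Y σ b b' a * tw X Y σ b b' a' then 1 else 0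

/-- The number of crossing quadruples, in signed terms. -/
noncomputable def XtS (A B : Finset β) : ℕ :=
  ∑ a ∈ A, ∑ a' ∈ A, ∑ b ∈ B, ∑ b' ∈ B, iXS X Y σ a a' b b'

variable {X Y σ}

lemma sign_four (p q r t : ℝ) (hp : p ≠ 0) (hq : q ≠ 0) (hr : r ≠ 0) (ht : t ≠ 0)
    (h : p - q + r - t = 0) :
    sgZ p * sgZ q * sgZ r * sgZ t = sgZ p * sgZ q + sgZ r * sgZ t - 1 - sgZ p * sgZ r +
      sgZ q * sgZ r + sgZ p * sgZ t - sgZ q * sgZ t := by
  rcases lt_or_gt_of_ne hp with hp | hp <;> rcases lt_or_gt_of_ne hq with hq | hq <;>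
    rcases lt_or_gt_of_ne hr with hr | hr <;> rcases lt_or_gt_of_ne ht with ht | ht <;>
    first
    | (exfalso; linarith)
    | (simp only [sgZ_pos, sgZ_negz, hp, hq, hr, ht]; norm_num)

omit [DecidableEq β] in
lemma sg_23 (r s q : β) : sg X Y r q s = - sg X Y r s q := by
  unfold sg
  have : Det X Y r q s = - Det X Y r s q := by unfold Det; ring
  rw [this, sgZ_neg]

omit [DecidableEq β] in
lemma sg_sq (hgen : GenPos X Y) {r s q : β} (h1 : r ≠ s) (h2 : s ≠ q) (h3 : r ≠ q) :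
    sg X Y r s q * sg X Y r s q = 1 := sgZ_sq (hgen r s q h1 h2 h3)

omit [DecidableEq β] in
lemma sgn_cases {z : ℤ} (h : z * z = 1) : z = 1 ∨ z = -1 := by
  have : (z - 1) * (z + 1) = 0 := by linarith
  rcases mul_eq_zero.mp this with h1 | h1
  · left; linarith
  · right; linarith

/-- The pointwise identity. -/
lemma point_id (hσ : ∀ q, σ q = 1 ∨ σ q = -1) (hgen : GenPos X Y) {a a' b b' : β} (h1 : a ≠ a')
    (h2 : b ≠ b') (h3 : a ≠ b) (h4 : a ≠ b') (h5 : a' ≠ b) (h6 : a' ≠ b') :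
    4 * (iXS X Y σ a a' b b' : ℤ) = 1 +
      (1 + σ a * σ a') * (tw X Y σ a a' b * tw X Y σ a a' b') +
      (1 + σ b * σ b') * (tw X Y σ b b' a * tw X Y σ b b' a') -
      σ a * σ a' * (σ b * σ b') +
      σ a * σ b * (tw X Y σ a b a' * tw X Y σ a b b') +
      σ a * σ b' * (tw X Y σ a b' a' * tw X Y σ a b' b) +
      σ a' * σ b * (tw X Y σ a' b a * tw X Y σ a' b b') +
      σ a' * σ b' * (tw X Y σ a' b' a * tw X Y σ a' b' b) := by
  have e1 : sg X Y b b' a = sg X Y a b b' := sg_cycle a b b'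
  have e2 : sg X Y b b' a' = sg X Y a' b b' := sg_cycle a' b b'
  have e3 : sg X Y a b a' = - sg X Y a a' b := sg_23 a a' b
  have e4 : sg X Y a b' a' = - sg X Y a a' b' := sg_23 a a' b'
  have e5 : sg X Y a b' b = - sg X Y a b b' := sg_23 a b b'
  have e6 : sg X Y a' b a = sg X Y a a' b := sg_cycle a a' b
  have e7 : sg X Y a' b' a = sg X Y a a' b' := sg_cycle a a' b'
  have e8 : sg X Y a' b' b = - sg X Y a' b b' := sg_23 a' b b'
  have sf := sign_four (Det X Y a a' b) (Det X Y a a' b') (Det X Y a b b') (Det X Y a' b b')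
    (hgen _ _ _ h1 h5.symm.symm h3) (hgen _ _ _ h1 h6 h4) (hgen _ _ _ h3 h2 h4)
    (hgen _ _ _ h5 h2 h6) (by unfold Det; ring)
  have q1 : sg X Y a a' b * sg X Y a a' b = 1 := sg_sq hgen h1 h5 h3
  have q2 : sg X Y a a' b' * sg X Y a a' b' = 1 := sg_sq hgen h1 h6 h4
  have q3 : sg X Y a b b' * sg X Y a b b' = 1 := sg_sq hgen h3 h2 h4
  have q4 : sg X Y a' b b' * sg X Y a' b b' = 1 := sg_sq hgen h5 h2 h6
  change sg X Y a a' b * sg X Y a a' b' * sg X Y a b b' * sg X Y a' b b' =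
    sg X Y a a' b * sg X Y a a' b' + sg X Y a b b' * sg X Y a' b b' - 1 -
    sg X Y a a' b * sg X Y a b b' + sg X Y a a' b' * sg X Y a b b' +
    sg X Y a a' b * sg X Y a' b b' - sg X Y a a' b' * sg X Y a' b b' at sf
  unfold iXS tw
  rw [e1, e2, e3, e4, e5, e6, e7, e8]
  generalize sg X Y a a' b = p at *
  generalize sg X Y a a' b' = q at *
  generalize sg X Y a b b' = r at *
  generalize sg X Y a' b b' = t at *
  have hP : σ b * p * (σ b' * q) = 1 ∨ σ b * p * (σ b' * q) = -1 := by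
    rcases hσ b with h | h <;> rcases hσ b' with h' | h' <;> rcases sgn_cases q1 with i | i <;>
      rcases sgn_cases q2 with i' | i' <;> simp [h, h', i, i']
  have hQ : σ a * r * (σ a' * t) = 1 ∨ σ a * r * (σ a' * t) = -1 := by
    rcases hσ a with h | h <;> rcases hσ a' with h' | h' <;> rcases sgn_cases q3 with i | i <;>
      rcases sgn_cases q4 with i' | i' <;> simp [h, h', i, i']
  have main : 4 * (((if a ≠ a' ∧ b ≠ b' ∧ 0 < σ b * p * (σ b' * q) ∧ 0 < σ a * r * (σ a' * t)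
      then 1 else 0 : ℕ)) : ℤ) = (1 + σ b * p * (σ b' * q)) * (1 + σ a * r * (σ a' * t)) := by
    rcases hP with hP | hP <;> rcases hQ with hQ | hQ <;> rw [hP, hQ] <;> simp [h1, h2]
  rw [main]
  linear_combination (σ a * σ a' * (σ b * σ b')) * sf

omit [DecidableEq β] in
lemma sum4_pairsZ (A B : Finset β) (f : β → β → β → β → ℤ) :
    ∑ a ∈ A, ∑ a' ∈ A, ∑ b ∈ B, ∑ b' ∈ B, f a a' b b' =
      ∑ b ∈ B, ∑ b' ∈ B, ∑ a ∈ A, ∑ a' ∈ A, f a a' b b' := by
  calc ∑ a ∈ A, ∑ a' ∈ A, ∑ b ∈ B, ∑ b' ∈ B, f a a' b b'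
      = ∑ a ∈ A, ∑ b ∈ B, ∑ a' ∈ A, ∑ b' ∈ B, f a a' b b' :=
        Finset.sum_congr rfl (fun a _ => Finset.sum_comm)
    _ = ∑ b ∈ B, ∑ a ∈ A, ∑ a' ∈ A, ∑ b' ∈ B, f a a' b b' := Finset.sum_comm
    _ = ∑ b ∈ B, ∑ a ∈ A, ∑ b' ∈ B, ∑ a' ∈ A, f a a' b b' :=
        Finset.sum_congr rfl (fun b _ => Finset.sum_congr rfl (fun a _ => Finset.sum_comm))
    _ = ∑ b ∈ B, ∑ b' ∈ B, ∑ a ∈ A, ∑ a' ∈ A, f a a' b b' :=
        Finset.sum_congr rfl (fun b _ => Finset.sum_comm)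

variable (X Y σ) in
/-- The summand of the mixed sum. -/
noncomputable def KK (a a' b b' : β) : ℤ :=
  σ a * σ b * (tw X Y σ a b a' * tw X Y σ a b b')

omit [DecidableEq β] in
lemma tw_left (r s : β) : tw X Y σ r s r = 0 := by
  unfold tw
  rw [sg_left, mul_zero]

omit [DecidableEq β] in
lemma tw_right (r s : β) : tw X Y σ r s s = 0 := by
  unfold tw
  rw [sg_right, mul_zero]

omit [DecidableEq β] in
lemma sum_KK (A B : Finset β) :
    ∑ a ∈ A, ∑ a' ∈ A, ∑ b ∈ B, ∑ b' ∈ B, KK X Y σ a a' b b' = M3 X Y σ A B := by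
  unfold M3
  apply Finset.sum_congr rfl
  intro a _
  rw [Finset.sum_comm]
  apply Finset.sum_congr rfl
  intro b _
  unfold KK ZT
  rw [mul_assoc (σ a * σ b), Finset.sum_mul_sum, Finset.mul_sum]
  apply Finset.sum_congr rfl
  intro a' _
  rw [Finset.mul_sum]

omit [DecidableEq β] in
lemma sum_KK2 (A B : Finset β) :
    ∑ a ∈ A, ∑ a' ∈ A, ∑ b ∈ B, ∑ b' ∈ B, KK X Y σ a a' b' b = M3 X Y σ A B := by
  rw [← sum_KK]
  apply Finset.sum_congr rfl
  intro a _
  apply Finset.sum_congr rfl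
  intro a' _
  exact Finset.sum_comm

omit [DecidableEq β] in
lemma sum_KK3 (A B : Finset β) :
    ∑ a ∈ A, ∑ a' ∈ A, ∑ b ∈ B, ∑ b' ∈ B, KK X Y σ a' a b b' = M3 X Y σ A B := by
  rw [← sum_KK]
  exact Finset.sum_comm

omit [DecidableEq β] in
lemma sum_KK4 (A B : Finset β) :
    ∑ a ∈ A, ∑ a' ∈ A, ∑ b ∈ B, ∑ b' ∈ B, KK X Y σ a' a b' b = M3 X Y σ A B := by
  rw [← sum_KK2]
  exact Finset.sum_comm

/-- The pointwise identity on all quadruples of the two classes. -/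
lemma point_id' (hσ : ∀ q, σ q = 1 ∨ σ q = -1) (hgen : GenPos X Y) {A B : Finset β}
    (hd : Disjoint A B) {a a' b b' : β} (ha : a ∈ A) (ha' : a' ∈ A) (hb : b ∈ B) (hb' : b' ∈ B) :
    4 * (iXS X Y σ a a' b b' : ℤ) =
      (if a ≠ a' then (if b ≠ b' then (1 : ℤ) else 0) else 0) +
      (if a ≠ a' then (if b ≠ b' then (1 + σ a * σ a') *
        (tw X Y σ a a' b * tw X Y σ a a' b') else 0) else 0) +
      (if b ≠ b' then (if a ≠ a' then (1 + σ b * σ b') *
        (tw X Y σ b b' a * tw X Y σ b b' a') else 0) else 0) -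
      (if a ≠ a' then (if b ≠ b' then σ a * σ a' * (σ b * σ b') else 0) else 0) +
      KK X Y σ a a' b b' + KK X Y σ a a' b' b + KK X Y σ a' a b b' + KK X Y σ a' a b' b := by
  have hne : ∀ {u v}, u ∈ A → v ∈ B → u ≠ v := fun hu hv e =>
    Finset.disjoint_left.mp hd hu (e ▸ hv)
  by_cases h1 : a = a'
  · subst h1
    have : iXS X Y σ a a b b' = 0 := by
      unfold iXS
      simp
    rw [this]
    simp [KK, tw_left]
  · by_cases h2 : b = b'
    · subst h2
      have : iXS X Y σ a a' b b = 0 := by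
        unfold iXS
        simp
      rw [this]
      simp [KK, tw_right]
    · rw [point_id hσ hgen h1 h2 (hne ha hb) (hne ha hb') (hne ha' hb) (hne ha' hb')]
      simp only [h1, h2, ne_eq, not_false_eq_true, if_true]
      unfold KK
      ring

/-- The sum of the first kind of term. -/
lemma sum_PT (hσ : ∀ q, σ q = 1 ∨ σ q = -1) (hgen : GenPos X Y) {A B : Finset β}
    (hd : Disjoint A B) {a a' : β} (ha : a ∈ A) (ha' : a' ∈ A) (h : a ≠ a') :
    OS B (fun b b' => tw X Y σ a a' b * tw X Y σ a a' b') =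
      ZT X Y σ B a a' ^ 2 - (B.card : ℤ) := by
  rw [OS_prod]
  unfold ZT
  congr 1
  rw [Finset.card_eq_sum_ones]
  push_cast
  apply Finset.sum_congr rfl
  intro b hb
  have h1 : a ≠ b := fun e => Finset.disjoint_left.mp hd ha (e ▸ hb)
  have h2 : a' ≠ b := fun e => Finset.disjoint_left.mp hd ha' (e ▸ hb)
  unfold tw
  have q := sg_sq (X := X) (Y := Y) hgen h h2 h1
  rcases hσ b with hs | hs <;> rw [hs] <;> linarith

lemma S4_prod (A B : Finset β) (f g : β → β → ℤ) :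
    ∑ a ∈ A, ∑ a' ∈ A, ∑ b ∈ B, ∑ b' ∈ B,
      (if a ≠ a' then (if b ≠ b' then f a a' * g b b' else 0) else 0) = OS A f * OS B g := by
  unfold OS
  rw [Finset.sum_mul]
  apply Finset.sum_congr rfl
  intro a _
  rw [Finset.sum_mul]
  apply Finset.sum_congr rfl
  intro a' _
  by_cases h : a = a'
  · simp [h]
  · simp only [h, ne_eq, not_false_eq_true, if_true]
    rw [Finset.mul_sum]
    apply Finset.sum_congr rfl
    intro b _
    rw [Finset.mul_sum]
    apply Finset.sum_congr rfl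
    intro b' _
    by_cases h' : b = b'
    · simp [h']
    · simp [h']

lemma S4_comp (hσ : ∀ q, σ q = 1 ∨ σ q = -1) (hgen : GenPos X Y) {A B : Finset β}
    (hd : Disjoint A B) :
    ∑ a ∈ A, ∑ a' ∈ A, ∑ b ∈ B, ∑ b' ∈ B,
      (if a ≠ a' then (if b ≠ b' then (1 + σ a * σ a') *
        (tw X Y σ a a' b * tw X Y σ a a' b') else 0) else 0) =
      OS A (fun u v => (1 + σ u * σ v) * (ZT X Y σ B u v ^ 2 - (B.card : ℤ))) := by
  unfold OS
  apply Finset.sum_congr rfl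
  intro a ha
  apply Finset.sum_congr rfl
  intro a' ha'
  by_cases h : a = a'
  · simp [h]
  · simp only [h, ne_eq, not_false_eq_true, if_true]
    rw [← sum_PT hσ hgen hd ha ha' h]
    unfold OS
    rw [Finset.mul_sum]
    apply Finset.sum_congr rfl
    intro b _
    rw [Finset.mul_sum]
    apply Finset.sum_congr rfl
    intro b' _
    by_cases h' : b = b'
    · simp [h']
    · simp [h']

/-- The count of crossing quadruples, in terms of pair sums. -/
lemma XtS_eq (hσ : ∀ q, σ q = 1 ∨ σ q = -1) (hgen : GenPos X Y) {A B : Finset β}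
    (hd : Disjoint A B) :
    4 * (XtS X Y σ A B : ℤ) =
      OS A (fun _ _ => 1) * OS B (fun _ _ => 1) +
      OS A (fun u v => (1 + σ u * σ v) * (ZT X Y σ B u v ^ 2 - (B.card : ℤ))) +
      OS B (fun u v => (1 + σ u * σ v) * (ZT X Y σ A u v ^ 2 - (A.card : ℤ))) -
      OS A (fun u v => σ u * σ v) * OS B (fun u v => σ u * σ v) +
      4 * M3 X Y σ A B := by
  have e0 : 4 * (XtS X Y σ A B : ℤ) =
      ∑ a ∈ A, ∑ a' ∈ A, ∑ b ∈ B, ∑ b' ∈ B, 4 * (iXS X Y σ a a' b b' : ℤ) := by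
    unfold XtS
    push_cast
    simp only [Finset.mul_sum]
  rw [e0]
  have e1 : ∑ a ∈ A, ∑ a' ∈ A, ∑ b ∈ B, ∑ b' ∈ B, 4 * (iXS X Y σ a a' b b' : ℤ) =
      ∑ a ∈ A, ∑ a' ∈ A, ∑ b ∈ B, ∑ b' ∈ B, (
      (if a ≠ a' then (if b ≠ b' then (1 : ℤ) else 0) else 0) +
      (if a ≠ a' then (if b ≠ b' then (1 + σ a * σ a') *
        (tw X Y σ a a' b * tw X Y σ a a' b') else 0) else 0) +
      (if b ≠ b' then (if a ≠ a' then (1 + σ b * σ b') *
        (tw X Y σ b b' a * tw X Y σ b b' a') else 0) else 0) -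
      (if a ≠ a' then (if b ≠ b' then σ a * σ a' * (σ b * σ b') else 0) else 0) +
      KK X Y σ a a' b b' + KK X Y σ a a' b' b + KK X Y σ a' a b b' + KK X Y σ a' a b' b) := by
    apply Finset.sum_congr rfl
    intro a ha
    apply Finset.sum_congr rfl
    intro a' ha'
    apply Finset.sum_congr rfl
    intro b hb
    apply Finset.sum_congr rfl
    intro b' hb'
    exact point_id' hσ hgen hd ha ha' hb hb'
  rw [e1]
  simp only [Finset.sum_add_distrib, Finset.sum_sub_distrib]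
  rw [sum_KK, sum_KK2, sum_KK3, sum_KK4, S4_comp hσ hgen hd]
  have c1 := S4_prod A B (fun _ _ => 1) (fun _ _ => 1)
  have c2 := S4_prod A B (fun u v => σ u * σ v) (fun u v => σ u * σ v)
  simp only [mul_one] at c1
  rw [c1, c2]
  have c3 : ∑ a ∈ A, ∑ a' ∈ A, ∑ b ∈ B, ∑ b' ∈ B,
      (if b ≠ b' then (if a ≠ a' then (1 + σ b * σ b') *
        (tw X Y σ b b' a * tw X Y σ b b' a') else 0) else 0) =
      OS B (fun u v => (1 + σ u * σ v) * (ZT X Y σ A u v ^ 2 - (A.card : ℤ))) := by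
    rw [sum4_pairsZ]
    exact S4_comp hσ hgen hd.symm
  rw [c3]
  ring

/-- The main identity, for odd classes with balanced signs. -/
theorem XtS_main [Fintype β] {M : ℕ} (S : Sweep β M) (hb : S.Bridge X Y) (hgen : GenPos X Y)
    (hσ : ∀ q, σ q = 1 ∨ σ q = -1) {A B : Finset β} (hd : Disjoint A B) {L1 L2 : ℕ}
    (hA : A.card = 2 * L1 + 1) (hB : B.card = 2 * L2 + 1) (hbal : (∑ a ∈ A, σ a) ^ 2 = 1) :
    4 * (L1 * L1 * (L2 * L2)) ≤ XtS X Y σ A B := by
  have h1 := TZ_nonneg (L2 := L2) S hb hgen hσ hd hA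
  have h2 := TZ_eq (L1 := L1) (L2 := L2) (X := X) (Y := Y) hσ hgen hd hA hB
  have h3 := XtS_eq (X := X) (Y := Y) hσ hgen hd
  have hw : ∀ F : Finset β, OS F (fun u v => (1 + σ u * σ v)) =
      OS F (fun _ _ => 1) + OS F (fun u v => σ u * σ v) := fun F => OS_add F _ _
  rw [OS_sub_mul, OS_sub_mul, hw A, hw B, hA, hB] at h3
  rw [OS_sub_mul A (fun u v => 1 + σ u * σ v) (fun u v => ZT X Y σ B u v ^ 2),
    OS_sub_mul B (fun u v => 1 + σ u * σ v) (fun u v => ZT X Y σ A u v ^ 2), hw A, hw B] at h2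
  have sq1 : ∀ u, σ u * σ u = 1 := by
    intro u
    rcases hσ u with h | h <;> rw [h] <;> norm_num
  have eA0 : OS A (fun _ _ => 1) = ((2 * L1 + 1) * (2 * L1) : ℤ) := by
    rw [OS_eq]
    simp only [Finset.sum_const, smul_eq_mul, nsmul_eq_mul, mul_one, hA]
    push_cast
    ring
  have eB0 : OS B (fun _ _ => 1) = ((2 * L2 + 1) * (2 * L2) : ℤ) := by
    rw [OS_eq]
    simp only [Finset.sum_const, smul_eq_mul, nsmul_eq_mul, mul_one, hB]
    push_cast
    ring
  have eSA : OS A (fun u v => σ u * σ v) = - (2 * L1 : ℤ) := by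
    rw [OS_prod, hbal]
    simp only [sq1, Finset.sum_const, smul_eq_mul, nsmul_eq_mul, mul_one, hA]
    push_cast
    ring
  have key : (XtS X Y σ A B : ℤ) = 4 * TZ X Y σ A B L1 L2 + 4 * (L1 * L1 * (L2 * L2)) := by
    rw [eA0, eB0, eSA] at h3 h2
    push_cast at h3
    have : 4 * (XtS X Y σ A B : ℤ) = 16 * TZ X Y σ A B L1 L2 + 16 * (L1 * L1 * (L2 * L2)) := by
      rw [h3, h2]
      ring
    linarith
  have : (4 * (L1 * L1 * (L2 * L2)) : ℤ) ≤ XtS X Y σ A B := by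
    rw [key]
    linarith
  exact_mod_cast this

end Cross

end Pairs

end Vale.Agent.Lib.P040
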