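import Vale.Agent.Lib.P040.LMinus

/-!
From the dynamic inequalities to a static inequality for point configurations.
-/

namespace Vale.Agent.Lib.P040

open Finset

variable {α : Type} [DecidableEq α]

/-- The orientation determinant of three points, given by coordinates. -/
def Det (X Y : α → ℝ) (r s q : α) : ℝ :=
  (X s - X r) * (Y q - Y r) - (Y s - Y r) * (X q - X r)

omit [DecidableEq α] in
lemma Det_swap (X Y : α → ℝ) (r s q : α) : Det X Y s r q = - Det X Y r s q := by
  unfold Det; ring

omit [DecidableEq α] in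
lemma Det_left (X Y : α → ℝ) (r s : α) : Det X Y r s r = 0 := by
  unfold Det; ring

omit [DecidableEq α] in
lemma Det_right (X Y : α → ℝ) (r s : α) : Det X Y r s s = 0 := by
  unfold Det; ring

omit [DecidableEq α] in
lemma Det_self (X Y : α → ℝ) (r q : α) : Det X Y r r q = 0 := by
  unfold Det; ring

omit [DecidableEq α] in
lemma Det_cycle (X Y : α → ℝ) (r s q : α) : Det X Y s q r = Det X Y r s q := by
  unfold Det; ring

/-- Number of points of `F` on the negative side of the line from `r` to `s`. -/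
noncomputable def NN (X Y : α → ℝ) (F : Finset α) (r s : α) : ℕ :=
  (F.filter (fun q => Det X Y r s q < 0)).card

/-- Number of points of `F` on the positive side of the line from `r` to `s`. -/
noncomputable def PP (X Y : α → ℝ) (F : Finset α) (r s : α) : ℕ :=
  (F.filter (fun q => 0 < Det X Y r s q)).card

omit [DecidableEq α] in
lemma NN_swap (X Y : α → ℝ) (F : Finset α) (r s : α) : NN X Y F s r = PP X Y F r s := by
  unfold NN PP
  congr 1
  apply Finset.filter_congr
  intro q _
  rw [Det_swap]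
  constructor <;> intro h <;> linarith

omit [DecidableEq α] in
lemma PP_swap (X Y : α → ℝ) (F : Finset α) (r s : α) : PP X Y F s r = NN X Y F r s := by
  unfold NN PP
  congr 1
  apply Finset.filter_congr
  intro q _
  rw [Det_swap]
  constructor <;> intro h <;> linarith

/-- General position, in terms of determinants. -/
def GenPos (X Y : α → ℝ) : Prop := ∀ r s q, r ≠ s → s ≠ q → r ≠ q → Det X Y r s q ≠ 0

lemma NN_add_PP {X Y : α → ℝ} (hgen : GenPos X Y) (F : Finset α) {r s : α} (hrs : r ≠ s) :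
    NN X Y F r s + PP X Y F r s + (if r ∈ F then 1 else 0) + (if s ∈ F then 1 else 0) = F.card := by
  unfold NN PP
  rw [Finset.card_eq_sum_ones, Finset.card_eq_sum_ones, Finset.card_eq_sum_ones,
    Finset.sum_filter, Finset.sum_filter, ← Finset.sum_add_distrib]
  have key : ∀ q ∈ F, (if Det X Y r s q < 0 then 1 else 0) + (if 0 < Det X Y r s q then 1 else 0) =
      1 - (if q = r then 1 else 0) - (if q = s then 1 else 0) := by
    intro q _
    by_cases h1 : q = r
    · subst h1
      simp [Det_left, hrs.symm, hrs]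
    · by_cases h2 : q = s
      · subst h2
        simp [Det_right, hrs.symm, hrs]
      · have h3 := hgen r s q hrs (Ne.symm h2) (Ne.symm h1)
        rcases lt_or_gt_of_ne h3 with h | h
        · simp [h, h1, h2, not_lt.mpr h.le]
        · simp [h, h1, h2, not_lt.mpr h.le]
  rw [Finset.sum_congr rfl key]
  have key2 : ∀ q ∈ F, 1 - (if q = r then 1 else 0) - (if q = s then 1 else 0) + 
      (if q = r then 1 else 0) + (if q = s then 1 else 0) = 1 := by
    intro q _
    by_cases h1 : q = r
    · subst h1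
      simp [hrs]
    · by_cases h2 : q = s
      · subst h2
        simp [h1]
      · simp [h1, h2]
  have e1 : (if r ∈ F then 1 else 0) = ∑ q ∈ F, (if q = r then 1 else 0) := by
    rw [Finset.sum_ite_eq']
  have e2 : (if s ∈ F then 1 else 0) = ∑ q ∈ F, (if q = s then 1 else 0) := by
    rw [Finset.sum_ite_eq']
  rw [e1, e2, ← Finset.sum_add_distrib, ← Finset.sum_add_distrib]
  exact Finset.sum_congr rfl key2

namespace Sweep

variable {β : Type} [Fintype β] [DecidableEq β] {M : ℕ} (S : Sweep β M)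

/-- The sweep is compatible with the orientation determinant. -/
def Bridge (X Y : β → ℝ) : Prop :=
  ∀ t q, q ≠ S.lo t → q ≠ S.hi t → (S.pos t q < S.pos t (S.lo t) ↔ Det X Y (S.lo t) (S.hi t) q < 0)

variable {S} {X Y : β → ℝ}

lemma cnt_lo_eq (hb : S.Bridge X Y) (F : Finset β) (t : ℕ) :
    S.cnt F t (S.lo t) = NN X Y F (S.lo t) (S.hi t) := by
  unfold cnt NN
  congr 1
  apply Finset.filter_congr
  intro q _
  by_cases h1 : q = S.lo t
  · subst h1
    simp [Det_left]
  · by_cases h2 : q = S.hi t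
    · subst h2
      have := S.adj t
      rw [Det_right]
      constructor
      · intro h; omega
      · intro h; exact absurd h (lt_irrefl _)
    · exact hb t q h1 h2

lemma cntA_hi_eq (hb : S.Bridge X Y) (hgen : GenPos X Y) (F : Finset β) (t : ℕ) :
    S.cntA F t (S.hi t) = PP X Y F (S.lo t) (S.hi t) := by
  unfold cntA PP
  congr 1
  apply Finset.filter_congr
  intro q _
  have hadj := S.adj t
  by_cases h1 : q = S.lo t
  · subst h1
    rw [Det_left]
    constructor
    · intro h; omega
    · intro h; exact absurd h (lt_irrefl _)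
  · by_cases h2 : q = S.hi t
    · subst h2
      simp [Det_right]
    · have h3 := hgen _ _ q (S.lo_ne_hi t) (Ne.symm h2) (Ne.symm h1)
      have h4 := hb t q h1 h2
      have h5 : S.pos t q ≠ S.pos t (S.lo t) := fun e => h1 (S.pos_inj t e)
      have h6 : S.pos t q ≠ S.pos t (S.hi t) := fun e => h2 (S.pos_inj t e)
      constructor
      · intro h
        have h7 : ¬ S.pos t q < S.pos t (S.lo t) := by omega
        rw [h4] at h7
        exact lt_of_le_of_ne (not_lt.mp h7) (Ne.symm h3)
      · intro h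
        have h7 : ¬ S.pos t q < S.pos t (S.lo t) := by
          rw [h4]
          exact not_lt.mpr h.le
        omega

end Sweep

section StaticSums

variable {β : Type} [Fintype β] [DecidableEq β] (X Y : β → ℝ) (A B : Finset β) (L1 L2 : ℕ)

/-- The positive weight of an ordered pair. -/
noncomputable def fU (r s : β) : ℕ :=
  (if r ∈ A ∧ s ∈ A ∧ NN X Y A r s < L1 then rho (L2 - NN X Y B r s) else 0) +
  (if r ∈ B ∧ s ∈ B ∧ NN X Y B r s < L2 then rho (L1 - NN X Y A r s) else 0) +
  (if (r ∈ A ∧ s ∈ B) ∨ (r ∈ B ∧ s ∈ A) then Phi L1 L2 (NN X Y A r s) (NN X Y B r s) else 0) +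
  (if r ∈ A ∧ s ∈ A ∧ PP X Y A r s < L1 then rho (L2 - NN X Y B r s) else 0) +
  (if r ∈ B ∧ s ∈ B ∧ NN X Y B r s < L2 then rho (L1 - PP X Y A r s) else 0)

/-- The negative weight of an ordered pair. -/
noncomputable def fV (r s : β) : ℕ :=
  if (r ∈ A ∧ s ∈ B) ∨ (r ∈ B ∧ s ∈ A) then Phi L1 L2 (PP X Y A r s) (NN X Y B r s) else 0

/-- The weight of an element in a pair. -/
noncomputable def cC (r s : β) : ℕ :=
  NN X Y A r s * PP X Y B r s + PP X Y A r s * NN X Y B r s

/-- A combinatorial weight on pairs. -/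
noncomputable def W2 (r s : β) : ℕ :=
  (if r ∈ A ∧ s ∈ A then 2 * (NN X Y B r s * PP X Y B r s) else 0) +
  (if r ∈ B ∧ s ∈ B then 2 * (NN X Y A r s * PP X Y A r s) else 0) +
  (if r ∈ A ∧ s ∈ B then cC X Y A B r s else 0) +
  (if r ∈ B ∧ s ∈ A then cC X Y A B r s else 0)

/-- A constant weight on pairs. -/
def R2 (r s : β) : ℕ :=
  (if r ∈ A ∧ s ∈ A then 2 * (L2 * (L2 + 1)) else 0) +
  (if r ∈ B ∧ s ∈ B then 2 * (L1 * (L1 + 1)) else 0) +
  (if r ∈ A ∧ s ∈ B then 2 * (L1 * L2) else 0) +
  (if r ∈ B ∧ s ∈ A then 2 * (L1 * L2) else 0)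

variable {X Y A B L1 L2}

/-- The static inequality from the two dynamic inequalities. -/
theorem static0 {M : ℕ} (S : Sweep β M) (hb : S.Bridge X Y) (hgen : GenPos X Y)
    (hd : Disjoint A B) (h1 : 2 * L1 ≤ A.card) (h2 : 2 * L2 ≤ B.card) :
    L1 * (L1 + 1) * (L2 * (L2 + 1)) +
        ∑ p ∈ (univ : Finset β).offDiag, fV X Y A B L1 L2 p.1 p.2 ≤
      ∑ p ∈ (univ : Finset β).offDiag, fU X Y A B L1 L2 p.1 p.2 := by
  have hplus := S.Xi_lower _ A B L1 L2 rfl hd h1 h2
  have hminus := S.N_le (L2 := L2) hd h1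
  rw [← S.sum_range_eq_offDiag, ← S.sum_range_eq_offDiag]
  have e1 : ∑ t ∈ range (2 * M), fV X Y A B L1 L2 (S.lo t) (S.hi t) =
      ∑ t ∈ range (2 * M), S.tN A B L1 L2 t := by
    apply Finset.sum_congr rfl
    intro t _
    unfold fV Sweep.tN
    rw [Sweep.cnt_lo_eq hb, Sweep.cntA_hi_eq hb hgen]
  have e2 : ∑ t ∈ range (2 * M), fU X Y A B L1 L2 (S.lo t) (S.hi t) =
      S.Xi A B L1 L2 + ∑ t ∈ range (2 * M), (S.tPa A B L1 L2 t + S.tPb A B L1 L2 t) := by
    unfold Sweep.Xi
    rw [← Finset.sum_add_distrib]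
    apply Finset.sum_congr rfl
    intro t _
    unfold fU Sweep.term Sweep.tAA Sweep.tAB Sweep.tPa Sweep.tPb
    rw [Sweep.cnt_lo_eq hb A, Sweep.cnt_lo_eq hb B, Sweep.cntA_hi_eq hb hgen A]
    ring
  rw [e1, e2]
  omega

lemma rho_pair (L y z : ℕ) (h : y + z = 2 * L + 1) :
    rho (L - y) + rho (L - z) + y * z = L * (L + 1) := by
  rcases Nat.lt_or_ge y (L + 1) with hy | hy
  · obtain ⟨u, rfl⟩ : ∃ u, L = y + u := ⟨L - y, by omega⟩
    have h1 : z = y + 2 * u + 1 := by omega
    subst h1
    have e1 : y + u - y = u := by omega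
    have e2 : y + u - (y + 2 * u + 1) = 0 := by omega
    rw [e1, e2]
    unfold rho
    ring
  · obtain ⟨u, rfl⟩ : ∃ u, L = z + u := ⟨L - z, by omega⟩
    have h1 : y = z + 2 * u + 1 := by omega
    subst h1
    have e1 : z + u - z = u := by omega
    have e2 : z + u - (z + 2 * u + 1) = 0 := by omega
    rw [e1, e2]
    unfold rho
    ring

lemma Phi_flip (L1 L2 x xb y yb : ℕ) (hx : x + xb = 2 * L1) (hy : y + yb = 2 * L2) :
    2 * (Phi L1 L2 x y + Phi L1 L2 xb yb) + (x * yb + xb * y) =
      2 * (Phi L1 L2 xb y + Phi L1 L2 x yb) + 2 * (L1 * L2) := by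
  unfold Phi
  rcases Nat.le_total x L1 with h1 | h1 <;> rcases Nat.le_total y L2 with h2 | h2
  · obtain ⟨u, rfl⟩ : ∃ u, L1 = x + u := ⟨L1 - x, by omega⟩
    obtain ⟨v, rfl⟩ : ∃ v, L2 = y + v := ⟨L2 - y, by omega⟩
    have e1 : xb = x + 2 * u := by omega
    have e2 : yb = y + 2 * v := by omega
    subst e1 e2
    have e3 : x + u - x = u := by omega
    have e4 : x + u - (x + 2 * u) = 0 := by omega
    have e5 : y + v - y = v := by omega
    have e6 : y + v - (y + 2 * v) = 0 := by omega
    rw [e3, e4, e5, e6]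
    ring
  · obtain ⟨u, rfl⟩ : ∃ u, L1 = x + u := ⟨L1 - x, by omega⟩
    obtain ⟨v, rfl⟩ : ∃ v, L2 = yb + v := ⟨L2 - yb, by omega⟩
    have e1 : xb = x + 2 * u := by omega
    have e2 : y = yb + 2 * v := by omega
    subst e1 e2
    have e3 : x + u - x = u := by omega
    have e4 : x + u - (x + 2 * u) = 0 := by omega
    have e5 : yb + v - yb = v := by omega
    have e6 : yb + v - (yb + 2 * v) = 0 := by omega
    rw [e3, e4, e5, e6]
    ring
  · obtain ⟨u, rfl⟩ : ∃ u, L1 = xb + u := ⟨L1 - xb, by omega⟩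
    obtain ⟨v, rfl⟩ : ∃ v, L2 = y + v := ⟨L2 - y, by omega⟩
    have e1 : x = xb + 2 * u := by omega
    have e2 : yb = y + 2 * v := by omega
    subst e1 e2
    have e3 : xb + u - xb = u := by omega
    have e4 : xb + u - (xb + 2 * u) = 0 := by omega
    have e5 : y + v - y = v := by omega
    have e6 : y + v - (y + 2 * v) = 0 := by omega
    rw [e3, e4, e5, e6]
    ring
  · obtain ⟨u, rfl⟩ : ∃ u, L1 = xb + u := ⟨L1 - xb, by omega⟩
    obtain ⟨v, rfl⟩ : ∃ v, L2 = yb + v := ⟨L2 - yb, by omega⟩
    have e1 : x = xb + 2 * u := by omega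
    have e2 : y = yb + 2 * v := by omega
    subst e1 e2
    have e3 : xb + u - xb = u := by omega
    have e4 : xb + u - (xb + 2 * u) = 0 := by omega
    have e5 : yb + v - yb = v := by omega
    have e6 : yb + v - (yb + 2 * v) = 0 := by omega
    rw [e3, e4, e5, e6]
    ring

omit [Fintype β] in
/-- The weights, symmetrized over the two orders of a pair, in the odd case. -/
lemma pair_identity (hgen : GenPos X Y) (hd : Disjoint A B) (hA : A.card = 2 * L1 + 1)
    (hB : B.card = 2 * L2 + 1) {r s : β} (hrs : r ≠ s) :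
    2 * (fU X Y A B L1 L2 r s + fU X Y A B L1 L2 s r) + W2 X Y A B r s =
      2 * (fV X Y A B L1 L2 r s + fV X Y A B L1 L2 s r) + R2 A B L1 L2 r s := by
  have hsumA := NN_add_PP hgen A hrs
  have hsumB := NN_add_PP hgen B hrs
  unfold fU fV W2 R2 cC
  simp only [NN_swap X Y A r s, NN_swap X Y B r s, PP_swap X Y A r s, PP_swap X Y B r s]
  set na := NN X Y A r s
  set pa := PP X Y A r s
  set nb := NN X Y B r s
  set pb := PP X Y B r s
  have hdis : ∀ q, q ∈ A → q ∉ B := fun q h => Finset.disjoint_left.mp hd h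
  have hdis' : ∀ q, q ∈ B → q ∉ A := fun q h e => Finset.disjoint_left.mp hd e h
  by_cases rA : r ∈ A
  · have rB := hdis r rA
    by_cases sA : s ∈ A
    · have sB := hdis s sA
      simp only [rA, rB, sA, sB, if_true, if_false, true_and, false_and, and_false, and_true,
        or_false, false_or, Nat.add_zero, Nat.zero_add] at hsumA hsumB ⊢
      have hr := rho_pair L2 nb pb (by omega)
      by_cases h : na < L1
      · have h' : ¬ pa < L1 := by omega
        simp only [h, h', if_true, if_false, Nat.add_zero, Nat.zero_add]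
        omega
      · have h' : pa < L1 := by omega
        simp only [h, h', if_true, if_false, Nat.add_zero, Nat.zero_add]
        omega
    · by_cases sB : s ∈ B
      · simp only [rA, rB, sA, sB, if_true, if_false, true_and, false_and, and_false, and_true,
          or_false, false_or, Nat.add_zero, Nat.zero_add] at hsumA hsumB ⊢
        have := Phi_flip L1 L2 na pa nb pb (by omega) (by omega)
        omega
      · simp only [rA, rB, sA, sB, if_true, if_false, true_and, false_and, and_false, and_true,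
          or_false, false_or, Nat.add_zero, Nat.zero_add]
  · by_cases rB : r ∈ B
    · by_cases sA : s ∈ A
      · have sB := hdis s sA
        simp only [rA, rB, sA, sB, if_true, if_false, true_and, false_and, and_false, and_true,
          or_false, false_or, or_true, Nat.add_zero, Nat.zero_add] at hsumA hsumB ⊢
        have := Phi_flip L1 L2 na pa nb pb (by omega) (by omega)
        omega
      · by_cases sB : s ∈ B
        · simp only [rA, rB, sA, sB, if_true, if_false, true_and, false_and, and_false, and_true,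
            or_false, false_or, Nat.add_zero, Nat.zero_add] at hsumA hsumB ⊢
          have hr := rho_pair L1 na pa (by omega)
          by_cases h : nb < L2
          · have h' : ¬ pb < L2 := by omega
            simp only [h, h', if_true, if_false, Nat.add_zero, Nat.zero_add]
            omega
          · have h' : pb < L2 := by omega
            simp only [h, h', if_true, if_false, Nat.add_zero, Nat.zero_add]
            omega
        · simp only [rA, rB, sA, sB, if_true, if_false, true_and, false_and, and_false, and_true,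
            or_false, false_or, Nat.add_zero, Nat.zero_add]
    · simp only [rA, rB, if_true, if_false, true_and, false_and, and_false, and_true,
        or_false, false_or, Nat.add_zero, Nat.zero_add]

omit [Fintype β] [DecidableEq β] in
lemma sum_offDiag_swap [DecidableEq β] (F : Finset β) (g : β → β → ℕ) :
    ∑ p ∈ F.offDiag, g p.2 p.1 = ∑ p ∈ F.offDiag, g p.1 p.2 := by
  apply Finset.sum_nbij' Prod.swap Prod.swap
  · intro p hp
    simp only [Finset.mem_offDiag, Prod.fst_swap, Prod.snd_swap] at hp ⊢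
    exact ⟨hp.2.1, hp.1, Ne.symm hp.2.2⟩
  · intro p hp
    simp only [Finset.mem_offDiag, Prod.fst_swap, Prod.snd_swap] at hp ⊢
    exact ⟨hp.2.1, hp.1, Ne.symm hp.2.2⟩
  · intro p _
    simp
  · intro p _
    simp
  · intro p _
    simp

lemma sum_offDiag_same (F : Finset β) (g : β → β → ℕ) :
    ∑ p ∈ (univ : Finset β).offDiag, (if p.1 ∈ F ∧ p.2 ∈ F then g p.1 p.2 else 0) =
      ∑ p ∈ F.offDiag, g p.1 p.2 := by
  rw [← Finset.sum_filter]
  apply Finset.sum_congr _ (fun _ _ => rfl)
  ext p
  simp only [Finset.mem_filter, Finset.mem_offDiag, Finset.mem_univ, true_and]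
  tauto

lemma sum_offDiag_mixed {F G : Finset β} (hd : Disjoint F G) (g : β → β → ℕ) :
    ∑ p ∈ (univ : Finset β).offDiag, (if p.1 ∈ F ∧ p.2 ∈ G then g p.1 p.2 else 0) =
      ∑ a ∈ F, ∑ b ∈ G, g a b := by
  rw [← Finset.sum_filter, ← Finset.sum_product']
  apply Finset.sum_congr _ (fun _ _ => rfl)
  ext p
  simp only [Finset.mem_filter, Finset.mem_offDiag, Finset.mem_univ, true_and, Finset.mem_product]
  constructor
  · rintro ⟨_, h1, h2⟩
    exact ⟨h1, h2⟩
  · rintro ⟨h1, h2⟩
    refine ⟨?_, h1, h2⟩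
    intro e
    exact Finset.disjoint_left.mp hd h1 (e ▸ h2)

omit [Fintype β] [DecidableEq β] in
lemma sum_offDiag_double [DecidableEq β] (F : Finset β) (g : β → β → ℕ) (hg : ∀ a, g a a = 0) :
    ∑ p ∈ F.offDiag, g p.1 p.2 = ∑ a ∈ F, ∑ a' ∈ F, g a a' := by
  rw [← Finset.sum_product']
  apply Finset.sum_subset
  · intro p hp
    simp only [Finset.mem_offDiag] at hp
    exact Finset.mem_product.mpr ⟨hp.1, hp.2.1⟩
  · intro p hp hn
    simp only [Finset.mem_offDiag, not_and, not_not] at hn
    rw [hn (Finset.mem_product.mp hp).1 (Finset.mem_product.mp hp).2, hg]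

omit [Fintype β] [DecidableEq β] in
lemma offDiag_card_odd [DecidableEq β] (F : Finset β) {L : ℕ} (h : F.card = 2 * L + 1) :
    F.offDiag.card = (2 * L + 1) * (2 * L) := by
  rw [Finset.offDiag_card, h]
  apply Nat.sub_eq_of_eq_add
  ring

omit [DecidableEq β] [Fintype β] in
lemma NN_self (F : Finset β) (a : β) : NN X Y F a a = 0 := by
  unfold NN
  rw [Finset.card_eq_zero, Finset.filter_eq_empty_iff]
  intro q _
  rw [Det_self]
  exact lt_irrefl _

omit [DecidableEq β] [Fintype β] in
lemma PP_self (F : Finset β) (a : β) : PP X Y F a a = 0 := by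
  unfold PP
  rw [Finset.card_eq_zero, Finset.filter_eq_empty_iff]
  intro q _
  rw [Det_self]
  exact lt_irrefl _

variable (X Y A B) in
/-- Sum over pairs of the first class. -/
noncomputable def PSa : ℕ := ∑ a ∈ A, ∑ a' ∈ A, NN X Y B a a' * PP X Y B a a'

variable (X Y A B) in
/-- Sum over mixed pairs. -/
noncomputable def SSm : ℕ := ∑ a ∈ A, ∑ b ∈ B, cC X Y A B a b

/-- The main static inequality, odd case. -/
theorem static1 {M : ℕ} (S : Sweep β M) (hb : S.Bridge X Y) (hgen : GenPos X Y)
    (hd : Disjoint A B) (hA : A.card = 2 * L1 + 1) (hB : B.card = 2 * L2 + 1) :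
    4 * (L1 * (L1 + 1) * (L2 * (L2 + 1))) + 2 * PSa X Y A B + 2 * PSa X Y B A + 2 * SSm X Y A B ≤
      (2 * L1 + 1) * (2 * L1) * (2 * (L2 * (L2 + 1))) +
      (2 * L2 + 1) * (2 * L2) * (2 * (L1 * (L1 + 1))) +
      (2 * L1 + 1) * (2 * L2 + 1) * (2 * (L1 * L2)) +
      (2 * L2 + 1) * (2 * L1 + 1) * (2 * (L1 * L2)) := by
  have h0 := static0 S hb hgen hd (L1 := L1) (L2 := L2) (by omega) (by omega)
  have hpt : ∑ p ∈ (univ : Finset β).offDiag,
      (2 * (fU X Y A B L1 L2 p.1 p.2 + fU X Y A B L1 L2 p.2 p.1) + W2 X Y A B p.1 p.2) =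
      ∑ p ∈ (univ : Finset β).offDiag,
      (2 * (fV X Y A B L1 L2 p.1 p.2 + fV X Y A B L1 L2 p.2 p.1) + R2 A B L1 L2 p.1 p.2) := by
    apply Finset.sum_congr rfl
    intro p hp
    exact pair_identity hgen hd hA hB (Finset.mem_offDiag.mp hp).2.2
  simp only [Finset.sum_add_distrib, ← Finset.mul_sum] at hpt
  rw [sum_offDiag_swap, sum_offDiag_swap] at hpt
  have hW : ∑ p ∈ (univ : Finset β).offDiag, W2 X Y A B p.1 p.2 =
      2 * PSa X Y A B + 2 * PSa X Y B A + 2 * SSm X Y A B := by
    unfold W2 PSa SSm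
    simp only [Finset.sum_add_distrib]
    rw [sum_offDiag_same A (fun r s => 2 * (NN X Y B r s * PP X Y B r s)),
      sum_offDiag_same B (fun r s => 2 * (NN X Y A r s * PP X Y A r s)),
      sum_offDiag_mixed hd (cC X Y A B), sum_offDiag_mixed hd.symm (cC X Y A B),
      sum_offDiag_double A (fun r s => 2 * (NN X Y B r s * PP X Y B r s))
        (fun a => by simp [NN_self]),
      sum_offDiag_double B (fun r s => 2 * (NN X Y A r s * PP X Y A r s))
        (fun a => by simp [NN_self])]
    have e1 : ∑ a ∈ B, ∑ b ∈ A, cC X Y A B a b = ∑ a ∈ A, ∑ b ∈ B, cC X Y A B a b := by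
      rw [Finset.sum_comm]
      apply Finset.sum_congr rfl
      intro a _
      apply Finset.sum_congr rfl
      intro b _
      unfold cC
      rw [NN_swap X Y A a b, PP_swap X Y B a b, PP_swap X Y A a b, NN_swap X Y B a b]
      ring
    rw [e1]
    simp only [← Finset.mul_sum]
    ring
  have hR : ∑ p ∈ (univ : Finset β).offDiag, R2 A B L1 L2 p.1 p.2 =
      (2 * L1 + 1) * (2 * L1) * (2 * (L2 * (L2 + 1))) +
      (2 * L2 + 1) * (2 * L2) * (2 * (L1 * (L1 + 1))) +
      (2 * L1 + 1) * (2 * L2 + 1) * (2 * (L1 * L2)) +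
      (2 * L2 + 1) * (2 * L1 + 1) * (2 * (L1 * L2)) := by
    unfold R2
    simp only [Finset.sum_add_distrib]
    rw [sum_offDiag_same A (fun _ _ => 2 * (L2 * (L2 + 1))),
      sum_offDiag_same B (fun _ _ => 2 * (L1 * (L1 + 1))),
      sum_offDiag_mixed hd (fun _ _ => 2 * (L1 * L2)),
      sum_offDiag_mixed hd.symm (fun _ _ => 2 * (L1 * L2))]
    simp only [Finset.sum_const, smul_eq_mul]
    rw [offDiag_card_odd A hA, offDiag_card_odd B hB, hA, hB]
    ring
  rw [hW, hR] at hpt
  omega

end StaticSums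

end Vale.Agent.Lib.P040
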