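import Mathlib

/-!
Abstract sweeps (allowable sequences).  A sweep records, at every integer time, a linear
order of a finite set; from one time to the next, two adjacent elements exchange places;
after `M` steps the order is reversed, and in a time window shorter than `M` a pair exchanges
at most once.
-/

namespace Vale.Agent.Lib.P040

open Finset

/-- A sequence of linear orders, consecutive ones differing by an adjacent exchange. -/
structure PreSweep (α : Type) where
  /-- position at a given time -/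
  pos : ℕ → α → ℕ
  /-- the element that moves up at a given time -/
  lo : ℕ → α
  /-- the element that moves down at a given time -/
  hi : ℕ → α
  pos_inj : ∀ i, Function.Injective (pos i)
  adj : ∀ i, pos i (hi i) = pos i (lo i) + 1
  next_lo : ∀ i, pos (i + 1) (lo i) = pos i (hi i)
  next_hi : ∀ i, pos (i + 1) (hi i) = pos i (lo i)
  next_other : ∀ i q, q ≠ lo i → q ≠ hi i → pos (i + 1) q = pos i q

/-- An abstract sweep with half period `M`. -/
structure Sweep (α : Type) [Fintype α] (M : ℕ) extends PreSweep α where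
  anti : ∀ i q, pos (i + M) q + pos i q + 1 = Fintype.card α
  lo_add : ∀ i, lo (i + M) = hi i
  hi_add : ∀ i, hi (i + M) = lo i
  conv : ∀ r s i j k, i ≤ j → j ≤ k → k < i + M →
    pos i r < pos i s → pos k r < pos k s → pos j r < pos j s

/-- Difference of natural numbers, as a natural number. -/
def adiff (u v : ℕ) : ℕ := (u - v) + (v - u)

lemma adiff_comm (u v : ℕ) : adiff u v = adiff v u := by unfold adiff; omega

lemma adiff_tri (u v w : ℕ) : adiff u w ≤ adiff u v + adiff v w := by unfold adiff; omega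

lemma adiff_self (u : ℕ) : adiff u u = 0 := by unfold adiff; omega

/-- Total variation bounds the net change. -/
lemma adiff_le_sum_Ico (f : ℕ → ℕ) (a b : ℕ) (h : a ≤ b) :
    adiff (f a) (f b) ≤ ∑ t ∈ Ico a b, adiff (f t) (f (t + 1)) := by
  induction b, h using Nat.le_induction with
  | base => simp [adiff_self]
  | succ b hb ih =>
    rw [Finset.sum_Ico_succ_top hb]
    exact (adiff_tri _ (f b) _).trans (Nat.add_le_add_right ih _)

/-- `z (z+1)` -/
def rho (z : ℕ) : ℕ := z * (z + 1)

/-- `(L1 - x) (L2 - y)` -/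
def Phi (L1 L2 x y : ℕ) : ℕ := (L1 - x) * (L2 - y)

/-- `(L1 - x) rho (L2 - y)` -/
def Theta (L1 L2 x y : ℕ) : ℕ := (L1 - x) * rho (L2 - y)

lemma adiff_mul_right (a b c : ℕ) : adiff (a * c) (b * c) = adiff a b * c := by
  unfold adiff
  rw [Nat.add_mul, Nat.sub_mul, Nat.sub_mul]

lemma adiff_mul_left (a b c : ℕ) : adiff (c * a) (c * b) = c * adiff a b := by
  rw [Nat.mul_comm c a, Nat.mul_comm c b, adiff_mul_right, Nat.mul_comm]

lemma adiff_sub_succ (L x : ℕ) : adiff (L - x) (L - (x + 1)) = if x < L then 1 else 0 := by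
  unfold adiff; split_ifs <;> omega

lemma adiff_rho_succ (L y : ℕ) : adiff (rho (L - y)) (rho (L - (y + 1))) = 2 * (L - y) := by
  by_cases h : y < L
  · obtain ⟨z, hz⟩ : ∃ z, L - y = z + 1 := ⟨L - y - 1, by omega⟩
    have h2 : L - (y + 1) = z := by omega
    rw [hz, h2]
    unfold adiff rho
    have : (z + 1) * (z + 1 + 1) = z * (z + 1) + 2 * (z + 1) := by ring
    omega
  · have h1 : L - y = 0 := by omega
    have h2 : L - (y + 1) = 0 := by omega
    rw [h1, h2]; simp [adiff_self]

lemma adiff_Phi_x (L1 L2 x y : ℕ) :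
    adiff (Phi L1 L2 x y) (Phi L1 L2 (x + 1) y) = if x < L1 then L2 - y else 0 := by
  unfold Phi
  rw [adiff_mul_right, adiff_sub_succ]
  split_ifs <;> simp

lemma adiff_Phi_y (L1 L2 x y : ℕ) :
    adiff (Phi L1 L2 x y) (Phi L1 L2 x (y + 1)) = if y < L2 then L1 - x else 0 := by
  unfold Phi
  rw [adiff_mul_left, adiff_sub_succ]
  split_ifs <;> simp

lemma adiff_Theta_x (L1 L2 x y : ℕ) :
    adiff (Theta L1 L2 x y) (Theta L1 L2 (x + 1) y) = if x < L1 then rho (L2 - y) else 0 := by
  unfold Theta
  rw [adiff_mul_right, adiff_sub_succ]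
  split_ifs <;> simp

lemma adiff_Theta_y (L1 L2 x y : ℕ) :
    adiff (Theta L1 L2 x y) (Theta L1 L2 x (y + 1)) = 2 * Phi L1 L2 x y := by
  unfold Theta Phi
  rw [adiff_mul_left, adiff_rho_succ]
  ring

namespace PreSweep

variable {α : Type} (S : PreSweep α)

lemma lo_ne_hi (i : ℕ) : S.lo i ≠ S.hi i := by
  intro h
  have := S.adj i
  rw [← h] at this
  omega

lemma pos_lt (i : ℕ) : S.pos i (S.lo i) < S.pos i (S.hi i) := by
  have := S.adj i; omega

lemma pos_next_lt (i : ℕ) : S.pos (i + 1) (S.hi i) < S.pos (i + 1) (S.lo i) := by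
  rw [S.next_lo, S.next_hi]; exact S.pos_lt i

lemma pos_ne_lo {i : ℕ} {q : α} (h : q ≠ S.lo i) : S.pos i q ≠ S.pos i (S.lo i) :=
  fun e => h (S.pos_inj i e)

lemma pos_ne_hi {i : ℕ} {q : α} (h : q ≠ S.hi i) : S.pos i q ≠ S.pos i (S.hi i) :=
  fun e => h (S.pos_inj i e)

/-- A swap does not change the relative order with a third element. -/
lemma next_lt_iff_of_ne (i : ℕ) {q : α} (h1 : q ≠ S.lo i) (h2 : q ≠ S.hi i) (r : α) :
    S.pos (i + 1) r < S.pos (i + 1) q ↔ S.pos i r < S.pos i q := by
  rw [S.next_other i q h1 h2]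
  have a1 := S.pos_ne_lo h1
  have a2 := S.pos_ne_hi h2
  have a3 := S.adj i
  by_cases hr1 : r = S.lo i
  · subst hr1; rw [S.next_lo]; omega
  · by_cases hr2 : r = S.hi i
    · subst hr2; rw [S.next_hi]; omega
    · rw [S.next_other i r hr1 hr2]

lemma next_gt_iff_of_ne (i : ℕ) {q : α} (h1 : q ≠ S.lo i) (h2 : q ≠ S.hi i) (r : α) :
    S.pos (i + 1) q < S.pos (i + 1) r ↔ S.pos i q < S.pos i r := by
  rw [S.next_other i q h1 h2]
  have a1 := S.pos_ne_lo h1
  have a2 := S.pos_ne_hi h2
  have a3 := S.adj i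
  by_cases hr1 : r = S.lo i
  · subst hr1; rw [S.next_lo]; omega
  · by_cases hr2 : r = S.hi i
    · subst hr2; rw [S.next_hi]; omega
    · rw [S.next_other i r hr1 hr2]

/-- If the order of `r, s` changes between two consecutive times, then they are the swapped pair. -/
lemma swap_of_flip (i : ℕ) {r s : α} (h1 : S.pos i r < S.pos i s)
    (h2 : S.pos (i + 1) s < S.pos (i + 1) r) : S.lo i = r ∧ S.hi i = s := by
  have hadj := S.adj i
  have hrs : r ≠ s := by rintro rfl; omega
  by_cases hr1 : r = S.lo i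
  · subst hr1
    refine ⟨rfl, ?_⟩
    by_contra hs
    have hs2 : s ≠ S.lo i := fun e => hrs e.symm
    have hs3 : s ≠ S.hi i := fun e => hs e.symm
    rw [S.next_other i s hs2 hs3, S.next_lo] at h2
    have := S.pos_ne_hi hs3
    omega
  · by_cases hr2 : r = S.hi i
    · subst hr2
      exfalso
      rw [S.next_hi] at h2
      by_cases hs1 : s = S.lo i
      · subst hs1; omega
      · rw [S.next_other i s hs1 hrs.symm] at h2
        omega
    · exfalso
      have := (S.next_lt_iff_of_ne i hr1 hr2 s)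
      have h3 := this.mpr
      have := (S.next_gt_iff_of_ne i hr1 hr2 s).mpr h1
      omega

/-- A change of relative order is realized by a swap. -/
lemma exists_flip {a b : ℕ} (hab : a ≤ b) {r s : α} (h1 : S.pos a r < S.pos a s)
    (h2 : S.pos b s < S.pos b r) : ∃ t, a ≤ t ∧ t < b ∧ S.lo t = r ∧ S.hi t = s := by
  induction b, hab using Nat.le_induction with
  | base => omega
  | succ b hb ih =>
    by_cases h3 : S.pos b s < S.pos b r
    · obtain ⟨t, h4, h5, h6⟩ := ih h3
      exact ⟨t, h4, by omega, h6⟩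
    · have h4 : S.pos b r < S.pos b s := by
        have hne : S.pos b r ≠ S.pos b s := fun e => by
          have := S.pos_inj b e
          subst this
          omega
        omega
      obtain ⟨h5, h6⟩ := S.swap_of_flip b h4 h2
      exact ⟨b, hb, by omega, h5, h6⟩

end PreSweep

namespace Sweep

variable {α : Type} [Fintype α] {M : ℕ} (S : Sweep α M)

lemma add_M_lt_iff (i : ℕ) (r s : α) :
    S.pos (i + M) r < S.pos (i + M) s ↔ S.pos i s < S.pos i r := by
  have h1 := S.anti i r
  have h2 := S.anti i s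
  omega

lemma pos_add_two_M (i : ℕ) (q : α) : S.pos (i + 2 * M) q = S.pos i q := by
  have h1 := S.anti i q
  have h2 := S.anti (i + M) q
  have h3 : i + M + M = i + 2 * M := by ring
  rw [h3] at h2
  omega

lemma lo_add_two_M (i : ℕ) : S.lo (i + 2 * M) = S.lo i := by
  have h3 : i + 2 * M = i + M + M := by ring
  rw [h3, S.lo_add, S.hi_add]

lemma hi_add_two_M (i : ℕ) : S.hi (i + 2 * M) = S.hi i := by
  have h3 : i + 2 * M = i + M + M := by ring
  rw [h3, S.hi_add, S.lo_add]

/-- Counting elements of `F` placed before `q`. -/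
def cnt (F : Finset α) (i : ℕ) (q : α) : ℕ := (F.filter (fun r => S.pos i r < S.pos i q)).card

/-- Counting elements of `F` placed after `q`. -/
def cntA (F : Finset α) (i : ℕ) (q : α) : ℕ := (F.filter (fun r => S.pos i q < S.pos i r)).card

lemma cnt_next_of_ne (F : Finset α) (i : ℕ) {q : α} (h1 : q ≠ S.lo i) (h2 : q ≠ S.hi i) :
    S.cnt F (i + 1) q = S.cnt F i q := by
  unfold cnt
  congr 1
  apply Finset.filter_congr
  intro r _
  exact S.next_lt_iff_of_ne i h1 h2 r

lemma cntA_next_of_ne (F : Finset α) (i : ℕ) {q : α} (h1 : q ≠ S.lo i) (h2 : q ≠ S.hi i) :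
    S.cntA F (i + 1) q = S.cntA F i q := by
  unfold cntA
  congr 1
  apply Finset.filter_congr
  intro r _
  exact S.next_gt_iff_of_ne i h1 h2 r

lemma cnt_add_M (F : Finset α) (i : ℕ) (q : α) : S.cnt F (i + M) q = S.cntA F i q := by
  unfold cnt cntA
  congr 1
  apply Finset.filter_congr
  intro r _
  exact S.add_M_lt_iff i r q

lemma cntA_add_M (F : Finset α) (i : ℕ) (q : α) : S.cntA F (i + M) q = S.cnt F i q := by
  unfold cnt cntA
  congr 1
  apply Finset.filter_congr
  intro r _
  exact S.add_M_lt_iff i q r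

lemma cnt_add_two_M (F : Finset α) (i : ℕ) (q : α) : S.cnt F (i + 2 * M) q = S.cnt F i q := by
  unfold cnt
  congr 1
  apply Finset.filter_congr
  intro r _
  rw [S.pos_add_two_M, S.pos_add_two_M]

lemma cntA_add_two_M (F : Finset α) (i : ℕ) (q : α) : S.cntA F (i + 2 * M) q = S.cntA F i q := by
  unfold cntA
  congr 1
  apply Finset.filter_congr
  intro r _
  rw [S.pos_add_two_M, S.pos_add_two_M]

variable [DecidableEq α]

lemma cnt_add_cntA (F : Finset α) (i : ℕ) (q : α) :
    S.cnt F i q + S.cntA F i q + (if q ∈ F then 1 else 0) = F.card := by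
  unfold cnt cntA
  have hdisj : Disjoint (F.filter (fun r => S.pos i r < S.pos i q))
      (F.filter (fun r => S.pos i q < S.pos i r)) := by
    rw [Finset.disjoint_left]
    intro r hr hr'
    simp only [Finset.mem_filter] at hr hr'
    omega
  rw [← Finset.card_union_of_disjoint hdisj]
  by_cases hq : q ∈ F
  · rw [if_pos hq]
    have hn : q ∉ (F.filter (fun r => S.pos i r < S.pos i q)) ∪
        (F.filter (fun r => S.pos i q < S.pos i r)) := by
      simp
    rw [← Finset.card_insert_of_notMem hn]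
    congr 1
    ext r
    simp only [Finset.mem_insert, Finset.mem_union, Finset.mem_filter]
    constructor
    · rintro (rfl | ⟨h, _⟩ | ⟨h, _⟩)
      · exact hq
      · exact h
      · exact h
    · intro hr
      by_cases hrq : r = q
      · exact Or.inl hrq
      · have : S.pos i r ≠ S.pos i q := fun e => hrq (S.pos_inj i e)
        rcases lt_or_gt_of_ne this with h | h
        · exact Or.inr (Or.inl ⟨hr, h⟩)
        · exact Or.inr (Or.inr ⟨hr, h⟩)
  · rw [if_neg hq, Nat.add_zero]
    congr 1
    ext r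
    simp only [Finset.mem_union, Finset.mem_filter]
    constructor
    · rintro (⟨h, _⟩ | ⟨h, _⟩)
      · exact h
      · exact h
    · intro hr
      have hrq : r ≠ q := fun e => hq (e ▸ hr)
      have : S.pos i r ≠ S.pos i q := fun e => hrq (S.pos_inj i e)
      rcases lt_or_gt_of_ne this with h | h
      · exact Or.inl ⟨hr, h⟩
      · exact Or.inr ⟨hr, h⟩

/-- The count before `hi` from the count before `lo`. -/
lemma cnt_hi (F : Finset α) (i : ℕ) :
    S.cnt F i (S.hi i) = S.cnt F i (S.lo i) + (if S.lo i ∈ F then 1 else 0) := by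
  unfold cnt
  have hadj := S.adj i
  by_cases hF : S.lo i ∈ F
  · rw [if_pos hF]
    have hn : S.lo i ∉ F.filter (fun r => S.pos i r < S.pos i (S.lo i)) := by simp
    rw [← Finset.card_insert_of_notMem hn]
    congr 1
    ext r
    simp only [Finset.mem_filter, Finset.mem_insert]
    constructor
    · rintro ⟨h1, h2⟩
      by_cases hr : r = S.lo i
      · exact Or.inl hr
      · have := S.pos_ne_lo hr
        exact Or.inr ⟨h1, by omega⟩
    · rintro (rfl | ⟨h1, h2⟩)
      · exact ⟨hF, by omega⟩
      · exact ⟨h1, by omega⟩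
  · rw [if_neg hF, Nat.add_zero]
    congr 1
    apply Finset.filter_congr
    intro r hr
    have hne : r ≠ S.lo i := fun e => hF (e ▸ hr)
    have := S.pos_ne_lo hne
    omega

lemma cntA_lo (F : Finset α) (i : ℕ) :
    S.cntA F i (S.lo i) = S.cntA F i (S.hi i) + (if S.hi i ∈ F then 1 else 0) := by
  unfold cntA
  have hadj := S.adj i
  by_cases hF : S.hi i ∈ F
  · rw [if_pos hF]
    have hn : S.hi i ∉ F.filter (fun r => S.pos i (S.hi i) < S.pos i r) := by simp
    rw [← Finset.card_insert_of_notMem hn]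
    congr 1
    ext r
    simp only [Finset.mem_filter, Finset.mem_insert]
    constructor
    · rintro ⟨h1, h2⟩
      by_cases hr : r = S.hi i
      · exact Or.inl hr
      · have := S.pos_ne_hi hr
        exact Or.inr ⟨h1, by omega⟩
    · rintro (rfl | ⟨h1, h2⟩)
      · exact ⟨hF, by omega⟩
      · exact ⟨h1, by omega⟩
  · rw [if_neg hF, Nat.add_zero]
    congr 1
    apply Finset.filter_congr
    intro r hr
    have hne : r ≠ S.hi i := fun e => hF (e ▸ hr)
    have := S.pos_ne_hi hne
    omega

lemma cnt_next_hi (F : Finset α) (i : ℕ) : S.cnt F (i + 1) (S.hi i) = S.cnt F i (S.lo i) := by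
  unfold cnt
  congr 1
  apply Finset.filter_congr
  intro r _
  rw [S.next_hi]
  have hadj := S.adj i
  by_cases hr1 : r = S.lo i
  · subst hr1; rw [S.next_lo]; omega
  · by_cases hr2 : r = S.hi i
    · subst hr2; rw [S.next_hi]; omega
    · rw [S.next_other i r hr1 hr2]

lemma cnt_next_lo (F : Finset α) (i : ℕ) :
    S.cnt F (i + 1) (S.lo i) = S.cnt F i (S.lo i) + (if S.hi i ∈ F then 1 else 0) := by
  have h1 : S.cnt F (i + 1) (S.lo i) = S.cnt F i (S.hi i) - (if S.lo i ∈ F then 1 else 0)
      + (if S.hi i ∈ F then 1 else 0) := by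
    unfold cnt
    have hadj := S.adj i
    by_cases hF : S.hi i ∈ F
    · rw [if_pos hF]
      have hn : S.hi i ∉ F.filter (fun r => S.pos i r < S.pos i (S.lo i)) := by
        simp only [Finset.mem_filter, not_and, not_lt]
        intro _
        omega
      have key : F.filter (fun r => S.pos (i + 1) r < S.pos (i + 1) (S.lo i))
          = insert (S.hi i) (F.filter (fun r => S.pos i r < S.pos i (S.lo i))) := by
        ext r
        simp only [Finset.mem_filter, Finset.mem_insert]
        rw [S.next_lo]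
        constructor
        · rintro ⟨h1, h2⟩
          by_cases hr1 : r = S.lo i
          · subst hr1; rw [S.next_lo] at h2; omega
          · by_cases hr2 : r = S.hi i
            · exact Or.inl hr2
            · rw [S.next_other i r hr1 hr2] at h2
              have := S.pos_ne_lo hr1
              exact Or.inr ⟨h1, by omega⟩
        · rintro (rfl | ⟨h1, h2⟩)
          · rw [S.next_hi]; exact ⟨hF, by omega⟩
          · have hr1 : r ≠ S.lo i := by rintro rfl; omega
            have hr2 : r ≠ S.hi i := by rintro rfl; omega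
            rw [S.next_other i r hr1 hr2]
            exact ⟨h1, by omega⟩
      rw [key, Finset.card_insert_of_notMem hn]
      have h3 := S.cnt_hi F i
      unfold cnt at h3
      rw [h3]
      congr 1
      split_ifs <;> omega
    · rw [if_neg hF, Nat.add_zero]
      have h3 := S.cnt_hi F i
      unfold cnt at h3
      rw [h3, Nat.add_sub_cancel]
      congr 1
      apply Finset.filter_congr
      intro r hr
      rw [S.next_lo]
      have hr2 : r ≠ S.hi i := fun e => hF (e ▸ hr)
      by_cases hr1 : r = S.lo i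
      · subst hr1; rw [S.next_lo]; omega
      · rw [S.next_other i r hr1 hr2]
        have := S.pos_ne_lo hr1
        have := S.pos_ne_hi hr2
        omega
  rw [h1, S.cnt_hi]
  simp

lemma cntA_next_lo (F : Finset α) (i : ℕ) : S.cntA F (i + 1) (S.lo i) = S.cntA F i (S.hi i) := by
  unfold cntA
  congr 1
  apply Finset.filter_congr
  intro r _
  rw [S.next_lo]
  have hadj := S.adj i
  by_cases hr1 : r = S.lo i
  · subst hr1; rw [S.next_lo]; omega
  · by_cases hr2 : r = S.hi i
    · subst hr2; rw [S.next_hi]; omega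
    · rw [S.next_other i r hr1 hr2]

lemma cntA_next_hi (F : Finset α) (i : ℕ) :
    S.cntA F (i + 1) (S.hi i) = S.cntA F i (S.hi i) + (if S.lo i ∈ F then 1 else 0) := by
  have e1 := S.cnt_add_cntA F (i + 1) (S.hi i)
  have e2 := S.cnt_add_cntA F i (S.hi i)
  have e3 := S.cnt_next_hi F i
  have e4 := S.cnt_hi F i
  split_ifs at * <;> omega

omit [DecidableEq α] in
/-- Every ordered pair of distinct elements is swapped in a full period. -/
lemma exists_time {r s : α} (hrs : r ≠ s) : ∃ t, t < 2 * M ∧ S.lo t = r ∧ S.hi t = s := by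
  have hne : S.pos 0 r ≠ S.pos 0 s := fun e => hrs (S.pos_inj 0 e)
  rcases lt_or_gt_of_ne hne with h | h
  · have h2 := (S.add_M_lt_iff 0 s r).mpr h
    rw [Nat.zero_add] at h2
    obtain ⟨t, _, h5, h6⟩ := S.exists_flip (Nat.zero_le M) h h2
    exact ⟨t, by omega, h6⟩
  · have h2 := (S.add_M_lt_iff 0 r s).mpr h
    rw [Nat.zero_add] at h2
    have h3 : S.pos (2 * M) s < S.pos (2 * M) r := by
      have e1 := S.pos_add_two_M 0 s
      have e2 := S.pos_add_two_M 0 r
      rw [Nat.zero_add] at e1 e2
      rw [e1, e2]; exact h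
    obtain ⟨t, _, h5, h6⟩ := S.exists_flip (by omega : M ≤ 2 * M) h2 h3
    exact ⟨t, by omega, h6⟩

omit [DecidableEq α] in
/-- A swap is not repeated within a time shorter than a full period. -/
lemma no_repeat {u v : ℕ} (huv : u < v) (hv : v < u + 2 * M) (e1 : S.lo u = S.lo v)
    (e2 : S.hi u = S.hi v) : False := by
  have f1 := S.pos_next_lt u
  have f2 := S.pos_lt v
  have f3 := S.pos_next_lt v
  rw [← e1, ← e2] at f2 f3
  rcases Nat.lt_trichotomy v (u + M) with h | h | h
  · have := S.conv (S.hi u) (S.lo u) (u + 1) v (v + 1) (by omega) (by omega) (by omega) f1 f3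
    omega
  · have e3 := S.lo_add u
    rw [← h, ← e1] at e3
    exact S.lo_ne_hi u e3
  · -- the time `u + M` and the time `u + 2 M`
    have f4 := S.pos_next_lt (u + M)
    rw [S.lo_add, S.hi_add] at f4
    have f5 := S.pos_lt (u + 2 * M)
    rw [S.lo_add_two_M, S.hi_add_two_M] at f5
    have := S.conv (S.lo u) (S.hi u) (u + M + 1) (v + 1) (u + 2 * M) (by omega) (by omega)
      (by omega) f4 f5
    omega

omit [DecidableEq α] in
/-- A pair is swapped in a given direction at most once in a full period. -/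
lemma time_unique {t t' : ℕ} (ht : t < 2 * M) (ht' : t' < 2 * M)
    (h1 : S.lo t = S.lo t') (h2 : S.hi t = S.hi t') : t = t' := by
  rcases Nat.lt_trichotomy t t' with h | h | h
  · exact (S.no_repeat h (by omega) h1 h2).elim
  · exact h
  · exact (S.no_repeat h (by omega) h1.symm h2.symm).elim

omit [DecidableEq α] in
include S in
lemma M_ne_zero (τ : ℕ) : M ≠ 0 := by
  intro h
  subst h
  have e := S.lo_add τ
  rw [Nat.add_zero] at e
  exact S.lo_ne_hi τ e

omit [DecidableEq α] in
/-- A sum over one full period equals the sum over all ordered pairs of distinct elements. -/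
lemma sum_range_eq_offDiag {β : Type} [AddCommMonoid β] (f : α → α → β) :
    ∑ t ∈ range (2 * M), f (S.lo t) (S.hi t) = ∑ p ∈ (univ : Finset α).offDiag, f p.1 p.2 := by
  apply Finset.sum_bij (fun t _ => (S.lo t, S.hi t))
  · intro t _
    simp only [Finset.mem_offDiag, Finset.mem_univ, true_and]
    exact S.lo_ne_hi t
  · intro t ht t' ht' e
    simp only [Prod.mk.injEq] at e
    exact S.time_unique (Finset.mem_range.mp ht) (Finset.mem_range.mp ht') e.1 e.2
  · intro p hp
    simp only [Finset.mem_offDiag, Finset.mem_univ, true_and] at hp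
    obtain ⟨t, h1, h2, h3⟩ := S.exists_time hp
    exact ⟨t, Finset.mem_range.mpr h1, by simp [h2, h3]⟩
  · intro t _
    rfl

/-- Sum of a periodic function over a shifted period. -/
lemma sum_shift_period (h : ℕ → ℕ) (hp : ∀ t, h (t + 2 * M) = h t) (c : ℕ) :
    ∑ t ∈ Ico c (c + 2 * M), h t = ∑ t ∈ range (2 * M), h t := by
  by_cases hM : M = 0
  · subst hM
    simp
  induction c with
  | zero => rw [Nat.zero_add, Finset.range_eq_Ico]
  | succ c ih =>
    rw [← ih]
    have h1 : c + 1 + 2 * M = c + 2 * M + 1 := by ring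
    rw [h1, Finset.sum_Ico_succ_top (by omega), hp,
      Finset.sum_eq_sum_Ico_succ_bot (by omega : c < c + 2 * M)]
    ring

/-- The sum of a periodic function restricted to the two swaps of a pair. -/
lemma pair_sum (f : ℕ → ℕ) (hf : ∀ t, f (t + 2 * M) = f t) (τ : ℕ) :
    ∑ t ∈ range (2 * M), (if (S.lo t = S.lo τ ∧ S.hi t = S.hi τ) ∨
      (S.lo t = S.hi τ ∧ S.hi t = S.lo τ) then f t else 0) = f τ + f (τ + M) := by
  have hM := S.M_ne_zero τ
  rw [← sum_shift_period (M := M) _ (fun t => by rw [S.lo_add_two_M, S.hi_add_two_M, hf]) τ]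
  rw [Finset.sum_eq_add_of_mem τ (τ + M)
    (Finset.mem_Ico.mpr ⟨le_refl _, by omega⟩) (Finset.mem_Ico.mpr ⟨by omega, by omega⟩)
    (by omega)]
  · rw [if_pos (Or.inl ⟨rfl, rfl⟩), if_pos (Or.inr ⟨S.lo_add τ, S.hi_add τ⟩)]
  · intro c hc hne
    obtain ⟨hc1, hc2⟩ := Finset.mem_Ico.mp hc
    rw [if_neg]
    rintro (⟨e1, e2⟩ | ⟨e1, e2⟩)
    · exact S.no_repeat (u := τ) (v := c) (by omega) hc2 e1.symm e2.symm
    · rw [← S.lo_add τ] at e1
      rw [← S.hi_add τ] at e2
      rcases Nat.lt_or_gt_of_ne hne.2 with h | h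
      · exact S.no_repeat (u := c) (v := τ + M) h (by omega) e1 e2
      · exact S.no_repeat (u := τ + M) (v := c) h (by omega) e1.symm e2.symm

omit [DecidableEq α] in
/-- A function of the time changes from `τ + 1` to `τ + M` while `b` is before `a`. -/
lemma flip_bound (F : ℕ → ℕ) (hF : ∀ t, F (t + 2 * M) = F t) {a b : α} {τ : ℕ}
    (h1 : S.lo τ = a) (h2 : S.hi τ = b) :
    adiff (F (τ + 1)) (F (τ + M)) ≤ ∑ t ∈ range (2 * M),
      (if S.pos t b < S.pos t a ∧ S.pos (t + 1) b < S.pos (t + 1) a then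
        adiff (F t) (F (t + 1)) else 0) := by
  classical
  have hM := S.M_ne_zero τ
  have hper : ∀ t, (if S.pos (t + 2 * M) b < S.pos (t + 2 * M) a ∧
        S.pos (t + 2 * M + 1) b < S.pos (t + 2 * M + 1) a then
        adiff (F (t + 2 * M)) (F (t + 2 * M + 1)) else 0) =
      (if S.pos t b < S.pos t a ∧ S.pos (t + 1) b < S.pos (t + 1) a then
        adiff (F t) (F (t + 1)) else 0) := by
    intro t
    have e : t + 2 * M + 1 = t + 1 + 2 * M := by ring
    rw [e, S.pos_add_two_M, S.pos_add_two_M, S.pos_add_two_M, S.pos_add_two_M, hF, hF]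
  rw [← sum_shift_period (M := M) _ hper τ]
  have h3 : S.pos (τ + 1) b < S.pos (τ + 1) a := by
    have := S.pos_next_lt τ
    rwa [h1, h2] at this
  have h4 : S.pos (τ + M) b < S.pos (τ + M) a := by
    have := S.pos_lt (τ + M)
    rwa [S.lo_add, S.hi_add, h1, h2] at this
  have hconv : ∀ t, τ + 1 ≤ t → t ≤ τ + M → S.pos t b < S.pos t a := by
    intro t ht1 ht2
    exact S.conv b a (τ + 1) t (τ + M) ht1 ht2 (by omega) h3 h4
  calc adiff (F (τ + 1)) (F (τ + M))
      ≤ ∑ t ∈ Ico (τ + 1) (τ + M), adiff (F t) (F (t + 1)) :=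
        adiff_le_sum_Ico F _ _ (by omega)
    _ = ∑ t ∈ Ico (τ + 1) (τ + M),
        (if S.pos t b < S.pos t a ∧ S.pos (t + 1) b < S.pos (t + 1) a then
          adiff (F t) (F (t + 1)) else 0) := by
        apply Finset.sum_congr rfl
        intro t ht
        obtain ⟨ht1, ht2⟩ := Finset.mem_Ico.mp ht
        rw [if_pos ⟨hconv t ht1 (by omega), hconv (t + 1) (by omega) (by omega)⟩]
    _ ≤ ∑ t ∈ Ico τ (τ + 2 * M),
        (if S.pos t b < S.pos t a ∧ S.pos (t + 1) b < S.pos (t + 1) a then
          adiff (F t) (F (t + 1)) else 0) := by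
        apply Finset.sum_le_sum_of_subset
        intro t ht
        obtain ⟨ht1, ht2⟩ := Finset.mem_Ico.mp ht
        exact Finset.mem_Ico.mpr ⟨by omega, by omega⟩

lemma cnt_erase (F : Finset α) {p : α} (hp : p ∈ F) (t : ℕ) (q : α) :
    S.cnt F t q = S.cnt (F.erase p) t q + (if S.pos t p < S.pos t q then 1 else 0) := by
  unfold cnt
  by_cases h : S.pos t p < S.pos t q
  · rw [if_pos h]
    have hn : p ∉ (F.erase p).filter (fun r => S.pos t r < S.pos t q) := by simp
    rw [← Finset.card_insert_of_notMem hn]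
    congr 1
    ext r
    simp only [Finset.mem_filter, Finset.mem_insert, Finset.mem_erase]
    constructor
    · rintro ⟨h1, h2⟩
      by_cases hr : r = p
      · exact Or.inl hr
      · exact Or.inr ⟨⟨hr, h1⟩, h2⟩
    · rintro (rfl | ⟨⟨_, h1⟩, h2⟩)
      · exact ⟨hp, h⟩
      · exact ⟨h1, h2⟩
  · rw [if_neg h, Nat.add_zero]
    congr 1
    ext r
    simp only [Finset.mem_filter, Finset.mem_erase]
    constructor
    · rintro ⟨h1, h2⟩
      refine ⟨⟨?_, h1⟩, h2⟩
      rintro rfl
      exact h h2
    · rintro ⟨⟨_, h1⟩, h2⟩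
      exact ⟨h1, h2⟩

omit [DecidableEq α] in
/-- Larger position, larger count. -/
lemma cnt_lt_of_pos_lt (F : Finset α) {u v : α} (t : ℕ) (hu : u ∈ F)
    (h : S.pos t u < S.pos t v) : S.cnt F t u < S.cnt F t v := by
  unfold cnt
  apply Finset.card_lt_card
  rw [Finset.ssubset_iff_of_subset]
  · exact ⟨u, Finset.mem_filter.mpr ⟨hu, h⟩, by simp⟩
  · intro r hr
    obtain ⟨hr1, hr2⟩ := Finset.mem_filter.mp hr
    exact Finset.mem_filter.mpr ⟨hr1, by omega⟩

omit [DecidableEq α] in
lemma cnt_le_of_pos_lt (F : Finset α) {u v : α} (t : ℕ)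
    (h : S.pos t u < S.pos t v) : S.cnt F t u ≤ S.cnt F t v := by
  unfold cnt
  apply Finset.card_le_card
  intro r hr
  obtain ⟨hr1, hr2⟩ := Finset.mem_filter.mp hr
  exact Finset.mem_filter.mpr ⟨hr1, by omega⟩

end Sweep

end Vale.Agent.Lib.P040
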